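import Mathlib

/-!
# P179, ALLB, module TENSOR/AX, part TA1

The `D x D`-basis of a tensor product `A ⊗ E`, when `A` has a `D x D`-stable basis with twisted
stabilisers and `E` has a basis stable under conjugation by `D`.
-/

open scoped TensorProduct

namespace Vale.P179.H190

universe u v w

section Ten

variable {k : Type u} [Field k] {A : Type v} [Ring A] [Algebra k A] {E : Type w} [Ring E]
  [Algebra k E] {D : Type*} [CommGroup D] (u : D →* A) (v : D →* E)

/-- `u ⊗ v` -/
noncomputable def tmulHom : D →* A ⊗[k] E where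
  toFun g := u g ⊗ₜ[k] v g
  map_one' := by simp [Algebra.TensorProduct.one_def]
  map_mul' g h := by simp [Algebra.TensorProduct.tmul_mul_tmul]

lemma tmulHom_apply (g : D) : tmulHom (k := k) u v g = u g ⊗ₜ[k] v g := rfl

end Ten

/-- two-sided multiplication by units as a linear equivalence -/
def twoU (k : Type u) [Field k] {E : Type w} [Ring E] [Algebra k E] (p q : Eˣ) : E ≃ₗ[k] E where
  toFun f := p * (f * q)
  map_add' f g := by rw [add_mul, mul_add]
  map_smul' a f := by rw [smul_mul_assoc, mul_smul_comm, RingHom.id_apply]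
  invFun f := (↑p⁻¹ : E) * (f * (↑q⁻¹ : E))
  left_inv f := by simp [mul_assoc]
  right_inv f := by simp [mul_assoc]


/-- **TA1.** The tensor basis. -/
theorem tensor_basis {k : Type u} [Field k] {A : Type v} [Ring A] [Algebra k A] {E : Type w}
    [Ring E] [Algebra k E] {D : Type*} [CommGroup D] (u : D →* A) (v : D →* E)
    {Ω Θ : Type*} (b : Module.Basis Ω k A)
    (hb : ∀ (x y : D) (ω : Ω), ∃ ω', u x * b ω * u y = b ω')
    (θ : Module.Basis Θ k E) (hθ : ∀ (x : D) (i : Θ), ∃ j, v x * θ i * v x⁻¹ = θ j)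
    (n : Ω → Eˣ)
    (hn : ∀ (ω : Ω) (x y : D), u x * b ω = b ω * u y → (n ω : E) * v y = v x * n ω) :
    ∃ c : Module.Basis (Ω × Θ) k (A ⊗[k] E),
      (∀ (x y : D) (i : Ω × Θ), ∃ j, tmulHom (k := k) u v x * c i * tmulHom (k := k) u v y = c j) ∧
      (∀ (x y : D) (ω : Ω) (i : Θ), tmulHom (k := k) u v x * c (ω, i) =
        c (ω, i) * tmulHom (k := k) u v y ↔ (u x * b ω = b ω * u y ∧ v x * θ i = θ i * v x)) := by
  classical
  -- orbits
  have cancelL : ∀ (x : D) (a : A), u x⁻¹ * (u x * a) = a := fun x a => by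
    rw [← mul_assoc, ← map_mul, inv_mul_cancel, map_one, one_mul]
  have cancelL' : ∀ (x : D) (a : A), u x * (u x⁻¹ * a) = a := fun x a => by
    rw [← mul_assoc, ← map_mul, mul_inv_cancel, map_one, one_mul]
  have cancelR : ∀ (x : D) (a : A), a * u x * u x⁻¹ = a := fun x a => by
    rw [mul_assoc, ← map_mul, mul_inv_cancel, map_one, mul_one]
  have vcancelL : ∀ (x : D) (a : E), v x⁻¹ * (v x * a) = a := fun x a => by
    rw [← mul_assoc, ← map_mul, inv_mul_cancel, map_one, one_mul]
  have vcancelR : ∀ (x : D) (a : E), a * v x * v x⁻¹ = a := fun x a => by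
    rw [mul_assoc, ← map_mul, mul_inv_cancel, map_one, mul_one]
  have vcancelR' : ∀ (x : D) (a : E), a * v x⁻¹ * v x = a := fun x a => by
    rw [mul_assoc, ← map_mul, inv_mul_cancel, map_one, mul_one]
  let s : Setoid Ω :=
    { r := fun ω ω' => ∃ x y : D, u x * b ω * u y = b ω'
      iseqv := by
        constructor
        · intro ω; exact ⟨1, 1, by simp⟩
        · rintro ω ω' ⟨x, y, h⟩
          refine ⟨x⁻¹, y⁻¹, ?_⟩
          rw [← h, mul_assoc (u x), cancelL, cancelR]
        · rintro ω ω' ω'' ⟨x, y, h⟩ ⟨x', y', h'⟩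
          refine ⟨x' * x, y * y', ?_⟩
          rw [← h', ← h, map_mul, map_mul]
          simp only [mul_assoc] }
  let r : Ω → Ω := fun ω => (Quotient.mk s ω).out
  have hr : ∀ ω, ∃ x y : D, u x * b (r ω) * u y = b ω := fun ω => Quotient.mk_out ω
  choose X Y hXY using hr
  -- the bases of `E`
  let g : Ω → (E ≃ₗ[k] E) := fun ω =>
    twoU k (v.toHomUnits (X ω)) (n (r ω) * v.toHomUnits (Y ω))
  have hg : ∀ ω f, g ω f = v (X ω) * (f * n (r ω) * v (Y ω)) := fun ω f => by
    rw [mul_assoc f]; rfl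
  let c : Module.Basis (Ω × Θ) k (A ⊗[k] E) :=
    ((Finsupp.basis (fun ω : Ω => θ.map (g ω))).map
      (TensorProduct.equivFinsuppOfBasisLeft (N := E) b).symm).reindex (Equiv.sigmaEquivProd Ω Θ)
  have hc : ∀ ω i, c (ω, i) = b ω ⊗ₜ[k] (g ω (θ i)) := by
    intro ω i
    simp only [c, Module.Basis.reindex_apply, Module.Basis.map_apply, Finsupp.coe_basis]
    rw [TensorProduct.equivFinsuppOfBasisLeft_symm_apply]
    simp [Equiv.sigmaEquivProd]
  -- the key computation in `E`
  have key : ∀ (x y : D) (ω ω' : Ω) (i : Θ), u x * b ω * u y = b ω' →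
      v x * g ω (θ i) * v y = g ω' (v (X ω' * x⁻¹ * (X ω)⁻¹)⁻¹ * θ i *
        v (X ω' * x⁻¹ * (X ω)⁻¹)) := by
    intro x y ω ω' i h
    have hrr : r ω' = r ω := by
      have : Quotient.mk s ω = Quotient.mk s ω' := Quotient.sound (⟨x, y, h⟩ : s.r ω ω')
      simp only [r, this]
    have h1 : u ((X ω')⁻¹ * x * X ω) * b (r ω) = b (r ω) * u ((Y ω * y * (Y ω')⁻¹)⁻¹) := by
      have h2 := hXY ω'
      rw [hrr, ← h, ← hXY ω] at h2
      have h3 : u ((X ω')⁻¹ * x * X ω) * b (r ω) * u (Y ω * y * (Y ω')⁻¹) = b (r ω) := by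
        calc u ((X ω')⁻¹ * x * X ω) * b (r ω) * u (Y ω * y * (Y ω')⁻¹)
            = u (X ω')⁻¹ * (u x * (u (X ω) * b (r ω) * u (Y ω)) * u y) * u (Y ω')⁻¹ := by
              simp only [map_mul, mul_assoc]
          _ = b (r ω) := by
              rw [← h2, mul_assoc (u (X ω')), cancelL, cancelR]
      calc u ((X ω')⁻¹ * x * X ω) * b (r ω)
          = u ((X ω')⁻¹ * x * X ω) * b (r ω) * u (Y ω * y * (Y ω')⁻¹) *
            u ((Y ω * y * (Y ω')⁻¹)⁻¹) := by rw [cancelR]
        _ = _ := by rw [h3]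
    have h4 := hn _ _ _ h1
    rw [hg, hg, hrr]
    have e1 : (X ω' * x⁻¹ * (X ω)⁻¹)⁻¹ = (X ω')⁻¹ * x * X ω := by
      rw [mul_inv, mul_inv, inv_inv, inv_inv]
    rw [e1]
    have e2 : X ω' * x⁻¹ * (X ω)⁻¹ = ((X ω')⁻¹ * x * X ω)⁻¹ := by rw [← e1, inv_inv]
    rw [e2]
    set P := (X ω')⁻¹ * x * X ω with hP
    set Q := Y ω * y * (Y ω')⁻¹ with hQ
    have e3 : (n (r ω) : E) = v P * n (r ω) * v Q := by
      rw [← h4, mul_assoc, ← map_mul, inv_mul_cancel, map_one, mul_one]
    have e4 : x * X ω = X ω' * P := by rw [hP]; group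
    have e5 : Y ω * y = Q * Y ω' := by rw [hQ]; group
    calc v x * (v (X ω) * (θ i * n (r ω) * v (Y ω))) * v y
        = v (x * X ω) * (θ i * n (r ω)) * v (Y ω * y) := by simp only [map_mul, mul_assoc]
      _ = v (X ω') * (v P * (θ i * n (r ω)) * v Q) * v (Y ω') := by
          rw [e4, e5]; simp only [map_mul, mul_assoc]
      _ = v (X ω') * (v P * θ i * v P⁻¹ * (v P * n (r ω) * v Q)) * v (Y ω') := by
          congr 2
          rw [mul_assoc (v P * θ i), mul_assoc (v P) (n (r ω) : E), vcancelL]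
          simp only [mul_assoc]
      _ = v (X ω') * (v P * θ i * v P⁻¹ * n (r ω) * v (Y ω')) := by
          rw [← e3]; simp only [mul_assoc]
  have nz : ∀ ω i, g ω (θ i) ≠ 0 := fun ω i h => θ.ne_zero i ((g ω).map_eq_zero_iff.1 h)
  refine ⟨c, ?_, ?_⟩
  · rintro x y ⟨ω, i⟩
    obtain ⟨ω', h⟩ := hb x y ω
    obtain ⟨j, hj⟩ := hθ (X ω' * x⁻¹ * (X ω)⁻¹)⁻¹ i
    rw [inv_inv] at hj
    refine ⟨(ω', j), ?_⟩
    rw [hc, hc, tmulHom_apply, tmulHom_apply, Algebra.TensorProduct.tmul_mul_tmul,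
      Algebra.TensorProduct.tmul_mul_tmul, h, key x y ω ω' i h, hj]
  · intro x y ω i
    have hstep : tmulHom (k := k) u v x * c (ω, i) = c (ω, i) * tmulHom (k := k) u v y ↔
        tmulHom (k := k) u v x * c (ω, i) * tmulHom (k := k) u v y⁻¹ = c (ω, i) := by
      constructor
      · intro h
        rw [h, mul_assoc, ← map_mul, mul_inv_cancel, map_one, mul_one]
      · intro h
        conv_rhs => rw [← h]
        rw [mul_assoc, ← map_mul, inv_mul_cancel, map_one, mul_one]
    rw [hstep]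
    obtain ⟨ω', h⟩ := hb x y⁻¹ ω
    have hval : tmulHom (k := k) u v x * c (ω, i) * tmulHom (k := k) u v y⁻¹ =
        b ω' ⊗ₜ[k] (v x * g ω (θ i) * v y⁻¹) := by
      rw [hc, tmulHom_apply, tmulHom_apply, Algebra.TensorProduct.tmul_mul_tmul,
        Algebra.TensorProduct.tmul_mul_tmul, h]
    have heq : (b ω' ⊗ₜ[k] (v x * g ω (θ i) * v y⁻¹) = b ω ⊗ₜ[k] g ω (θ i)) ↔
        (ω' = ω ∧ v x * g ω (θ i) * v y⁻¹ = g ω (θ i)) := by
      constructor
      · intro h1
        have h2 := congrArg (TensorProduct.equivFinsuppOfBasisLeft (N := E) b) h1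
        rw [TensorProduct.equivFinsuppOfBasisLeft_apply_tmul,
          TensorProduct.equivFinsuppOfBasisLeft_apply_tmul, b.repr_self, b.repr_self,
          Finsupp.mapRange_single, Finsupp.mapRange_single, one_smul, one_smul,
          Finsupp.single_eq_single_iff] at h2
        rcases h2 with h2 | h2
        · exact h2
        · exact absurd h2.2 (nz ω i)
      · rintro ⟨h1, h2⟩; rw [h1, h2]
    rw [hval, hc, heq]
    have hω : ω' = ω ↔ u x * b ω = b ω * u y := by
      constructor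
      · intro h1
        rw [h1] at h
        conv_rhs => rw [← h]
        rw [mul_assoc, ← map_mul, inv_mul_cancel, map_one, mul_one]
      · intro h1
        rw [h1, cancelR] at h
        exact (b.injective h).symm
    rw [hω]
    refine and_congr_right fun h1 => ?_
    -- now `(x, y)` stabilises `ω`, hence `r ω`
    have h2 : u x * b (r ω) = b (r ω) * u y := by
      have h3 : b (r ω) = u (X ω)⁻¹ * b ω * u (Y ω)⁻¹ := by
        rw [← hXY ω, mul_assoc (u (X ω)), cancelL, cancelR]
      rw [h3]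
      calc u x * (u (X ω)⁻¹ * b ω * u (Y ω)⁻¹) = u (X ω)⁻¹ * (u x * b ω) * u (Y ω)⁻¹ := by
            rw [← mul_assoc, ← mul_assoc, ← map_mul, mul_comm x, map_mul]
            simp only [mul_assoc]
        _ = u (X ω)⁻¹ * b ω * u (Y ω)⁻¹ * u y := by
            rw [h1, mul_assoc, mul_assoc, ← map_mul, mul_comm y, map_mul]
            simp only [mul_assoc]
    have h3 := hn _ _ _ h2
    have h4 : v x * g ω (θ i) * v y⁻¹ = v (X ω) * ((v x * θ i) * v x⁻¹ * n (r ω) * v (Y ω)) := by
      rw [hg]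
      have h5 : (n (r ω) : E) = v x * n (r ω) * v y⁻¹ := by
        rw [← h3, vcancelR]
      calc v x * (v (X ω) * (θ i * n (r ω) * v (Y ω))) * v y⁻¹
          = v (x * X ω) * (θ i * n (r ω)) * v (Y ω * y⁻¹) := by simp only [map_mul, mul_assoc]
        _ = v (X ω) * (v x * (θ i * n (r ω)) * v y⁻¹) * v (Y ω) := by
            rw [mul_comm x, mul_comm (Y ω)]; simp only [map_mul, mul_assoc]
        _ = v (X ω) * (v x * θ i * v x⁻¹ * (v x * n (r ω) * v y⁻¹)) * v (Y ω) := by
            congr 2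
            rw [mul_assoc (v x * θ i), mul_assoc (v x) (n (r ω) : E), vcancelL]
            simp only [mul_assoc]
        _ = _ := by rw [← h5]; simp only [mul_assoc]
    rw [h4, ← hg, (g ω).injective.eq_iff]
    constructor
    · intro h5
      conv_rhs => rw [← h5]
      rw [vcancelR']
    · intro h5
      rw [h5, vcancelR]

end Vale.P179.H190
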