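import Vale.Agent.P179.Allb.DefsR
import Vale.Agent.P179.H190.Ten1

/-!
# P179, ALLB, module MATM: the twisted basis of the matrix algebra over `Λ`
-/

namespace Vale.P179.H190

open Vale.P179.Allb
open scoped TensorProduct

/-- the trace form of a matrix algebra over a symmetric algebra -/
def trForm {k Λ J : Type} [Field k] [Ring Λ] [Algebra k Λ] [Fintype J] (t : Λ →ₗ[k] k) :
    Matrix J J Λ →ₗ[k] k where
  toFun M := ∑ a, t (M a a)
  map_add' M N := by simp [Finset.sum_add_distrib]
  map_smul' r M := by simp [Finset.mul_sum]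

lemma trForm_comm {k Λ J : Type} [Field k] [Ring Λ] [Algebra k Λ] [Fintype J] [DecidableEq J]
    (t : Λ →ₗ[k] k) (tc : ∀ x y, t (x * y) = t (y * x)) (M N : Matrix J J Λ) :
    trForm t (M * N) = trForm t (N * M) := by
  change ∑ a, t ((M * N) a a) = ∑ a, t ((N * M) a a)
  simp only [Matrix.mul_apply, map_sum]
  rw [Finset.sum_comm]
  exact Finset.sum_congr rfl fun a _ => Finset.sum_congr rfl fun b _ => tc _ _

lemma trForm_nd {k Λ J : Type} [Field k] [Ring Λ] [Algebra k Λ] [Fintype J] [DecidableEq J]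
    (t : Λ →ₗ[k] k) (nd : ∀ x, (∀ y, t (x * y) = 0) → x = 0) (M : Matrix J J Λ)
    (h : ∀ N, trForm t (M * N) = 0) : M = 0 := by
  ext a b
  apply nd
  intro y
  have h1 := h (Matrix.single b a y)
  change ∑ c, t ((M * Matrix.single b a y) c c) = 0 at h1
  rw [Finset.sum_eq_single a] at h1
  · rw [Matrix.mul_single_apply_same] at h1
    exact h1
  · intro c _ hc
    rw [Matrix.mul_single_apply_of_ne _ _ _ _ _ hc, map_zero]
  · intro h'; exact absurd (Finset.mem_univ _) h'

/-- **MODULE MATM, without freeness** -/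
theorem matmr : MATMR := by
  intro p _ k _ _ D _ _ τ e _ hTW Λ _ _ A J _ _ w
  classical
  -- the unit `ν`
  have he : 0 < e := Nat.pos_of_ne_zero (NeZero.ne e)
  have hνu : IsUnit w.ν := IsUnit.of_pow_eq_one w.νpow he.ne'
  obtain ⟨νU, hνU⟩ := hνu
  have hνpow : ∀ (s : ℕ) (x : D), ((νU ^ s : (Matrix J J k)ˣ) : Matrix J J k) * w.r x =
      w.r ((τ ^ s) x) * ((νU ^ s : (Matrix J J k)ˣ) : Matrix J J k) := by
    intro s
    induction s with
    | zero => intro x; simp
    | succ s ih =>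
      intro x
      rw [pow_succ, Units.val_mul, mul_assoc, hνU, w.νr, ← mul_assoc, ih, pow_succ, mul_assoc]
      rfl
  choose s hs using A.tw
  let n : A.I → (Matrix J J k)ˣ := fun i => (νU ^ s i)⁻¹
  have hn : ∀ (i : A.I) (x y : D), A.u x * A.b i = A.b i * A.u y →
      (n i : Matrix J J k) * w.r y = w.r x * (n i : Matrix J J k) := by
    intro i x y h
    rw [hs i x y h]
    have h1 := hνpow (s i) x
    calc ((n i : (Matrix J J k)ˣ) : Matrix J J k) * w.r ((τ ^ s i) x)
        = (n i : Matrix J J k) * (w.r ((τ ^ s i) x) * ((νU ^ s i : (Matrix J J k)ˣ) :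
            Matrix J J k)) * (n i : Matrix J J k) := by
          rw [mul_assoc, mul_assoc, Units.mul_inv, mul_one]
      _ = _ := by rw [← h1, ← mul_assoc, Units.inv_mul, one_mul]
  obtain ⟨c, hc1, hc2⟩ := tensor_basis A.u w.r A.b A.stab w.θ w.stab n hn
  let E : Matrix J J Λ ≃ₐ[k] Λ ⊗[k] Matrix J J k := matrixEquivTensor J k Λ
  let uB : D →* Matrix J J Λ :=
    ((E.symm : Λ ⊗[k] Matrix J J k →ₐ[k] Matrix J J Λ) : Λ ⊗[k] Matrix J J k →* Matrix J J Λ).comp
      (tmulHom (k := k) A.u w.r)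
  have huB : ∀ x, uB x = E.symm (tmulHom (k := k) A.u w.r x) := fun x => rfl
  let bB : Module.Basis (A.I × w.T) k (Matrix J J Λ) := c.map E.symm.toLinearEquiv
  have hbB : ∀ i, bB i = E.symm (c i) := fun i => rfl
  have hrel : ∀ (x y : D) (i : A.I × w.T), uB x * bB i = bB i * uB y ↔
      (A.u x * A.b i.1 = A.b i.1 * A.u y ∧ w.r x * w.θ i.2 = w.θ i.2 * w.r x) := by
    rintro x y ⟨i, l⟩
    rw [← hc2, huB, huB, hbB, ← map_mul, ← map_mul, E.symm.injective.eq_iff]
  have := A.fin
  have := w.fin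
  refine ⟨{ u := uB
            t := trForm A.t
            I := A.I × w.T
            fin := inferInstance
            b := bB
            tc := trForm_comm A.t A.tc
            nd := trForm_nd A.t A.nd
            stab := ?_ }, ?_, ?_, ?_, ?_⟩
  · intro x y i
    obtain ⟨j, hj⟩ := hc1 x y i
    refine ⟨j, ?_⟩
    rw [huB, huB, hbB, hbB, ← map_mul, ← map_mul, hj]
  · intro x a b
    change uB x a b = _
    rw [huB, tmulHom_apply]
    change (matrixEquivTensor J k Λ).symm (A.u x ⊗ₜ[k] w.r x) a b = _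
    rw [matrixEquivTensor_apply_symm]
    change A.u x * algebraMap k Λ (w.r x a b) = _
    rw [← Algebra.commutes, Algebra.smul_def]
  · intro M; rfl
  · intro i
    exact ⟨s i.1, fun x y h => hs i.1 x y ((hrel x y i).1 h).1⟩
  · intro X
    change Nat.card {i : A.I × w.T // ∀ x ∈ X, uB x * bB i = bB i * uB x} =
      Nat.card {i : A.I // ∀ x ∈ X, A.u x * A.b i = A.b i * A.u x} *
        Nat.card {i : w.T // ∀ x ∈ X, w.r x * w.θ i = w.θ i * w.r x}
    rw [← Nat.card_prod]
    refine Nat.card_congr ((Equiv.subtypeEquivRight fun i => ?_).trans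
      (Equiv.subtypeProdEquivProd (p := fun i : A.I => ∀ x ∈ X, A.u x * A.b i = A.b i * A.u x)
        (q := fun i : w.T => ∀ x ∈ X, w.r x * w.θ i = w.θ i * w.r x)))
    constructor
    · intro h
      exact ⟨fun x hx => ((hrel x x i).1 (h x hx)).1, fun x hx => ((hrel x x i).1 (h x hx)).2⟩
    · intro h x hx
      exact (hrel x x i).2 ⟨h.1 x hx, h.2 x hx⟩

/-- **MODULE MATM** -/
theorem matm : MATM := fun p _ k _ _ D _ _ τ e _ hTW => matmr p k D τ e hTW.toTW0

end Vale.P179.H190
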