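import Mathlib

/-!
# P179, signature theorem, module KD (group algebra of an abelian p-group), part 1

Augmentation, the subspaces `J j`, point derivations `Phi`, the structure of a finite abelian
p-group in the form needed here.
-/

open Finset MonoidAlgebra
open scoped BigOperators

namespace Vale.P179.H190

universe u v

section Basics

variable {k : Type u} [Field k] {D : Type v} [CommGroup D]

/-- augmentation -/
noncomputable def aug (k : Type u) [Field k] (D : Type v) [CommGroup D] :
    MonoidAlgebra k D →ₐ[k] k := MonoidAlgebra.lift k k D 1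

@[simp] lemma aug_single (d : D) (a : k) : aug k D (MonoidAlgebra.single d a) = a := by
  simp [aug]

/-- augmentation ideal as a `k`-subspace -/
noncomputable def K (k : Type u) [Field k] (D : Type v) [CommGroup D] :
    Submodule k (MonoidAlgebra k D) := LinearMap.ker (aug k D).toLinearMap

lemma mem_K {x : MonoidAlgebra k D} : x ∈ K k D ↔ aug k D x = 0 := by
  simp [K]

/-- the element `d - 1` -/
noncomputable def dl (k : Type u) [Field k] {D : Type v} [CommGroup D] (d : D) :
    MonoidAlgebra k D := MonoidAlgebra.single d 1 - 1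

lemma aug_dl (d : D) : aug k D (dl k d) = 0 := by simp [dl]

lemma dl_mem_K (d : D) : dl k d ∈ K k D := mem_K.2 (aug_dl d)

lemma dl_mul (d d' : D) : dl k (d * d') = dl k d + dl k d' + dl k d * dl k d' := by
  have h : (MonoidAlgebra.single (d * d') 1 : MonoidAlgebra k D) =
      MonoidAlgebra.single d 1 * MonoidAlgebra.single d' 1 := by
    rw [MonoidAlgebra.single_mul_single, one_mul]
  simp only [dl, h]
  ring

/-- every element is its augmentation plus a combination of the `d - 1` -/
lemma eq_aug_add_sum (x : MonoidAlgebra k D) :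
    x = algebraMap k _ (aug k D x) + x.coeff.sum (fun d a => a • dl k d) := by
  induction x using MonoidAlgebra.induction_linear with
  | zero => simp
  | add x y hx hy =>
    rw [map_add, map_add, MonoidAlgebra.coeff_add, Finsupp.sum_add_index']
    · nth_rewrite 1 [hx]; nth_rewrite 1 [hy]; ring
    · intro a; simp
    · intro a b c; rw [add_smul]
  | single d a =>
    rw [aug_single, MonoidAlgebra.coeff_single, Finsupp.sum_single_index (by simp)]
    simp only [dl, smul_sub, MonoidAlgebra.smul_single, smul_eq_mul, mul_one]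
    rw [Algebra.algebraMap_eq_smul_one]
    abel

lemma K_eq_span : K k D = Submodule.span k (Set.range (dl k (D := D))) := by
  apply le_antisymm
  · intro x hx
    rw [eq_aug_add_sum x, mem_K.1 hx, map_zero, zero_add]
    exact Submodule.sum_mem _ fun d _ => Submodule.smul_mem _ _ (Submodule.subset_span ⟨d, rfl⟩)
  · rw [Submodule.span_le]
    rintro _ ⟨d, rfl⟩
    exact dl_mem_K d

lemma mul_mem_K {x y : MonoidAlgebra k D} (hx : x ∈ K k D) : x * y ∈ K k D := by
  rw [mem_K] at *; rw [map_mul, hx, zero_mul]

lemma mul_mem_K' {x y : MonoidAlgebra k D} (hy : y ∈ K k D) : x * y ∈ K k D := by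
  rw [mem_K] at *; rw [map_mul, hy, mul_zero]

lemma KK_le : K k D * K k D ≤ K k D := Submodule.mul_le.2 fun _ hx _ _ => mul_mem_K hx

/-- the subspace spanned by `d - 1` with `d` in the `p^j`-torsion -/
noncomputable def J (k : Type u) [Field k] (D : Type v) [CommGroup D] (p j : ℕ) :
    Submodule k (MonoidAlgebra k D) :=
  Submodule.span k (dl k '' {d : D | d ^ (p ^ j) = 1})

lemma J_le_K (p j : ℕ) : J k D p j ≤ K k D := by
  rw [J, Submodule.span_le]
  rintro _ ⟨d, _, rfl⟩
  exact dl_mem_K d

lemma J_mono (p : ℕ) {i j : ℕ} (h : i ≤ j) : J k D p i ≤ J k D p j := by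
  apply Submodule.span_mono
  apply Set.image_mono
  intro d hd
  obtain ⟨c, rfl⟩ := Nat.exists_eq_add_of_le h
  simp only [Set.mem_ofPred_eq] at *
  rw [pow_add, pow_mul, hd, one_pow]

lemma J_zero (p : ℕ) : J k D p 0 = ⊥ := by
  rw [J, Submodule.span_eq_bot]
  rintro _ ⟨d, hd, rfl⟩
  have : d = 1 := by simpa using hd
  subst this
  simp [dl, MonoidAlgebra.one_def]

lemma J_top {p j : ℕ} (h : ∀ d : D, d ^ (p ^ j) = 1) : J k D p j = K k D := by
  rw [K_eq_span, J]
  congr 1
  ext x
  constructor
  · rintro ⟨d, _, rfl⟩; exact ⟨d, rfl⟩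
  · rintro ⟨d, rfl⟩; exact ⟨d, h d, rfl⟩

lemma charP_A (p : ℕ) [CharP k p] : CharP (MonoidAlgebra k D) p :=
  charP_of_injective_algebraMap (algebraMap k (MonoidAlgebra k D)).injective p

lemma J_pow {p : ℕ} [Fact p.Prime] [CharP k p] {j : ℕ} {z : MonoidAlgebra k D}
    (hz : z ∈ J k D p j) : z ^ (p ^ j) = 0 := by
  have : CharP (MonoidAlgebra k D) p := charP_A p
  have hp : p ^ j ≠ 0 := pow_ne_zero _ (Fact.out : p.Prime).ne_zero
  induction hz using Submodule.span_induction with
  | mem x hx =>
    obtain ⟨d, hd, rfl⟩ := hx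
    rw [dl, sub_pow_char_pow, MonoidAlgebra.single_pow, one_pow, one_pow]
    rw [show d ^ p ^ j = 1 from hd, MonoidAlgebra.one_def, sub_self]
  | zero => exact zero_pow hp
  | add x y _ _ hx hy => rw [add_pow_char_pow, hx, hy, add_zero]
  | smul a x _ hx => rw [smul_pow, hx, smul_zero]

/-- the automorphism of the group algebra induced by an automorphism of the group -/
noncomputable def al (k : Type u) [Field k] {D : Type v} [CommGroup D] (t : D ≃* D) :
    MonoidAlgebra k D ≃ₐ[k] MonoidAlgebra k D := MonoidAlgebra.domCongr k k t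

@[simp] lemma al_single (t : D ≃* D) (d : D) (a : k) :
    al k t (MonoidAlgebra.single d a) = MonoidAlgebra.single (t d) a := by
  simp [al]

lemma al_dl (t : D ≃* D) (d : D) : al k t (dl k d) = dl k (t d) := by
  simp [dl]

lemma al_J (t : D ≃* D) {p j : ℕ} {z : MonoidAlgebra k D} (hz : z ∈ J k D p j) :
    al k t z ∈ J k D p j := by
  induction hz using Submodule.span_induction with
  | mem x hx =>
    obtain ⟨d, hd, rfl⟩ := hx
    rw [al_dl]
    refine Submodule.subset_span ⟨t d, ?_, rfl⟩
    rw [Set.mem_ofPred_eq, ← map_pow, show d ^ p ^ j = 1 from hd, map_one]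
  | zero => simp
  | add x y _ _ hx hy => rw [map_add]; exact Submodule.add_mem _ hx hy
  | smul a x _ hx => rw [map_smul]; exact Submodule.smul_mem _ _ hx

/-- coefficientwise Frobenius -/
noncomputable def Fr (k : Type u) [Field k] (D : Type v) [CommGroup D] (p : ℕ) [Fact p.Prime]
    [CharP k p] : MonoidAlgebra k D →+* MonoidAlgebra k D :=
  MonoidAlgebra.mapRingHom D (frobenius k p)

@[simp] lemma Fr_single (p : ℕ) [Fact p.Prime] [CharP k p] (d : D) (a : k) :
    Fr k D p (MonoidAlgebra.single d a) = MonoidAlgebra.single d (a ^ p) := by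
  simp [Fr, frobenius_def]

lemma Fr_dl (p : ℕ) [Fact p.Prime] [CharP k p] (d : D) : Fr k D p (dl k d) = dl k d := by
  simp [dl]

lemma Fr_smul (p : ℕ) [Fact p.Prime] [CharP k p] (a : k) (x : MonoidAlgebra k D) :
    Fr k D p (a • x) = a ^ p • Fr k D p x := by
  induction x using MonoidAlgebra.induction_linear with
  | zero => simp
  | add x y hx hy => simp only [smul_add, map_add, hx, hy]
  | single d b => rw [MonoidAlgebra.smul_single, Fr_single, Fr_single, MonoidAlgebra.smul_single,
      smul_eq_mul, smul_eq_mul, mul_pow]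

lemma Fr_J (p : ℕ) [Fact p.Prime] [CharP k p] {j : ℕ} {z : MonoidAlgebra k D}
    (hz : z ∈ J k D p j) : Fr k D p z ∈ J k D p j := by
  induction hz using Submodule.span_induction with
  | mem x hx =>
    obtain ⟨d, hd, rfl⟩ := hx
    rw [Fr_dl]
    exact Submodule.subset_span ⟨d, hd, rfl⟩
  | zero => simp
  | add x y _ _ hx hy => rw [map_add]; exact Submodule.add_mem _ hx hy
  | smul a x _ hx => rw [Fr_smul]; exact Submodule.smul_mem _ _ hx

lemma Fr_al (p : ℕ) [Fact p.Prime] [CharP k p] (t : D ≃* D) (x : MonoidAlgebra k D) :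
    Fr k D p (al k t x) = al k t (Fr k D p x) := by
  induction x using MonoidAlgebra.induction_linear with
  | zero => simp
  | add x y hx hy => simp only [map_add, hx, hy]
  | single d a => simp

end Basics

section Phi

variable {k : Type u} [Field k] {D : Type v} [CommGroup D] {ι : Type*}

/-- linear extension of a function `D → V` -/
noncomputable def Phi (δ : D → ι → k) : MonoidAlgebra k D →ₗ[k] (ι → k) :=
  (Finsupp.linearCombination k δ) ∘ₗ (MonoidAlgebra.coeffLinearEquiv k).toLinearMap

@[simp] lemma Phi_single (δ : D → ι → k) (d : D) (a : k) :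
    Phi δ (MonoidAlgebra.single d a) = a • δ d := by
  simp [Phi]

lemma Phi_mul {δ : D → ι → k} (hδ : ∀ d d', δ (d * d') = δ d + δ d') (x y : MonoidAlgebra k D) :
    Phi δ (x * y) = aug k D y • Phi δ x + aug k D x • Phi δ y := by
  induction x using MonoidAlgebra.induction_linear with
  | zero => simp
  | add x x' hx hx' => rw [add_mul, map_add, hx, hx', map_add, map_add, smul_add, add_smul]; abel
  | single d a =>
    induction y using MonoidAlgebra.induction_linear with
    | zero => simp
    | add y y' hy hy' => rw [mul_add, map_add, hy, hy', map_add, map_add, smul_add, add_smul]; abel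
    | single d' a' =>
      rw [MonoidAlgebra.single_mul_single, Phi_single, Phi_single, Phi_single, aug_single,
        aug_single, hδ, smul_add, smul_smul, smul_smul, mul_comm a']

lemma Phi_KK {δ : D → ι → k} (hδ : ∀ d d', δ (d * d') = δ d + δ d') {x : MonoidAlgebra k D}
    (hx : x ∈ K k D * K k D) : Phi δ x = 0 := by
  have : K k D * K k D ≤ LinearMap.ker (Phi δ) := by
    refine Submodule.mul_le.2 fun a ha b hb => ?_
    rw [LinearMap.mem_ker, Phi_mul hδ, mem_K.1 ha, mem_K.1 hb, zero_smul, zero_smul, add_zero]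
  exact this hx

lemma delta_one {δ : D → ι → k} (hδ : ∀ d d', δ (d * d') = δ d + δ d') : δ 1 = 0 := by
  have := hδ 1 1
  rw [mul_one] at this
  simpa using this

lemma Phi_dl {δ : D → ι → k} (hδ : ∀ d d', δ (d * d') = δ d + δ d') (d : D) :
    Phi δ (dl k d) = δ d := by
  rw [dl, map_sub, MonoidAlgebra.one_def, Phi_single, Phi_single, one_smul, one_smul,
    delta_one hδ, sub_zero]

lemma Phi_al (δ : D → ι → k) (t : D ≃* D) (x : MonoidAlgebra k D) :
    Phi δ (al k t x) = Phi (fun d => δ (t d)) x := by
  induction x using MonoidAlgebra.induction_linear with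
  | zero => simp
  | add x y hx hy => simp only [map_add, hx, hy]
  | single d a => simp

lemma Phi_Fr (p : ℕ) [Fact p.Prime] [CharP k p] {δ : D → ι → k}
    (hδp : ∀ d i, δ d i ^ p = δ d i) (x : MonoidAlgebra k D) (i : ι) :
    Phi δ (Fr k D p x) i = (Phi δ x i) ^ p := by
  induction x using MonoidAlgebra.induction_linear with
  | zero => simp [(Fact.out : p.Prime).ne_zero]
  | add x y hx hy => simp only [map_add, Pi.add_apply, hx, hy, add_pow_char]
  | single d a => simp [mul_pow, hδp]

/-- additivity of `Phi` in `δ` -/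
lemma Phi_sum {κ : Type*} (s : Finset κ) (δ : κ → D → ι → k) (x : MonoidAlgebra k D) :
    ∑ j ∈ s, Phi (δ j) x = Phi (fun d => ∑ j ∈ s, δ j d) x := by
  induction x using MonoidAlgebra.induction_linear with
  | zero => simp
  | add x y hx hy => simp only [map_add, Finset.sum_add_distrib, hx, hy]
  | single d a => simp [Finset.smul_sum]

lemma Phi_zero (x : MonoidAlgebra k D) : Phi (fun _ => (0 : ι → k)) x = 0 := by
  induction x using MonoidAlgebra.induction_linear with
  | zero => simp
  | add x y hx hy => simp only [map_add, hx, hy, add_zero]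
  | single d a => simp

end Phi

/-- generators and coordinates of a finite abelian p-group -/
structure Coord (k : Type u) [Field k] (D : Type v) [CommGroup D] (p : ℕ) where
  ι : Type
  [fin : Fintype ι]
  [dec : DecidableEq ι]
  m : ι → ℕ
  g : ι → D
  δ : D → ι → k
  one_le : ∀ i, 1 ≤ m i
  δ_mul : ∀ d d', δ (d * d') = δ d + δ d'
  δ_p : ∀ d i, δ d i ^ p = δ d i
  δ_g : ∀ i, δ (g i) = Pi.single i 1
  g_pow : ∀ i, g i ^ (p ^ m i) = 1
  gen : ∀ d : D, ∃ n : ι → ℕ, d = ∏ i, g i ^ n i
  card : Nat.card D = p ^ ∑ i, m i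

attribute [instance] Coord.fin Coord.dec

theorem nonempty_coord (k : Type u) [Field k] (D : Type v) [CommGroup D] [Finite D] (p : ℕ)
    [hp : Fact p.Prime] [CharP k p] (hD : IsPGroup p D) : Nonempty (Coord k D p) := by
  classical
  obtain ⟨ι, hι, n, hn, ⟨E⟩⟩ := CommGroup.equiv_prod_multiplicative_zmod_of_finite D
  obtain ⟨s, hs⟩ := IsPGroup.iff_card.1 hD
  have : ∀ i, NeZero (n i) := fun i => ⟨by have := hn i; omega⟩
  have hcard : Nat.card D = ∏ i, n i := by
    rw [Nat.card_congr E.toEquiv, Nat.card_pi]
    refine Finset.prod_congr rfl fun i _ => ?_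
    rw [Nat.card_congr (Multiplicative.toAdd), Nat.card_zmod]
  have hdvd : ∀ i, n i ∣ p ^ s := fun i => by
    rw [← hs, hcard]; exact Finset.dvd_prod_of_mem _ (Finset.mem_univ i)
  choose m hm using fun i => (Nat.dvd_prime_pow hp.out).1 (hdvd i)
  have hm1 : ∀ i, 1 ≤ m i := fun i => by
    by_contra h
    have h0 : m i = 0 := by omega
    have := (hm i).2
    rw [h0, pow_zero] at this
    have := hn i
    omega
  have hpn : ∀ i, p ∣ n i := fun i => by
    rw [(hm i).2]; exact dvd_pow_self _ (by have := hm1 i; omega)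
  refine ⟨{
    ι := ι
    m := m
    g := fun i => E.symm (Pi.mulSingle i (Multiplicative.ofAdd 1))
    δ := fun d i => ZMod.castHom (dvd_refl p) k (ZMod.castHom (hpn i) (ZMod p)
      (Multiplicative.toAdd (E d i)))
    one_le := hm1
    δ_mul := ?_
    δ_p := ?_
    δ_g := ?_
    g_pow := ?_
    gen := ?_
    card := ?_ }⟩
  · intro d d'
    ext i
    simp only [map_mul, Pi.mul_apply, toAdd_mul, map_add, Pi.add_apply]
  · intro d i
    rw [← map_pow, ZMod.pow_card]
  · intro i
    ext j
    simp only [MulEquiv.apply_symm_apply]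
    by_cases h : j = i
    · subst h
      rw [Pi.mulSingle_eq_same, toAdd_ofAdd, map_one, map_one, Pi.single_eq_same]
    · rw [Pi.mulSingle_eq_of_ne h, Pi.single_eq_of_ne h]; simp
  · intro i
    rw [← map_pow, ← Pi.mulSingle_pow, ← ofAdd_nsmul, ← (hm i).2]
    simp
  · intro d
    refine ⟨fun i => (Multiplicative.toAdd (E d i)).val, ?_⟩
    apply E.injective
    rw [map_prod]
    ext i
    rw [Finset.prod_apply]
    rw [Finset.prod_eq_single i]
    · rw [map_pow, MulEquiv.apply_symm_apply, Pi.pow_apply, Pi.mulSingle_eq_same, ← ofAdd_nsmul]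
      simp
    · intro j _ hj
      rw [map_pow, MulEquiv.apply_symm_apply, Pi.pow_apply, Pi.mulSingle_eq_of_ne (Ne.symm hj),
        one_pow]
    · intro h; exact absurd (Finset.mem_univ _) h
  · rw [hcard, ← Finset.prod_pow_eq_pow_sum]
    exact Finset.prod_congr rfl fun i _ => (hm i).2

end Vale.P179.H190
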