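import Mathlib

/-!
# P179, ALLB, module TENSOR/AX, part Ten3: an invariant primitive idempotent
-/

namespace Vale.P179.H190

universe u v

section Idem

variable {k : Type u} [Field k] {C : Type v} [Ring C] [Algebra k C]

/-- a character of a matrix algebra forces size one -/
lemma size_one {d : ℕ} (χ : Matrix (Fin d) (Fin d) k →ₗ[k] k)
    (hmul : ∀ A B, χ (A * B) = χ A * χ B) (h1 : χ 1 ≠ 0) : Subsingleton (Fin d) := by
  classical
  by_contra hns
  rw [not_subsingleton_iff_nontrivial] at hns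
  apply h1
  have hii : ∀ i : Fin d, χ (Matrix.single i i 1) = 0 := by
    intro i
    obtain ⟨j, hj⟩ := exists_ne i
    have hij : χ (Matrix.single i j 1) = 0 := by
      have h2 : Matrix.single i j (1 : k) * Matrix.single i j 1 = 0 := by
        rw [Matrix.single_mul_single_of_ne]
        exact hj
      have h3 := hmul (Matrix.single i j 1) (Matrix.single i j 1)
      rw [h2, map_zero] at h3
      exact mul_self_eq_zero.1 h3.symm
    have h2 : Matrix.single i j (1 : k) * Matrix.single j i 1 = Matrix.single i i 1 := by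
      rw [Matrix.single_mul_single_same, one_mul]
    rw [← h2, hmul, hij, zero_mul]
  have h2 : (1 : Matrix (Fin d) (Fin d) k) = ∑ i, Matrix.single i i 1 := by
    rw [Matrix.sum_single_one]
  rw [h2, map_sum]
  exact Finset.sum_eq_zero fun i _ => hii i

/-- nilpotent elements of a corner plus a nonzero scalar are units of the corner -/
lemma corner_unit {j n : C} (hj : j * j = j) (hn1 : j * n = n) (hn2 : n * j = n)
    (hn : IsNilpotent n) {a : k} (ha : a ≠ 0) :
    ∃ y, j * y = y ∧ y * j = y ∧ (a • j + n) * y = j ∧ y * (a • j + n) = j := by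
  have hn' : IsNilpotent (a⁻¹ • n) := hn.smul a⁻¹
  obtain ⟨w, hw⟩ := hn'.isUnit_one_add
  have hcomm : (1 + a⁻¹ • n) * j = j * (1 + a⁻¹ • n) := by
    rw [add_mul, mul_add, one_mul, mul_one, smul_mul_assoc, mul_smul_comm, hn1, hn2]
  rw [← hw] at hcomm
  have hcomm' : (↑w⁻¹ : C) * j = j * (↑w⁻¹ : C) := by
    calc (↑w⁻¹ : C) * j = ↑w⁻¹ * (j * ↑w) * ↑w⁻¹ := by
          rw [mul_assoc, mul_assoc, Units.mul_inv, mul_one]
      _ = ↑w⁻¹ * (↑w * j) * ↑w⁻¹ := by rw [← hcomm]
      _ = j * (↑w⁻¹ : C) := by rw [← mul_assoc, Units.inv_mul, one_mul]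
  have e1 : a • j + n = a • (j * (w : C)) := by
    rw [hw, mul_add, mul_one, mul_smul_comm, hn1, smul_add, smul_smul, mul_inv_cancel₀ ha, one_smul]
  refine ⟨a⁻¹ • (j * (↑w⁻¹ : C)), ?_, ?_, ?_, ?_⟩
  · rw [mul_smul_comm, ← mul_assoc, hj]
  · rw [smul_mul_assoc, mul_assoc, hcomm', ← mul_assoc, hj]
  · rw [e1, smul_mul_smul_comm, mul_inv_cancel₀ ha, one_smul, ← hcomm, mul_assoc, ← mul_assoc j j,
      hj, ← hcomm', ← mul_assoc, Units.mul_inv, one_mul]
  · rw [e1, smul_mul_smul_comm, inv_mul_cancel₀ ha, one_smul, ← hcomm', mul_assoc, ← mul_assoc j j,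
      hj, ← hcomm, ← mul_assoc, Units.inv_mul, one_mul]

/-- **the invariant primitive idempotent belonging to an invariant character** -/
theorem exists_inv_idem [IsAlgClosed k] [FiniteDimensional k C] (σ : C ≃ₐ[k] C) {e : ℕ}
    (hσ : σ ^ e = 1) (he : (e : k) ≠ 0) (χ : C →ₐ[k] k) (hχ : ∀ x, χ (σ x) = χ x) :
    ∃ j : C, j * j = j ∧ σ j = j ∧ χ j = 1 ∧
      ∀ x, j * x = x → x * j = x → ∃ n : C, x = χ x • j + n ∧ IsNilpotent n ∧
        j * n = n ∧ n * j = n := by
  classical
  have := IsArtinianRing.of_finite k C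
  have hss : IsSemisimpleRing (C ⧸ Ring.jacobson C) := inferInstance
  obtain ⟨m, d, _, ⟨E⟩⟩ :=
    IsSemisimpleRing.exists_algEquiv_pi_matrix_of_isAlgClosed k (C ⧸ Ring.jacobson C)
  let φ : C →ₐ[k] Π i, Matrix (Fin (d i)) (Fin (d i)) k :=
    E.toAlgHom.comp (Ideal.Quotient.mkₐ k (Ring.jacobson C))
  have hφs : Function.Surjective φ := E.surjective.comp (Ideal.Quotient.mkₐ_surjective k _)
  have hφ : ∀ x, φ x = 0 ↔ x ∈ Ring.jacobson C := by
    intro x
    change E (Ideal.Quotient.mk _ x) = 0 ↔ _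
    rw [map_eq_zero_iff E E.injective, Ideal.Quotient.eq_zero_iff_mem]
  have hnil : ∀ x, φ x = 0 → IsNilpotent x := by
    intro x hx
    obtain ⟨n, hn⟩ := IsSemiprimaryRing.isNilpotent (R := C)
    refine ⟨n, ?_⟩
    have h1 := Ideal.pow_mem_pow ((hφ x).1 hx) n
    rw [hn] at h1
    simpa using h1
  have hσφ : ∀ x, φ x = 0 → φ (σ x) = 0 := by
    intro x hx
    rw [hφ] at *
    have : RingHomSurjective (σ : C →+* C) := ⟨σ.surjective⟩
    exact Ring.le_comap_jacobson (σ : C →+* C) hx
  -- the induced character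
  have hχ0 : ∀ x, φ x = 0 → χ x = 0 := fun x hx => ((hnil x hx).map χ).eq_zero
  obtain ⟨s, hs⟩ := hφs.hasRightInverse
  have hχs : ∀ x y, φ x = φ y → χ x = χ y := by
    intro x y h
    have h1 := hχ0 (x - y) (by rw [map_sub, h, sub_self])
    rwa [map_sub, sub_eq_zero] at h1
  -- component characters
  have hne : ∃ i, χ (s (Pi.single i 1)) ≠ 0 := by
    by_contra hcon
    push Not at hcon
    have h1 : χ (∑ i, s (Pi.single i 1)) = χ 1 := by
      apply hχs
      rw [map_sum, map_one]
      simp only [hs _]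
      exact Finset.univ_sum_single (1 : Π i, Matrix (Fin (d i)) (Fin (d i)) k)
    rw [map_sum, map_one, Finset.sum_eq_zero fun i _ => hcon i] at h1
    exact zero_ne_one h1
  obtain ⟨i₀, hi₀⟩ := hne
  let χ' : Matrix (Fin (d i₀)) (Fin (d i₀)) k →ₗ[k] k :=
    { toFun := fun A => χ (s (Pi.single i₀ A))
      map_add' := fun A B => by
        rw [← map_add]
        apply hχs
        rw [map_add, hs, hs, hs, Pi.single_add]
      map_smul' := fun a A => by
        rw [RingHom.id_apply, ← map_smul]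
        apply hχs
        rw [map_smul, hs, hs, Pi.single_smul] }
  have hχ'mul : ∀ A B, χ' (A * B) = χ' A * χ' B := by
    intro A B
    change χ (s (Pi.single i₀ (A * B))) = χ (s (Pi.single i₀ A)) * χ (s (Pi.single i₀ B))
    rw [← map_mul]
    apply hχs
    rw [map_mul, hs, hs, hs, Pi.single_mul]
  have hsub : Subsingleton (Fin (d i₀)) := size_one χ' hχ'mul hi₀
  -- the idempotent `ε`
  let ε : Π i, Matrix (Fin (d i)) (Fin (d i)) k := Pi.single i₀ 1
  have hεε : ε * ε = ε := by
    change Pi.single i₀ 1 * Pi.single i₀ 1 = Pi.single i₀ 1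
    rw [← Pi.single_mul, one_mul]
  have hχε : ∀ c, φ c = ε → χ c = 1 := by
    intro c hc
    have h1 : χ c = χ (s (Pi.single i₀ 1)) := hχs _ _ (by rw [hc, hs])
    have h2 : χ (c * c) = χ c := hχs _ _ (by rw [map_mul, hc, hεε])
    rw [map_mul] at h2
    have h3 : χ c ≠ 0 := by rw [h1]; exact hi₀
    exact mul_right_cancel₀ h3 (by rw [one_mul]; exact h2)
  have hcen : ∀ x, φ x * ε = ε * φ x := by
    intro x
    ext i : 1
    rw [Pi.mul_apply, Pi.mul_apply]
    by_cases h : i = i₀
    · subst h; simp [ε]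
    · simp [ε, Pi.single_eq_of_ne h]
  have hscal : ∀ c x, φ c = ε → φ (c * x) = χ x • ε := by
    intro c x hc
    -- `ε φ(x)` is a scalar multiple of `ε`
    have h1 : ∃ a : k, ε * φ x = a • ε := by
      have hd : Nonempty (Fin (d i₀)) := by
        by_contra hemp
        rw [not_nonempty_iff] at hemp
        have h0 : (1 : Matrix (Fin (d i₀)) (Fin (d i₀)) k) = 0 := Subsingleton.elim _ _
        have h2 : χ' 1 ≠ 0 := hi₀
        rw [h0, map_zero] at h2
        exact h2 rfl
      obtain ⟨r⟩ := hd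
      refine ⟨φ x i₀ r r, ?_⟩
      ext i a b
      rw [Pi.mul_apply, Pi.smul_apply]
      by_cases h : i = i₀
      · subst h
        have ha : a = r := Subsingleton.elim _ _
        have hb : b = r := Subsingleton.elim _ _
        subst ha; subst hb
        simp [ε]
      · simp [ε, Pi.single_eq_of_ne h]
    obtain ⟨a, ha⟩ := h1
    have h2 : φ (c * x) = a • ε := by rw [map_mul, hc, ha]
    have h3 : χ (c * x) = χ (a • c) := hχs _ _ (by rw [h2, map_smul, hc])
    rw [map_mul, map_smul, hχε c hc, one_mul, smul_eq_mul, mul_one] at h3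
    rw [h2, h3]
  -- `σ` fixes `ε`
  have hσε : ∀ c, φ c = ε → φ (σ c) = ε := by
    intro c hc
    have h1 : ∀ x, φ (σ c * x) = χ x • φ (σ c) := by
      intro x
      have h2 : φ (c * σ.symm x - χ (σ.symm x) • c) = 0 := by
        rw [map_sub, hscal c _ hc, map_smul, hc, sub_self]
      have h3 := hσφ _ h2
      have h4 : χ (σ.symm x) = χ x := by rw [← hχ (σ.symm x), AlgEquiv.apply_symm_apply]
      rw [map_sub, map_mul, map_smul, AlgEquiv.apply_symm_apply, map_sub, map_smul, h4,
        sub_eq_zero] at h3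
      exact h3
    have h5 : φ (c * σ c) = ε := by
      rw [hscal c _ hc, hχ, hχε c hc, one_smul]
    have h6 : φ (σ c * c) = φ (σ c) := by rw [h1, hχε c hc, one_smul]
    rw [← h6, map_mul, hc, hcen, ← hc, ← map_mul, h5, hc]
  -- the fixed subring
  let R : Subring C :=
    { carrier := {x | σ x = x}
      mul_mem' := fun {a b} ha hb => by
        rw [Set.mem_ofPred_eq] at *; rw [map_mul, ha, hb]
      one_mem' := by rw [Set.mem_ofPred_eq, map_one]
      add_mem' := fun {a b} ha hb => by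
        rw [Set.mem_ofPred_eq] at *; rw [map_add, ha, hb]
      zero_mem' := by rw [Set.mem_ofPred_eq, map_zero]
      neg_mem' := fun {a} ha => by
        rw [Set.mem_ofPred_eq] at *; rw [map_neg, ha] }
  let f : R →+* Π i, Matrix (Fin (d i)) (Fin (d i)) k := (φ : C →+* _).comp R.subtype
  have hfnil : ∀ x ∈ RingHom.ker f, IsNilpotent x := by
    intro x hx
    rw [RingHom.mem_ker] at hx
    obtain ⟨n, hn⟩ := hnil (x : C) hx
    exact ⟨n, Subtype.ext hn⟩
  have hrange : ε ∈ f.range := by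
    let c₀ := s ε
    have hc₀ : φ c₀ = ε := hs ε
    have hiter : ∀ i : ℕ, φ ((σ ^ i) c₀) = ε := by
      intro i
      induction i with
      | zero => rw [pow_zero]; exact hc₀
      | succ i ih => rw [pow_succ']; exact hσε _ ih
    let c : C := (e : k)⁻¹ • ∑ i ∈ Finset.range e, (σ ^ i) c₀
    have hc : σ c = c := by
      change σ ((e : k)⁻¹ • ∑ i ∈ Finset.range e, (σ ^ i) c₀) = _
      rw [map_smul, map_sum]
      congr 1
      have h1 := Finset.sum_range_succ (fun i => (σ ^ i) c₀) e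
      have h2 := Finset.sum_range_succ' (fun i => (σ ^ i) c₀) e
      rw [h1, hσ, pow_zero] at h2
      have h3 := (add_right_cancel h2).symm
      rw [← h3]
      refine Finset.sum_congr rfl fun i _ => ?_
      rw [pow_succ']; rfl
    refine ⟨⟨c, hc⟩, ?_⟩
    change φ ((e : k)⁻¹ • ∑ i ∈ Finset.range e, (σ ^ i) c₀) = ε
    rw [map_smul, map_sum, Finset.sum_congr rfl fun i _ => hiter i, Finset.sum_const,
      Finset.card_range, ← Nat.cast_smul_eq_nsmul k, smul_smul, inv_mul_cancel₀ he, one_smul]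
  obtain ⟨⟨j, hjR⟩, hjj, hfj⟩ := exists_isIdempotentElem_eq_of_ker_isNilpotent f hfnil ε hrange hεε
  have hj1 : j * j = j := congrArg Subtype.val hjj
  have hφj : φ j = ε := hfj
  refine ⟨j, hj1, hjR, hχε j hφj, ?_⟩
  intro x hx1 hx2
  refine ⟨x - χ x • j, by abel, ?_, ?_, ?_⟩
  · apply hnil
    rw [map_sub, map_smul, hφj, ← hx1, hscal j _ hφj, hx1, sub_self]
  · rw [mul_sub, hx1, mul_smul_comm, hj1]
  · rw [sub_mul, hx2, smul_mul_assoc, hj1]

end Idem

end Vale.P179.H190
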