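import Mathlib
import Vale.Agent.P179.H190.Ten3

/-!
# P179, ALLB, module PRIM, part 1: primitive idempotents belonging to a character
-/

namespace Vale.P179.H190

universe u v

variable {k : Type u} [Field k] {C : Type v} [Ring C] [Algebra k C]

theorem exists_eps [IsAlgClosed k] [FiniteDimensional k C] (χ : C →ₐ[k] k) :
    ∃ (S : Type u) (_ : Ring S) (_ : Algebra k S) (φ : C →ₐ[k] S) (ε : S),
      Function.Surjective φ ∧ (∀ x, φ x = 0 → IsNilpotent x) ∧ ε * ε = ε ∧
      (∀ c x, φ c = ε → φ (c * x) = χ x • ε) ∧ (∀ c, φ c = ε → χ c = 1) ∧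
      ∀ σ : C ≃ₐ[k] C, (∀ x, χ (σ x) = χ x) → ∀ c, φ c = ε → φ (σ c) = ε := by
  classical
  have := IsArtinianRing.of_finite k C
  have hss : IsSemisimpleRing (C ⧸ Ring.jacobson C) := inferInstance
  obtain ⟨m, d, _, ⟨E⟩⟩ :=
    IsSemisimpleRing.exists_algEquiv_pi_matrix_of_isAlgClosed k (C ⧸ Ring.jacobson C)
  let φ : C →ₐ[k] Π i, Matrix (Fin (d i)) (Fin (d i)) k :=
    E.toAlgHom.comp (Ideal.Quotient.mkₐ k (Ring.jacobson C))
  have hφs : Function.Surjective φ := E.surjective.comp (Ideal.Quotient.mkₐ_surjective k _)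
  have hφ : ∀ x, φ x = 0 ↔ x ∈ Ring.jacobson C := by
    intro x
    change E (Ideal.Quotient.mk _ x) = 0 ↔ _
    rw [map_eq_zero_iff E E.injective, Ideal.Quotient.eq_zero_iff_mem]
  have hnil : ∀ x, φ x = 0 → IsNilpotent x := by
    intro x hx
    obtain ⟨n, hn⟩ := IsSemiprimaryRing.isNilpotent (R := C)
    refine ⟨n, ?_⟩
    have h1 := Ideal.pow_mem_pow ((hφ x).1 hx) n
    rw [hn] at h1
    simpa using h1
  have hσφ : ∀ (σ : C ≃ₐ[k] C) (x : C), φ x = 0 → φ (σ x) = 0 := by
    intro σ x hx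
    rw [hφ] at *
    have : RingHomSurjective (σ : C →+* C) := ⟨σ.surjective⟩
    exact Ring.le_comap_jacobson (σ : C →+* C) hx
  -- the induced character
  have hχ0 : ∀ x, φ x = 0 → χ x = 0 := fun x hx => ((hnil x hx).map χ).eq_zero
  obtain ⟨s, hs⟩ := hφs.hasRightInverse
  have hχs : ∀ x y, φ x = φ y → χ x = χ y := by
    intro x y h
    have h1 := hχ0 (x - y) (by rw [map_sub, h, sub_self])
    rwa [map_sub, sub_eq_zero] at h1
  -- component characters
  have hne : ∃ i, χ (s (Pi.single i 1)) ≠ 0 := by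
    by_contra hcon
    push Not at hcon
    have h1 : χ (∑ i, s (Pi.single i 1)) = χ 1 := by
      apply hχs
      rw [map_sum, map_one]
      simp only [hs _]
      exact Finset.univ_sum_single (1 : Π i, Matrix (Fin (d i)) (Fin (d i)) k)
    rw [map_sum, map_one, Finset.sum_eq_zero fun i _ => hcon i] at h1
    exact zero_ne_one h1
  obtain ⟨i₀, hi₀⟩ := hne
  let χ' : Matrix (Fin (d i₀)) (Fin (d i₀)) k →ₗ[k] k :=
    { toFun := fun A => χ (s (Pi.single i₀ A))
      map_add' := fun A B => by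
        rw [← map_add]
        apply hχs
        rw [map_add, hs, hs, hs, Pi.single_add]
      map_smul' := fun a A => by
        rw [RingHom.id_apply, ← map_smul]
        apply hχs
        rw [map_smul, hs, hs, Pi.single_smul] }
  have hχ'mul : ∀ A B, χ' (A * B) = χ' A * χ' B := by
    intro A B
    change χ (s (Pi.single i₀ (A * B))) = χ (s (Pi.single i₀ A)) * χ (s (Pi.single i₀ B))
    rw [← map_mul]
    apply hχs
    rw [map_mul, hs, hs, hs, Pi.single_mul]
  have hsub : Subsingleton (Fin (d i₀)) := size_one χ' hχ'mul hi₀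
  -- the idempotent `ε`
  let ε : Π i, Matrix (Fin (d i)) (Fin (d i)) k := Pi.single i₀ 1
  have hεε : ε * ε = ε := by
    change Pi.single i₀ 1 * Pi.single i₀ 1 = Pi.single i₀ 1
    rw [← Pi.single_mul, one_mul]
  have hχε : ∀ c, φ c = ε → χ c = 1 := by
    intro c hc
    have h1 : χ c = χ (s (Pi.single i₀ 1)) := hχs _ _ (by rw [hc, hs])
    have h2 : χ (c * c) = χ c := hχs _ _ (by rw [map_mul, hc, hεε])
    rw [map_mul] at h2
    have h3 : χ c ≠ 0 := by rw [h1]; exact hi₀
    exact mul_right_cancel₀ h3 (by rw [one_mul]; exact h2)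
  have hcen : ∀ x, φ x * ε = ε * φ x := by
    intro x
    ext i : 1
    rw [Pi.mul_apply, Pi.mul_apply]
    by_cases h : i = i₀
    · subst h; simp [ε]
    · simp [ε, Pi.single_eq_of_ne h]
  have hscal : ∀ c x, φ c = ε → φ (c * x) = χ x • ε := by
    intro c x hc
    -- `ε φ(x)` is a scalar multiple of `ε`
    have h1 : ∃ a : k, ε * φ x = a • ε := by
      have hd : Nonempty (Fin (d i₀)) := by
        by_contra hemp
        rw [not_nonempty_iff] at hemp
        have h0 : (1 : Matrix (Fin (d i₀)) (Fin (d i₀)) k) = 0 := Subsingleton.elim _ _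
        have h2 : χ' 1 ≠ 0 := hi₀
        rw [h0, map_zero] at h2
        exact h2 rfl
      obtain ⟨r⟩ := hd
      refine ⟨φ x i₀ r r, ?_⟩
      ext i a b
      rw [Pi.mul_apply, Pi.smul_apply]
      by_cases h : i = i₀
      · subst h
        have ha : a = r := Subsingleton.elim _ _
        have hb : b = r := Subsingleton.elim _ _
        subst ha; subst hb
        simp [ε]
      · simp [ε, Pi.single_eq_of_ne h]
    obtain ⟨a, ha⟩ := h1
    have h2 : φ (c * x) = a • ε := by rw [map_mul, hc, ha]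
    have h3 : χ (c * x) = χ (a • c) := hχs _ _ (by rw [h2, map_smul, hc])
    rw [map_mul, map_smul, hχε c hc, one_mul, smul_eq_mul, mul_one] at h3
    rw [h2, h3]
  -- `σ` fixes `ε`
  have hσε : ∀ σ : C ≃ₐ[k] C, (∀ x, χ (σ x) = χ x) → ∀ c, φ c = ε → φ (σ c) = ε := by
    intro σ hχ c hc
    have h1 : ∀ x, φ (σ c * x) = χ x • φ (σ c) := by
      intro x
      have h2 : φ (c * σ.symm x - χ (σ.symm x) • c) = 0 := by
        rw [map_sub, hscal c _ hc, map_smul, hc, sub_self]
      have h3 := hσφ σ _ h2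
      have h4 : χ (σ.symm x) = χ x := by rw [← hχ (σ.symm x), AlgEquiv.apply_symm_apply]
      rw [map_sub, map_mul, map_smul, AlgEquiv.apply_symm_apply, map_sub, map_smul, h4,
        sub_eq_zero] at h3
      exact h3
    have h5 : φ (c * σ c) = ε := by
      rw [hscal c _ hc, hχ, hχε c hc, one_smul]
    have h6 : φ (σ c * c) = φ (σ c) := by rw [h1, hχε c hc, one_smul]
    rw [← h6, map_mul, hc, hcen, ← hc, ← map_mul, h5, hc]
  exact ⟨_, _, _, φ, ε, hφs, hnil, hεε, hscal, hχε, hσε⟩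

/-- **the primitive idempotent belonging to a character** -/
theorem exists_prim_idem [IsAlgClosed k] [FiniteDimensional k C] (χ : C →ₐ[k] k) :
    ∃ j : C, j * j = j ∧ χ j = 1 ∧
      (∀ x, j * x = x → x * j = x → ∃ n : C, x = χ x • j + n ∧ IsNilpotent n ∧
        j * n = n ∧ n * j = n) ∧
      ∀ σ : C ≃ₐ[k] C, (∀ x, χ (σ x) = χ x) → ∃ c : C, IsUnit c ∧ c * σ j = j * c := by
  obtain ⟨S, _, _, φ, ε, hφs, hnil, hεε, hscal, hχε, hσε⟩ := exists_eps χ
  have hker : ∀ x ∈ RingHom.ker (φ : C →+* S), IsNilpotent x := fun x hx => hnil x hx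
  have hrange : ε ∈ (φ : C →+* S).range := hφs ε
  obtain ⟨j, hjj, hφj⟩ := exists_isIdempotentElem_eq_of_ker_isNilpotent (φ : C →+* S) hker ε
    hrange hεε
  have hj1 : j * j = j := hjj
  have hφj' : φ j = ε := hφj
  refine ⟨j, hj1, hχε j hφj', ?_, ?_⟩
  · intro x hx1 hx2
    refine ⟨x - χ x • j, by abel, ?_, ?_, ?_⟩
    · apply hnil
      rw [map_sub, map_smul, hφj', ← hx1, hscal j _ hφj', hx1, sub_self]
    · rw [mul_sub, hx1, mul_smul_comm, hj1]
    · rw [sub_mul, hx2, smul_mul_assoc, hj1]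
  · intro σ hσ
    have h1 : φ (σ j) = ε := hσε σ hσ j hφj'
    have hσj : σ j * σ j = σ j := by rw [← map_mul, hj1]
    refine ⟨j * σ j + (1 - j) * (1 - σ j), ?_, ?_⟩
    · have h2 : φ (j * σ j + (1 - j) * (1 - σ j)) = 1 := by
        rw [map_add, map_mul, map_mul, map_sub, map_sub, map_one, hφj', h1, hεε]
        rw [sub_mul, mul_sub, mul_sub, hεε]
        simp
      have h3 : IsNilpotent (j * σ j + (1 - j) * (1 - σ j) - 1) := by
        apply hnil
        rw [map_sub, h2, map_one, sub_self]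
      have h4 := h3.isUnit_one_add
      rwa [add_sub_cancel] at h4
    · have e1 : j * (1 - j) = 0 := by rw [mul_sub, mul_one, hj1, sub_self]
      have e2 : (1 - σ j) * σ j = 0 := by rw [sub_mul, one_mul, hσj, sub_self]
      rw [add_mul, mul_add, mul_assoc j, hσj, mul_assoc (1 - j), e2, mul_zero, add_zero,
        ← mul_assoc j (1 - j), e1, zero_mul, add_zero, ← mul_assoc, hj1]

end Vale.P179.H190
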