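import Mathlib

/-!
# P179, ALLB, module TENSOR/AX, part Ten2: the kernel of the Brauer map, by functionals

`A` a `k`-algebra, `u : D →* A`. `InvF u l`: the functional `l` is invariant under conjugation.
`Br0 u x`: `x` commutes with `D` and every invariant functional kills `x`.  For a basis stable
under conjugation (`D` a finite p-group, `k` of characteristic `p`) this means that all coordinates
of `x` at the fixed basis elements vanish.
-/

namespace Vale.P179.H190

universe u v w

section BrDef

variable {k : Type u} [Field k] {A : Type v} [Ring A] [Algebra k A] {D : Type*} [Group D]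

/-- invariance of a functional under conjugation -/
def InvF (u : D →* A) (l : A →ₗ[k] k) : Prop := ∀ (d : D) (a : A), l (u d * a * u d⁻¹) = l a

/-- commuting with `D` -/
def Com (u : D →* A) (x : A) : Prop := ∀ d, u d * x = x * u d

/-- the kernel of the Brauer map -/
def Br0 (k : Type u) [Field k] [Algebra k A] (u : D →* A) (x : A) : Prop :=
  Com u x ∧ ∀ l : A →ₗ[k] k, InvF u l → l x = 0

lemma Com.zero (u : D →* A) : Com u (0 : A) := fun d => by rw [mul_zero, zero_mul]

lemma Com.one (u : D →* A) : Com u (1 : A) := fun d => by rw [mul_one, one_mul]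

lemma Com.add {u : D →* A} {x y : A} (hx : Com u x) (hy : Com u y) : Com u (x + y) := fun d => by
  rw [mul_add, add_mul, hx, hy]

lemma Com.sub {u : D →* A} {x y : A} (hx : Com u x) (hy : Com u y) : Com u (x - y) := fun d => by
  rw [mul_sub, sub_mul, hx, hy]

lemma Com.smul {u : D →* A} {x : A} (hx : Com u x) (a : k) : Com u (a • x) := fun d => by
  rw [mul_smul_comm, smul_mul_assoc, hx]

lemma Com.mul {u : D →* A} {x y : A} (hx : Com u x) (hy : Com u y) : Com u (x * y) := fun d => by
  rw [← mul_assoc, hx, mul_assoc, hy, mul_assoc]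

lemma Com.pow {u : D →* A} {x : A} (hx : Com u x) (n : ℕ) : Com u (x ^ n) := by
  induction n with
  | zero => rw [pow_zero]; exact Com.one u
  | succ n ih => rw [pow_succ]; exact ih.mul hx

lemma Com.conj {u : D →* A} {x : A} (hx : Com u x) (d : D) : u d * x * u d⁻¹ = x := by
  rw [hx d, mul_assoc, ← map_mul, mul_inv_cancel, map_one, mul_one]

lemma com_iff_conj {u : D →* A} {x : A} : Com u x ↔ ∀ d, u d * x * u d⁻¹ = x := by
  constructor
  · intro h d; exact h.conj d
  · intro h d
    conv_rhs => rw [← h d]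
    rw [mul_assoc, ← map_mul, inv_mul_cancel, map_one, mul_one]

lemma InvF.mulLeft {u : D →* A} {l : A →ₗ[k] k} (hl : InvF u l) {y : A} (hy : Com u y) :
    InvF u (l ∘ₗ LinearMap.mulLeft k y) := by
  intro d a
  simp only [LinearMap.comp_apply, LinearMap.mulLeft_apply]
  have : y * (u d * a * u d⁻¹) = u d * (y * a) * u d⁻¹ := by
    rw [← mul_assoc, ← mul_assoc, ← mul_assoc, hy d]
  rw [this, hl]

lemma InvF.mulRight {u : D →* A} {l : A →ₗ[k] k} (hl : InvF u l) {y : A} (hy : Com u y) :
    InvF u (l ∘ₗ LinearMap.mulRight k y) := by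
  intro d a
  simp only [LinearMap.comp_apply, LinearMap.mulRight_apply]
  have : u d * a * u d⁻¹ * y = u d * (a * y) * u d⁻¹ := by
    rw [mul_assoc (u d * a), hy d⁻¹]
    simp only [mul_assoc]
  rw [this, hl]

lemma Br0.mul_left {u : D →* A} {x y : A} (hx : Br0 k u x) (hy : Com u y) : Br0 k u (y * x) :=
  ⟨hy.mul hx.1, fun l hl => hx.2 _ (hl.mulLeft hy)⟩

lemma Br0.mul_right {u : D →* A} {x y : A} (hx : Br0 k u x) (hy : Com u y) : Br0 k u (x * y) :=
  ⟨hx.1.mul hy, fun l hl => hx.2 _ (hl.mulRight hy)⟩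

lemma Br0.zero (u : D →* A) : Br0 k u (0 : A) := ⟨Com.zero u, fun l _ => map_zero l⟩

lemma Br0.add {u : D →* A} {x y : A} (hx : Br0 k u x) (hy : Br0 k u y) : Br0 k u (x + y) :=
  ⟨hx.1.add hy.1, fun l hl => by rw [map_add, hx.2 l hl, hy.2 l hl, add_zero]⟩

lemma Br0.sub {u : D →* A} {x y : A} (hx : Br0 k u x) (hy : Br0 k u y) : Br0 k u (x - y) :=
  ⟨hx.1.sub hy.1, fun l hl => by rw [map_sub, hx.2 l hl, hy.2 l hl, sub_zero]⟩

lemma Br0.smul {u : D →* A} {x : A} (hx : Br0 k u x) (a : k) : Br0 k u (a • x) :=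
  ⟨hx.1.smul a, fun l hl => by rw [map_smul, hx.2 l hl, smul_zero]⟩

/-- congruent elements have congruent powers -/
lemma Br0.pow_sub_pow {u : D →* A} {x y : A} (hx : Com u x) (hy : Com u y)
    (h : Br0 k u (x - y)) (n : ℕ) : Br0 k u (x ^ n - y ^ n) := by
  induction n with
  | zero => rw [pow_zero, pow_zero, sub_self]; exact Br0.zero u
  | succ n ih =>
    have : x ^ (n + 1) - y ^ (n + 1) = (x ^ n - y ^ n) * x + y ^ n * (x - y) := by
      rw [pow_succ, pow_succ, sub_mul, mul_sub]; abel
    rw [this]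
    exact (ih.mul_right hx).add (h.mul_left (hy.pow n))

end BrDef

section Sum

/-- a sum over a finite set with an action of a p-group, of an invariant function vanishing at the
fixed points, vanishes in characteristic `p` -/
lemma sum_eq_zero_of_invariant {k : Type u} [Field k] {p : ℕ} [Fact p.Prime] [CharP k p]
    {G : Type*} [Group G] (hG : IsPGroup p G) {X : Type*} [Fintype X] [MulAction G X]
    (F : X → k) (hF : ∀ (g : G) (x : X), F (g • x) = F x)
    (h0 : ∀ x : X, (∀ g : G, g • x = x) → F x = 0) : ∑ x, F x = 0 := by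
  classical
  have h1 : ∑ x, F x = ∑ c ∈ Finset.univ.image F, ∑ x ∈ Finset.univ.filter (fun x => F x = c), F x :=
    (Finset.sum_fiberwise_of_maps_to (fun x _ => Finset.mem_image_of_mem F (Finset.mem_univ x)) F).symm
  rw [h1]
  refine Finset.sum_eq_zero fun c _ => ?_
  rw [Finset.sum_congr rfl (fun x hx => (Finset.mem_filter.1 hx).2), Finset.sum_const]
  by_cases hc : c = 0
  · rw [hc, smul_zero]
  let act : MulAction G {x // F x = c} :=
    { smul := fun g x => ⟨g • x.1, by rw [hF]; exact x.2⟩
      one_smul := fun x => Subtype.ext (one_smul G x.1)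
      mul_smul := fun g h x => Subtype.ext (mul_smul g h x.1) }
  have h2 := hG.card_modEq_card_fixedPoints (α := {x // F x = c})
  have h3 : Nat.card (MulAction.fixedPoints G {x // F x = c}) = 0 := by
    rw [Nat.card_eq_zero]
    left
    constructor
    rintro ⟨⟨x, hx⟩, hfix⟩
    apply hc
    rw [← hx]
    exact h0 x fun g => congrArg Subtype.val (hfix g)
  rw [h3, Nat.card_eq_fintype_card, Fintype.card_subtype] at h2
  have h4 : p ∣ (Finset.univ.filter fun x => F x = c).card := (Nat.modEq_zero_iff_dvd).1 h2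
  rw [← Nat.cast_smul_eq_nsmul k, (CharP.cast_eq_zero_iff k p _).2 h4, zero_smul]

end Sum

section Crit

variable {k : Type u} [Field k] {p : ℕ} [Fact p.Prime] [CharP k p] {A : Type v} [Ring A]
  [Algebra k A] {D : Type*} [Group D]

/-- the action on the index set of a stable basis -/
@[instance_reducible] noncomputable def idxAct (u : D →* A) {Ω : Type*} (b : Module.Basis Ω k A)
    (hb : ∀ (d : D) (ω : Ω), ∃ ω', u d * b ω * u d⁻¹ = b ω') : MulAction D Ω where
  smul d ω := (hb d ω).choose
  one_smul ω := by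
    apply b.injective
    have := (hb 1 ω).choose_spec
    change b (hb 1 ω).choose = _
    rw [← this]; simp
  mul_smul g h ω := by
    apply b.injective
    have h1 := (hb (g * h) ω).choose_spec
    have h2 := (hb h ω).choose_spec
    have h3 := (hb g (hb h ω).choose).choose_spec
    change b (hb (g * h) ω).choose = b (hb g (hb h ω).choose).choose
    rw [← h1, ← h3, ← h2, mul_inv_rev, map_mul, map_mul]
    simp only [mul_assoc]

lemma idxAct_spec (u : D →* A) {Ω : Type*} (b : Module.Basis Ω k A)
    (hb : ∀ (d : D) (ω : Ω), ∃ ω', u d * b ω * u d⁻¹ = b ω') (d : D) (ω : Ω) :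
    letI := idxAct u b hb
    u d * b ω * u d⁻¹ = b (d • ω) := (hb d ω).choose_spec

/-- coordinates are permuted -/
lemma repr_conj (u : D →* A) {Ω : Type*} (b : Module.Basis Ω k A)
    (hb : ∀ (d : D) (ω : Ω), ∃ ω', u d * b ω * u d⁻¹ = b ω') (d : D) (ω : Ω) (x : A) :
    letI := idxAct u b hb
    b.repr (u d * x * u d⁻¹) (d • ω) = b.repr x ω := by
  let _ := idxAct u b hb
  have h1 : (b.coord (d • ω)) ∘ₗ (LinearMap.mulLeft k (u d)) ∘ₗ (LinearMap.mulRight k (u d⁻¹)) =
      b.coord ω := by
    apply b.ext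
    intro i
    simp only [LinearMap.comp_apply, LinearMap.mulLeft_apply, LinearMap.mulRight_apply]
    rw [← mul_assoc, idxAct_spec u b hb d i, Module.Basis.coord_apply, Module.Basis.coord_apply,
      b.repr_self, b.repr_self]
    by_cases h : i = ω
    · subst h; simp
    · rw [Finsupp.single_eq_of_ne (Ne.symm h), Finsupp.single_eq_of_ne]
      intro h'
      exact h ((smul_left_cancel d h').symm)
  have h2 := LinearMap.congr_fun h1 x
  simp only [LinearMap.comp_apply, LinearMap.mulLeft_apply, LinearMap.mulRight_apply,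
    Module.Basis.coord_apply] at h2
  rw [← mul_assoc] at h2
  exact h2

/-- **criterion**: the Brauer kernel in a stable basis -/
theorem br0_iff (hD : IsPGroup p D) (u : D →* A) {Ω : Type*} [Finite Ω] (b : Module.Basis Ω k A)
    (hb : ∀ (d : D) (ω : Ω), ∃ ω', u d * b ω * u d⁻¹ = b ω') {x : A} (hx : Com u x) :
    Br0 k u x ↔ ∀ ω, Com u (b ω) → b.repr x ω = 0 := by
  classical
  let _ := idxAct u b hb
  have := Fintype.ofFinite Ω
  have hfix : ∀ ω, Com u (b ω) ↔ ∀ d : D, d • ω = ω := by
    intro ω
    rw [com_iff_conj]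
    refine forall_congr' fun d => ?_
    rw [idxAct_spec u b hb d ω]
    exact b.injective.eq_iff
  constructor
  · rintro ⟨-, h⟩ ω hω
    refine h (b.coord ω) fun d a => ?_
    have h1 := repr_conj u b hb d ω a
    rw [(hfix ω).1 hω d] at h1
    exact h1
  · intro h
    refine ⟨hx, fun l hl => ?_⟩
    rw [← b.sum_repr x, map_sum]
    refine sum_eq_zero_of_invariant hD _ ?_ ?_
    · intro d ω
      have h1 := repr_conj u b hb d ω x
      rw [hx.conj d] at h1
      have h2 : l (b (d • ω)) = l (b ω) := by rw [← idxAct_spec u b hb d ω, hl]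
      rw [l.map_smul, l.map_smul, h2]
      exact congrArg (fun a => a • l (b ω)) h1
    · intro ω hω
      rw [h ω ((hfix ω).2 hω), zero_smul, map_zero]

/-- a fixed basis element is not in the Brauer kernel -/
lemma not_br0_basis (hD : IsPGroup p D) (u : D →* A) {Ω : Type*} [Finite Ω]
    (b : Module.Basis Ω k A)
    (hb : ∀ (d : D) (ω : Ω), ∃ ω', u d * b ω * u d⁻¹ = b ω') {ω : Ω} (hω : Com u (b ω)) :
    ¬ Br0 k u (b ω) := by
  intro h
  have := (br0_iff hD u b hb hω).1 h ω hω
  rw [b.repr_self, Finsupp.single_eq_same] at this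
  exact one_ne_zero this

/-- if there is a fixed basis element then `1` is not in the Brauer kernel -/
lemma not_br0_one (hD : IsPGroup p D) (u : D →* A) {Ω : Type*} [Finite Ω]
    (b : Module.Basis Ω k A)
    (hb : ∀ (d : D) (ω : Ω), ∃ ω', u d * b ω * u d⁻¹ = b ω') {ω : Ω} (hω : Com u (b ω)) :
    ¬ Br0 k u (1 : A) := by
  intro h
  have := h.mul_right hω
  rw [one_mul] at this
  exact not_br0_basis hD u b hb hω this

end Crit

end Vale.P179.H190
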