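import Mathlib
import Vale.Agent.P179.H190.KD1
import Vale.Agent.P179.H190.Ten2
import Vale.Agent.P179.H190.Prim1

/-!
# P179, ALLB, module PRIM, part 2: the Brauer quotient at `D` is `kD`
-/

open MonoidAlgebra

namespace Vale.P179.H190

universe u v w

section Pow

variable {k : Type u} [Field k] {D : Type v} [CommGroup D] {p : ℕ} [Fact p.Prime] [CharP k p]

lemma pow_aug {m : ℕ} (hm : ∀ d : D, d ^ (p ^ m) = 1) (a : MonoidAlgebra k D) :
    a ^ (p ^ m) = algebraMap k _ (aug k D a ^ (p ^ m)) := by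
  have : CharP (MonoidAlgebra k D) p := charP_A p
  have hp : p ^ m ≠ 0 := pow_ne_zero _ (Fact.out : p.Prime).ne_zero
  induction a using MonoidAlgebra.induction_linear with
  | zero => rw [map_zero, zero_pow hp, zero_pow hp, map_zero]
  | add x y hx hy => rw [add_pow_char_pow, hx, hy, map_add, add_pow_char_pow, map_add]
  | single d a =>
    rw [MonoidAlgebra.single_pow, hm, aug_single]
    rfl

lemma exists_exponent [Finite D] (hD : IsPGroup p D) : ∃ m : ℕ, ∀ d : D, d ^ (p ^ m) = 1 := by
  obtain ⟨m, hm⟩ := IsPGroup.iff_card.1 hD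
  exact ⟨m, fun d => by rw [← hm]; exact pow_card_eq_one'⟩

lemma nilp_of_aug [Finite D] (hD : IsPGroup p D) {a : MonoidAlgebra k D} (ha : aug k D a = 0) :
    IsNilpotent a := by
  obtain ⟨m, hm⟩ := exists_exponent hD
  refine ⟨p ^ m, ?_⟩
  rw [pow_aug hm, ha, zero_pow (pow_ne_zero _ (Fact.out : p.Prime).ne_zero), map_zero]

lemma unit_of_aug [Finite D] (hD : IsPGroup p D) {a : MonoidAlgebra k D} (ha : aug k D a ≠ 0) :
    ∃ a', a * a' = 1 := by
  obtain ⟨m, hm⟩ := exists_exponent hD
  have h1 := pow_aug (k := k) hm a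
  obtain ⟨r, hr⟩ := Nat.exists_eq_succ_of_ne_zero (pow_ne_zero m (Fact.out : p.Prime).ne_zero)
  have hc : aug k D a ^ (p ^ m) ≠ 0 := pow_ne_zero _ ha
  refine ⟨a ^ r * algebraMap k _ ((aug k D a ^ (p ^ m))⁻¹), ?_⟩
  rw [← mul_assoc, ← pow_succ', ← Nat.succ_eq_add_one, ← hr, h1, ← map_mul, mul_inv_cancel₀ hc,
    map_one]

end Pow

section BrD

variable {k : Type u} [Field k] {p : ℕ} [Fact p.Prime] [CharP k p] {R : Type v} [Ring R]
  [Algebra k R] {D : Type w} [CommGroup D]

/-- the extension of `u` to the group algebra -/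
noncomputable def uh (k : Type u) [Field k] {R : Type v} [Ring R] [Algebra k R] {D : Type w}
    [CommGroup D] (u : D →* R) : MonoidAlgebra k D →ₐ[k] R := MonoidAlgebra.lift k R D u

lemma uh_single (u : D →* R) (d : D) (a : k) : uh k u (MonoidAlgebra.single d a) = a • u d := by
  simp [uh]

lemma com_u (u : D →* R) (x : D) : Com u (u x) := fun d => by rw [← map_mul, mul_comm, map_mul]

lemma com_uh (u : D →* R) (a : MonoidAlgebra k D) : Com u (uh k u a) := by
  induction a using MonoidAlgebra.induction_linear with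
  | zero => rw [map_zero]; exact Com.zero u
  | add x y hx hy => rw [map_add]; exact hx.add hy
  | single d a => rw [uh_single]; exact (com_u u d).smul a

/-- **the structure of the Brauer quotient at `D`** -/
theorem brauer_D [Finite D] (hD : IsPGroup p D) (u : D →* R) {I : Type*} [Finite I]
    (b : Module.Basis I k R) (hb : ∀ (x y : D) (i : I), ∃ j, u x * b i * u y = b j)
    (hfree : ∀ (i : I) (x : D), u x * b i = b i → x = 1)
    (hcard : Nat.card {i : I // Com u (b i)} = Nat.card D) :
    (∀ a : MonoidAlgebra k D, Br0 k u (uh k u a) → a = 0) ∧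
    ∀ x : R, Com u x → ∃ a : MonoidAlgebra k D, Br0 k u (x - uh k u a) := by
  classical
  have := Fintype.ofFinite D
  have := Fintype.ofFinite I
  have hbc : ∀ (d : D) (i : I), ∃ j, u d * b i * u d⁻¹ = b j := fun d i => hb d d⁻¹ i
  -- the base point
  have hne : Nonempty {i : I // Com u (b i)} := by
    rw [← Finite.card_pos_iff, hcard]
    exact Nat.card_pos
  obtain ⟨⟨i₀, hi₀⟩⟩ := hne
  have hex : ∀ x : D, ∃ j, u x * b i₀ = b j := fun x => by
    obtain ⟨j, hj⟩ := hb x 1 i₀
    exact ⟨j, by rw [← hj, map_one, mul_one]⟩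
  choose F hF using hex
  have hFcom : ∀ x, Com u (b (F x)) := fun x => by rw [← hF]; exact (com_u u x).mul hi₀
  have hFinj : Function.Injective F := by
    intro x y h
    have h1 : u x * b i₀ = u y * b i₀ := by rw [hF, hF, h]
    have h2 : u (y⁻¹ * x) * b i₀ = b i₀ := by
      rw [map_mul, mul_assoc, h1, ← mul_assoc, ← map_mul, inv_mul_cancel, map_one, one_mul]
    have h3 := hfree i₀ _ h2
    exact (inv_mul_eq_one.1 h3).symm
  have hFsurj : ∀ i, Com u (b i) → ∃ x, F x = i := by
    intro i hi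
    have hbij : Function.Bijective (fun x : D => (⟨F x, hFcom x⟩ : {i : I // Com u (b i)})) := by
      rw [Nat.bijective_iff_injective_and_card]
      refine ⟨fun x y h => hFinj (congrArg Subtype.val h), hcard.symm⟩
    obtain ⟨x, hx⟩ := hbij.2 ⟨i, hi⟩
    exact ⟨x, congrArg Subtype.val hx⟩
  -- coordinates of `û(a) b i₀`
  have hrepr : ∀ (a : MonoidAlgebra k D) (x : D), b.repr (uh k u a * b i₀) (F x) = a.coeff x := by
    intro a x
    induction a using MonoidAlgebra.induction_linear with
    | zero => simp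
    | add y z hy hz =>
      rw [map_add, add_mul, map_add, Finsupp.add_apply, hy, hz, MonoidAlgebra.coeff_add,
        Finsupp.add_apply]
    | single d a =>
      rw [uh_single, smul_mul_assoc, hF, map_smul, Finsupp.smul_apply, b.repr_self,
        MonoidAlgebra.coeff_single]
      by_cases h : d = x
      · subst h; simp
      · rw [Finsupp.single_eq_of_ne (fun h' => h (hFinj h').symm), Finsupp.single_eq_of_ne
          (Ne.symm h), smul_zero]
  have hcomab : ∀ a : MonoidAlgebra k D, Com u (uh k u a * b i₀) := fun a => (com_uh u a).mul hi₀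
  have hinj : ∀ a : MonoidAlgebra k D, Br0 k u (uh k u a * b i₀) → a = 0 := by
    intro a ha
    ext x
    rw [← hrepr a x, MonoidAlgebra.coeff_zero, Finsupp.zero_apply]
    exact (br0_iff hD u b hbc (hcomab a)).1 ha (F x) (hFcom x)
  have hinj' : ∀ a : MonoidAlgebra k D, Br0 k u (uh k u a) → a = 0 := fun a ha =>
    hinj a (ha.mul_right hi₀)
  have hsurj : ∀ x : R, Com u x → ∃ a : MonoidAlgebra k D, Br0 k u (x - uh k u a * b i₀) := by
    intro x hx
    refine ⟨∑ d : D, MonoidAlgebra.single d (b.repr x (F d)), ?_⟩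
    rw [br0_iff hD u b hbc (hx.sub (hcomab _))]
    intro i hi
    obtain ⟨d, rfl⟩ := hFsurj i hi
    rw [map_sub, Finsupp.sub_apply, hrepr, MonoidAlgebra.coeff_sum, Finsupp.finsetSum_apply,
      Finset.sum_eq_single d]
    · rw [MonoidAlgebra.coeff_single, Finsupp.single_eq_same, sub_self]
    · intro d' _ hd'
      rw [MonoidAlgebra.coeff_single, Finsupp.single_eq_of_ne (Ne.symm hd')]
    · intro h; exact absurd (Finset.mem_univ _) h
  -- the unit
  obtain ⟨s, hs⟩ := hsurj 1 (Com.one u)
  have hstep : ∀ n : ℕ, s ^ (n + 1) = 0 → s ^ n = 0 := by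
    intro n hn
    apply hinj'
    have h1 := hs.mul_left (com_uh u (s ^ n))
    rw [mul_sub, mul_one, ← mul_assoc, ← map_mul, ← pow_succ, hn, map_zero, zero_mul,
      sub_zero] at h1
    exact h1
  have hsaug : aug k D s ≠ 0 := by
    intro h0
    obtain ⟨n, hn⟩ := nilp_of_aug hD h0
    have hall : ∀ n : ℕ, s ^ n = 0 → (1 : MonoidAlgebra k D) = 0 := by
      intro n
      induction n with
      | zero => intro h; rwa [pow_zero] at h
      | succ n ih => intro h; exact ih (hstep n h)
    exact one_ne_zero (hall n hn)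
  obtain ⟨s', hs'⟩ := unit_of_aug hD hsaug
  have hb0 : Br0 k u (uh k u s' - b i₀) := by
    have h1 := hs.mul_left (com_uh u s')
    rw [mul_sub, mul_one, ← mul_assoc, ← map_mul, mul_comm s', hs', map_one, one_mul] at h1
    exact h1
  refine ⟨hinj', fun x hx => ?_⟩
  obtain ⟨a, ha⟩ := hsurj x hx
  refine ⟨a * s', ?_⟩
  have h1 := hb0.mul_left (com_uh u a)
  have h2 := ha.sub h1
  have e1 : x - uh k u a * b i₀ - uh k u a * (uh k u s' - b i₀) = x - uh k u (a * s') := by
    rw [mul_sub, map_mul]; abel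
  rw [e1] at h2
  exact h2

/-- the subalgebra of elements commuting with `D` -/
def comA (k : Type u) [Field k] {R : Type v} [Ring R] [Algebra k R] {D : Type w}
    [CommGroup D] (u : D →* R) : Subalgebra k R where
  carrier := {x | Com u x}
  mul_mem' ha hb := Com.mul ha hb
  one_mem' := Com.one u
  add_mem' ha hb := Com.add ha hb
  zero_mem' := Com.zero u
  algebraMap_mem' r := fun d => (Algebra.commutes r (u d)).symm

lemma mem_comA {u : D →* R} {x : R} : x ∈ comA k u ↔ Com u x := Iff.rfl

/-- the algebra map onto the Brauer quotient `kD` -/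
theorem exists_alpha (u : D →* R)
    (h1 : ∀ a : MonoidAlgebra k D, Br0 k u (uh k u a) → a = 0)
    (h2 : ∀ x : R, Com u x → ∃ a : MonoidAlgebra k D, Br0 k u (x - uh k u a)) :
    ∃ α : comA k u →ₐ[k] MonoidAlgebra k D, ∀ (x : comA k u) (a : MonoidAlgebra k D),
      α x = a ↔ Br0 k u ((x : R) - uh k u a) := by
  choose! f hf using h2
  have huniq : ∀ (x : R) (a a' : MonoidAlgebra k D), Br0 k u (x - uh k u a) →
      Br0 k u (x - uh k u a') → a = a' := by
    intro x a a' h h'
    have h3 := h'.sub h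
    rw [sub_sub_sub_cancel_left, ← map_sub] at h3
    exact sub_eq_zero.1 (h1 _ h3)
  refine ⟨{ toFun := fun x => f x
            map_one' := ?_
            map_mul' := ?_
            map_zero' := ?_
            map_add' := ?_
            commutes' := ?_ }, ?_⟩
  · apply huniq 1 _ _ (hf 1 (Com.one u))
    rw [map_one, sub_self]; exact Br0.zero u
  · intro x y
    apply huniq ((x : R) * y) _ _ (hf _ (Com.mul x.2 y.2))
    have e1 : (x : R) * y - uh k u (f x * f y) =
        ((x : R) - uh k u (f x)) * y + uh k u (f x) * ((y : R) - uh k u (f y)) := by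
      rw [map_mul, sub_mul, mul_sub]; abel
    rw [e1]
    exact ((hf _ x.2).mul_right y.2).add ((hf _ y.2).mul_left (com_uh u _))
  · apply huniq 0 _ _ (hf 0 (Com.zero u))
    rw [map_zero, sub_self]; exact Br0.zero u
  · intro x y
    apply huniq ((x : R) + y) _ _ (hf _ (Com.add x.2 y.2))
    have e1 : (x : R) + y - uh k u (f x + f y) =
        ((x : R) - uh k u (f x)) + ((y : R) - uh k u (f y)) := by
      rw [map_add]; abel
    rw [e1]
    exact (hf _ x.2).add (hf _ y.2)
  · intro r
    apply huniq (algebraMap k R r) _ _ (hf _ ((comA k u).algebraMap_mem r))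
    rw [AlgHom.commutes, sub_self]; exact Br0.zero u
  · intro x a
    change f x = a ↔ _
    constructor
    · rintro rfl; exact hf _ x.2
    · intro h; exact huniq _ _ _ (hf _ x.2) h

/-- functionals and conjugation by `n` -/
lemma br0_conj {u : D →* R} {τ : MulAut D} (n : Rˣ) (hn : ∀ x, (n : R) * u x = u (τ x) * n)
    {x : R} (hx : Br0 k u x) : Br0 k u ((n : R) * x * (↑n⁻¹ : R)) := by
  have hn' : ∀ x, (↑n⁻¹ : R) * u (τ x) = u x * (↑n⁻¹ : R) := by
    intro x
    calc (↑n⁻¹ : R) * u (τ x) = ↑n⁻¹ * (u (τ x) * n) * ↑n⁻¹ := by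
          rw [mul_assoc, mul_assoc, Units.mul_inv, mul_one]
      _ = ↑n⁻¹ * (n * u x) * ↑n⁻¹ := by rw [hn]
      _ = _ := by rw [← mul_assoc (↑n⁻¹ : R), Units.inv_mul, one_mul]
  refine ⟨?_, ?_⟩
  · intro d
    obtain ⟨d', rfl⟩ := τ.surjective d
    rw [← mul_assoc, ← mul_assoc, ← hn, mul_assoc ((n : R) * x), hn', mul_assoc (n : R), hx.1 d']
    simp only [mul_assoc]
  · intro l hl
    have hinv : InvF u (l ∘ₗ (LinearMap.mulLeft k (n : R)) ∘ₗ
        (LinearMap.mulRight k (↑n⁻¹ : R))) := by
      intro d a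
      simp only [LinearMap.comp_apply, LinearMap.mulLeft_apply, LinearMap.mulRight_apply]
      have e1 : (n : R) * (u d * a * u d⁻¹ * (↑n⁻¹ : R)) =
          u (τ d) * ((n : R) * (a * (↑n⁻¹ : R))) * u (τ d)⁻¹ := by
        have e2 : u d⁻¹ * (↑n⁻¹ : R) = (↑n⁻¹ : R) * u (τ d)⁻¹ := by
          rw [← map_inv τ, hn']
        rw [mul_assoc (u d * a), e2, ← mul_assoc (n : R), ← mul_assoc (n : R), hn]
        simp only [mul_assoc]
      rw [e1, hl]
    have h := hx.2 _ hinv
    simpa only [LinearMap.comp_apply, LinearMap.mulLeft_apply, LinearMap.mulRight_apply,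
        mul_assoc] using h

end BrD

end Vale.P179.H190
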