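import Mathlib
import Vale.Agent.P179.H190.Prim2

/-!
# P179, ALLB, module PRIM, part 3: the idempotent `j` and the new `n`
-/

open MonoidAlgebra

namespace Vale.P179.H190

universe u v w

/-- **PRIM, generic form.** -/
theorem prim_core {p : ℕ} [Fact p.Prime] {k : Type u} [Field k] [IsAlgClosed k] [CharP k p]
    {D : Type w} [CommGroup D] [Finite D] (hD : IsPGroup p D) (τ : MulAut D) {e : ℕ} (he : 0 < e)
    (hτ : τ ^ e = 1) (hcop : e.Coprime p) {R : Type v} [Ring R] [Algebra k R] (u : D →* R)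
    {I : Type*} [Finite I]
    (b : Module.Basis I k R) (hb : ∀ (x y : D) (i : I), ∃ j, u x * b i * u y = b j)
    (hfree : ∀ (i : I) (x : D), u x * b i = b i → x = 1)
    (hcard : Nat.card {i : I // Com u (b i)} = Nat.card D)
    (n : R) (hnu : IsUnit n) (hn : ∀ x, n * u x = u (τ x) * n) :
    ∃ j n' : R, j * j = j ∧ (∀ x, u x * j = j * u x) ∧ ¬ Br0 k u j ∧ Br0 k u (1 - j) ∧
      (∀ a, j * a * j = a → (∀ x, u x * a = a * u x) →
        (∃ b, j * b * j = b ∧ a * b = j ∧ b * a = j) ∨ IsNilpotent a) ∧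
      j * n' * j = n' ∧ n' ^ e * j = j ∧ ∀ x, n' * u x = u (τ x) * n' := by
  classical
  have hp : p.Prime := Fact.out
  obtain ⟨h1, h2⟩ := brauer_D hD u b hb hfree hcard
  obtain ⟨α, hα⟩ := exists_alpha u h1 h2
  obtain ⟨nn, rfl⟩ := hnu
  have hfin : FiniteDimensional k R := Module.Finite.of_basis b
  have hntR : Nontrivial R := by
    have hne : Nonempty {i : I // Com u (b i)} := by
      rw [← Finite.card_pos_iff, hcard]
      exact Nat.card_pos
    obtain ⟨⟨i₀, _⟩⟩ := hne
    exact ⟨⟨b i₀, 0, b.ne_zero i₀⟩⟩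
  have hcharR : CharP R p := charP_of_injective_algebraMap (algebraMap k R).injective p
  let χ : comA k u →ₐ[k] k := (aug k D).comp α
  -- conjugation by `n`
  have hn' : ∀ x, (↑nn⁻¹ : R) * u (τ x) = u x * (↑nn⁻¹ : R) := by
    intro x
    calc (↑nn⁻¹ : R) * u (τ x) = ↑nn⁻¹ * (u (τ x) * nn) * ↑nn⁻¹ := by
          rw [mul_assoc, mul_assoc, Units.mul_inv, mul_one]
      _ = ↑nn⁻¹ * (nn * u x) * ↑nn⁻¹ := by rw [hn]
      _ = _ := by rw [← mul_assoc (↑nn⁻¹ : R), Units.inv_mul, one_mul]
  have hcom1 : ∀ x : R, Com u x → Com u ((nn : R) * x * (↑nn⁻¹ : R)) := by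
    intro x hx d
    obtain ⟨d', rfl⟩ := τ.surjective d
    rw [← mul_assoc, ← mul_assoc, ← hn, mul_assoc ((nn : R) * x), hn', mul_assoc (nn : R), hx d']
    simp only [mul_assoc]
  have hcom2 : ∀ x : R, Com u x → Com u ((↑nn⁻¹ : R) * x * (nn : R)) := by
    intro x hx d
    rw [← mul_assoc, ← mul_assoc, ← hn', mul_assoc ((↑nn⁻¹ : R) * x), hn, mul_assoc (↑nn⁻¹ : R),
      hx (τ d)]
    simp only [mul_assoc]
  let σ : comA k u ≃ₐ[k] comA k u := AlgEquiv.ofAlgHom
    { toFun := fun x => ⟨(nn : R) * x * (↑nn⁻¹ : R), hcom1 _ x.2⟩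
      map_one' := Subtype.ext (by simp)
      map_mul' := fun x y => Subtype.ext (by
        change (nn : R) * ((x : R) * y) * (↑nn⁻¹ : R) =
          (nn : R) * x * (↑nn⁻¹ : R) * ((nn : R) * y * (↑nn⁻¹ : R))
        simp [mul_assoc])
      map_zero' := Subtype.ext (by simp)
      map_add' := fun x y => Subtype.ext (by
        change (nn : R) * ((x : R) + y) * (↑nn⁻¹ : R) =
          (nn : R) * x * (↑nn⁻¹ : R) + (nn : R) * y * (↑nn⁻¹ : R)
        rw [mul_add, add_mul])
      commutes' := fun r => Subtype.ext (by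
        change (nn : R) * algebraMap k R r * (↑nn⁻¹ : R) = algebraMap k R r
        rw [← Algebra.commutes, mul_assoc, Units.mul_inv, mul_one]) }
    { toFun := fun x => ⟨(↑nn⁻¹ : R) * x * (nn : R), hcom2 _ x.2⟩
      map_one' := Subtype.ext (by simp)
      map_mul' := fun x y => Subtype.ext (by
        change (↑nn⁻¹ : R) * ((x : R) * y) * (nn : R) =
          (↑nn⁻¹ : R) * x * (nn : R) * ((↑nn⁻¹ : R) * y * (nn : R))
        simp [mul_assoc])
      map_zero' := Subtype.ext (by simp)
      map_add' := fun x y => Subtype.ext (by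
        change (↑nn⁻¹ : R) * ((x : R) + y) * (nn : R) =
          (↑nn⁻¹ : R) * x * (nn : R) + (↑nn⁻¹ : R) * y * (nn : R)
        rw [mul_add, add_mul])
      commutes' := fun r => Subtype.ext (by
        change (↑nn⁻¹ : R) * algebraMap k R r * (nn : R) = algebraMap k R r
        rw [← Algebra.commutes, mul_assoc, Units.inv_mul, mul_one]) }
    (by
      ext x
      change (nn : R) * ((↑nn⁻¹ : R) * x * (nn : R)) * (↑nn⁻¹ : R) = x
      simp [mul_assoc])
    (by
      ext x
      change (↑nn⁻¹ : R) * ((nn : R) * x * (↑nn⁻¹ : R)) * (nn : R) = x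
      simp [mul_assoc])
  have hσval : ∀ x : comA k u, ((σ x : comA k u) : R) = (nn : R) * x * (↑nn⁻¹ : R) := fun x => rfl
  have hχσ : ∀ x, χ (σ x) = χ x := by
    intro x
    have h3 := (hα x (α x)).1 rfl
    have h4 := br0_conj (τ := τ) nn hn h3
    have h5 : α (σ x) = al k τ (α x) := by
      rw [hα, hσval]
      have e1 : ∀ a : MonoidAlgebra k D, (nn : R) * uh k u a * (↑nn⁻¹ : R) = uh k u (al k τ a) := by
        intro a
        induction a using MonoidAlgebra.induction_linear with
        | zero => simp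
        | add x y hx hy => simp only [map_add, mul_add, add_mul, hx, hy]
        | single d a =>
          rw [al_single, uh_single, uh_single, mul_smul_comm, smul_mul_assoc, hn, mul_assoc,
            Units.mul_inv, mul_one]
      rw [← e1, ← sub_mul, ← mul_sub]
      exact h4
    change aug k D (α (σ x)) = aug k D (α x)
    rw [h5]
    have e2 : ∀ a : MonoidAlgebra k D, aug k D (al k τ a) = aug k D a := by
      intro a
      induction a using MonoidAlgebra.induction_linear with
      | zero => simp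
      | add x y hx hy => simp only [map_add, hx, hy]
      | single d a => rw [al_single, aug_single, aug_single]
    exact e2 _
  -- the idempotent
  obtain ⟨j, hjj, hχj, hcor, hconj⟩ := exists_prim_idem χ
  obtain ⟨c, ⟨cu, rfl⟩, hc⟩ := hconj σ hχσ
  have hjR : (j : R) * j = j := congrArg Subtype.val hjj
  have hjcom : Com u (j : R) := j.2
  have hcR : ((cu : comA k u) : R) * ((nn : R) * j * (↑nn⁻¹ : R)) = j * (cu : comA k u) :=
    congrArg Subtype.val hc
  set c' : R := ((cu : comA k u) : R) with hc'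
  have hc'com : Com u c' := (cu : comA k u).2
  set n₂ : R := c' * nn with hn₂
  have hn₂j : n₂ * j = j * n₂ := by
    calc n₂ * j = c' * ((nn : R) * j * (↑nn⁻¹ : R)) * nn := by
          rw [hn₂]; simp [mul_assoc]
      _ = j * n₂ := by rw [hcR, hn₂, mul_assoc]
  have hn₂u : ∀ x, n₂ * u x = u (τ x) * n₂ := by
    intro x
    rw [hn₂, mul_assoc, hn, ← mul_assoc, ← hc'com (τ x), mul_assoc]
  have hn₂pow : ∀ (i : ℕ) (x : D), n₂ ^ i * u x = u ((τ ^ i) x) * n₂ ^ i := by
    intro i
    induction i with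
    | zero => intro x; simp
    | succ i ih =>
      intro x
      rw [pow_succ, mul_assoc, hn₂u, ← mul_assoc, ih, pow_succ, mul_assoc]
      rfl
  set f : R := n₂ ^ e with hf
  have hfcom : Com u f := by
    intro x
    rw [hf, hn₂pow, hτ]; rfl
  have hfj : f * j = j * f := by
    have : Commute n₂ j := hn₂j
    exact (this.pow_left e).eq
  have hn₂unit : IsUnit n₂ := (cu.isUnit.map (comA k u).val).mul nn.isUnit
  have hfunit : IsUnit f := hn₂unit.pow e
  -- `χ f ≠ 0`
  set F : comA k u := ⟨f, hfcom⟩ with hF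
  have hχF : χ F ≠ 0 := by
    obtain ⟨fu, hfu⟩ := hfunit
    have hinvcom : Com u (↑fu⁻¹ : R) := by
      intro d
      have h3 := hfcom d
      rw [← hfu] at h3
      calc u d * (↑fu⁻¹ : R) = ↑fu⁻¹ * (fu * u d) * ↑fu⁻¹ := by
            rw [← mul_assoc, Units.inv_mul, one_mul]
        _ = ↑fu⁻¹ * (u d * fu) * ↑fu⁻¹ := by rw [h3]
        _ = _ := by rw [mul_assoc, mul_assoc, Units.mul_inv, mul_one]
    have h3 : F * ⟨(↑fu⁻¹ : R), hinvcom⟩ = 1 := by
      apply Subtype.ext
      change f * (↑fu⁻¹ : R) = 1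
      rw [← hfu, Units.mul_inv]
    intro h0
    have h4 := congrArg χ h3
    rw [map_mul, h0, zero_mul, map_one] at h4
    exact zero_ne_one h4
  set lam : k := χ F with hlam
  obtain ⟨ν, hν1, hν2, hν3, hν4⟩ := hcor (j * F) (by rw [← mul_assoc, hjj]) (by
    apply Subtype.ext
    change (j : R) * f * j = j * f
    rw [mul_assoc, hfj, ← mul_assoc, hjR])
  have hχjF : χ (j * F) = lam := by rw [map_mul, hχj, one_mul]
  rw [hχjF] at hν1
  obtain ⟨N, hN⟩ := hν2
  -- the exponent
  set T : ℕ := (p ^ N) ^ (Nat.totient e) with hT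
  have htot : 0 < Nat.totient e := Nat.totient_pos.2 he
  have hpN : (p ^ N).Coprime e := Nat.Coprime.pow_left N hcop.symm
  have hTmod : T ≡ 1 [MOD e] := Nat.ModEq.pow_totient hpN
  have hTpos : 1 ≤ T := Nat.one_le_iff_ne_zero.2 (pow_ne_zero _ (pow_ne_zero _ hp.ne_zero))
  obtain ⟨a, ha⟩ := (Nat.modEq_iff_dvd' hTpos).1 hTmod.symm
  have hTa : T = a * e + 1 := by rw [mul_comm]; omega
  have hTpow : T = p ^ (N * Nat.totient e) := by rw [hT, ← pow_mul]
  have hNT : N ≤ T := by
    have h3 : N ≤ p ^ N := (Nat.lt_pow_self hp.one_lt).le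
    have h4 : p ^ N ≤ T := Nat.le_self_pow htot.ne' _
    omega
  have hjfT : (j : R) * f ^ T = lam ^ T • (j : R) := by
    have h3 : (j * F : comA k u) ^ T = lam ^ T • j := by
      rw [hν1]
      have hcharC : CharP (comA k u) p :=
        charP_of_injective_algebraMap (algebraMap k (comA k u)).injective p
      have hcomm : Commute (lam • j) ν := by
        change lam • j * ν = ν * (lam • j)
        rw [smul_mul_assoc, mul_smul_comm, hν3, hν4]
      have hνT : ν ^ T = 0 := pow_eq_zero_of_le hNT hN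
      have hjT : j ^ T = j := by
        have : IsIdempotentElem j := hjj
        exact this.pow_eq (by omega)
      have h4 : (lam • j + ν) ^ T = (lam • j) ^ T + ν ^ T := by
        rw [hTpow]
        exact add_pow_char_pow_of_commute _ _ hcomm
      rw [h4, hνT, add_zero, smul_pow, hjT]
    have h4 : ((j * F : comA k u) ^ T : comA k u) = j * F ^ T := by
      have hcomm : Commute j F := Subtype.ext hfj.symm
      rw [hcomm.mul_pow]
      have : IsIdempotentElem j := hjj
      rw [this.pow_eq (by omega)]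
    rw [h4] at h3
    have h5 := congrArg Subtype.val h3
    simpa using h5
  obtain ⟨κ, hκ⟩ := IsAlgClosed.exists_pow_nat_eq ((lam ^ T)⁻¹) he
  set g : R := κ • ((j : R) * f ^ a) with hg
  have hjn₂ : Commute (j : R) n₂ := hn₂j.symm
  have hfn₂ : Commute f n₂ := (Commute.refl n₂).pow_left e
  have hgn₂ : Commute g n₂ := ((hjn₂.mul_left (hfn₂.pow_left a))).smul_left κ
  have hjf : Commute (j : R) f := hfj.symm
  have hgcom : Com u g := ((hjcom.mul (hfcom.pow a))).smul κ
  have hje : (j : R) ^ e = j := by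
    have : IsIdempotentElem (j : R) := hjR
    exact this.pow_eq he.ne'
  have hge : g ^ e = κ ^ e • ((j : R) * f ^ (a * e)) := by
    rw [hg, smul_pow, (hjf.pow_right a).mul_pow, hje, ← pow_mul]
  have hn'e : (n₂ * g) ^ e = j := by
    rw [hgn₂.symm.mul_pow, ← hf, hge, mul_smul_comm, ← mul_assoc, hfj, mul_assoc, ← pow_succ',
      ← hTa, hjfT, hκ, smul_smul, inv_mul_cancel₀ (pow_ne_zero _ hχF), one_smul]
  have hjg : (j : R) * g = g := by
    rw [hg, mul_smul_comm, ← mul_assoc, hjR]
  have hgj : g * j = g := by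
    have : Commute (j : R) g := (((Commute.refl (j : R)).mul_right (hjf.pow_right a))).smul_right κ
    rw [← this.eq, hjg]
  refine ⟨j, n₂ * g, hjR, fun x => hjcom x, ?_, ?_, ?_, ?_, ?_, ?_⟩
  · intro h0
    have h3 : α j = 0 := (hα j 0).2 (by rw [map_zero, sub_zero]; exact h0)
    have h4 : χ j = 0 := by
      change aug k D (α j) = 0
      rw [h3, map_zero]
    rw [hχj] at h4
    exact one_ne_zero h4
  · -- `1 - j` is in the Brauer kernel
    have h3 : aug k D (α (1 - j)) = 0 := by
      change χ (1 - j) = 0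
      rw [map_sub, map_one, hχj, sub_self]
    obtain ⟨m, hm⟩ := nilp_of_aug hD h3
    have h4 : α (1 - j) = 0 := by
      have h5 : IsIdempotentElem (1 - j) := by
        have : IsIdempotentElem j := hjj
        exact this.one_sub
      have h6 : IsIdempotentElem (α (1 - j)) := h5.map α
      rcases Nat.eq_zero_or_pos m with h7 | h7
      · rw [h7, pow_zero] at hm
        exact absurd hm one_ne_zero
      · rw [← h6.pow_eq h7.ne', hm]
    have h5 := (hα (1 - j) 0).1 h4
    rw [map_zero, sub_zero] at h5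
    exact h5
  · intro a haj hacom
    have ha1 : (j : R) * a = a := by rw [← haj, ← mul_assoc, ← mul_assoc, hjR]
    have ha2 : a * j = a := by rw [← haj, mul_assoc, hjR]
    obtain ⟨ν', e1, e2, e3, e4⟩ := hcor ⟨a, hacom⟩ (Subtype.ext ha1) (Subtype.ext ha2)
    by_cases h0 : χ ⟨a, hacom⟩ = 0
    · right
      rw [h0, zero_smul, zero_add] at e1
      obtain ⟨m, hm⟩ := e2
      refine ⟨m, ?_⟩
      rw [← e1] at hm
      exact congrArg Subtype.val hm
    · left
      obtain ⟨y, y1, y2, y3, y4⟩ := corner_unit hjj e3 e4 e2 h0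
      rw [← e1] at y3 y4
      refine ⟨y, ?_, congrArg Subtype.val y3, congrArg Subtype.val y4⟩
      have : j * y * j = y := by rw [y1, y2]
      exact congrArg Subtype.val this
  · rw [← mul_assoc, ← hn₂j, mul_assoc, mul_assoc, hgj, hjg]
  · rw [hn'e, hjR]
  · intro x
    rw [mul_assoc, ← hgcom x, ← mul_assoc, hn₂u, mul_assoc]

end Vale.P179.H190
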