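import Vale.Agent.P179.Allb.DefsR
import Vale.Agent.P179.H190.Prim3

/-!
# P179, ALLB, module PRIM
-/

namespace Vale.P179.H190

open Vale.P179.Allb

/-- for the whole group `D` the radical of the form is the Brauer kernel -/
theorem mem_KA_top_iff {k D Λ : Type} [Field k] [CommGroup D] [Ring Λ] [Algebra k Λ]
    (A : PX k D Λ) (a : Λ) : a ∈ A.KA ⊤ ↔ Br0 k A.u a := by
  have := A.fin
  have hfin : FiniteDimensional k Λ := Module.Finite.of_basis A.b
  have hCA : ∀ c : Λ, c ∈ A.CA ⊤ ↔ Com A.u c := by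
    intro c
    rw [PX.CA, Subalgebra.mem_centralizer_iff]
    constructor
    · intro h d; exact h _ ⟨d, trivial, rfl⟩
    · rintro h _ ⟨d, _, rfl⟩; exact h d
  constructor
  · rintro ⟨h1, h2⟩
    refine ⟨(hCA a).1 h1, fun l hl => ?_⟩
    -- represent `l`
    let Φ : Λ →ₗ[k] Module.Dual k Λ :=
      LinearMap.mk₂ k (fun c y => A.t (c * y)) (fun x y z => by rw [add_mul, map_add])
        (fun r x y => by rw [smul_mul_assoc, map_smul])
        (fun x y z => by rw [mul_add, map_add]) (fun r x y => by rw [mul_smul_comm, map_smul])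
    have hinj : Function.Injective Φ := by
      rw [← LinearMap.ker_eq_bot, LinearMap.ker_eq_bot']
      intro c hc
      exact A.nd c fun y => LinearMap.congr_fun hc y
    have hsurj : Function.Surjective Φ :=
      (LinearMap.injective_iff_surjective_of_finrank_eq_finrank
        (Subspace.dual_finrank_eq (K := k) (V := Λ)).symm).1 hinj
    obtain ⟨c, hc⟩ := hsurj l
    have hcl : ∀ y, A.t (c * y) = l y := fun y => LinearMap.congr_fun hc y
    have hcom : Com A.u c := by
      intro d
      have h3 : A.u d⁻¹ * c * A.u d - c = 0 := by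
        apply A.nd
        intro y
        rw [sub_mul, map_sub, hcl]
        have h4 : A.t (A.u d⁻¹ * c * A.u d * y) = A.t (c * (A.u d * y * A.u d⁻¹)) := by
          rw [mul_assoc, mul_assoc, A.tc]
          simp only [mul_assoc]
        rw [h4, hcl, hl, sub_self]
      rw [sub_eq_zero] at h3
      conv_lhs => rw [← h3]
      rw [mul_assoc, ← mul_assoc (A.u d), ← map_mul, mul_inv_cancel, map_one, one_mul]
    rw [← hcl, A.tc]
    exact h2 c ((hCA c).2 hcom)
  · rintro ⟨h1, h2⟩
    refine ⟨(hCA a).2 h1, fun c hc => ?_⟩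
    have hc' := (hCA c).1 hc
    refine h2 (A.t ∘ₗ LinearMap.mulRight k c) fun d x => ?_
    simp only [LinearMap.comp_apply, LinearMap.mulRight_apply]
    rw [mul_assoc, hc' d⁻¹, ← mul_assoc, A.tc, ← mul_assoc, ← mul_assoc, ← map_mul,
      inv_mul_cancel, map_one, one_mul]

/-- **MODULE PRIM, without freeness** -/
theorem primr : PRIMR := by
  intro p _ k _ _ _ D _ _ τ e _ hTW R _ _ B hcnt hfree n hnu hn
  have := B.fin
  have hcard : Nat.card {i : B.I // Com B.u (B.b i)} = Nat.card D := by
    rw [← hcnt]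
    refine Nat.card_congr (Equiv.subtypeEquivRight fun i => ?_)
    exact ⟨fun h x _ => h x, fun h x => h x trivial⟩
  obtain ⟨j, n', h1, h2, h3, _, h5, h6, h7, h8⟩ := prim_core hTW.pgr τ
    (Nat.pos_of_ne_zero (NeZero.ne e)) hTW.pow hTW.cop B.u B.b B.stab hfree hcard n hnu hn
  exact ⟨j, n', h1, h2, fun h => h3 ((mem_KA_top_iff B j).1 h), h5, h6, h7, h8⟩

/-- **MODULE PRIM** -/
theorem prim : PRIM := fun p _ k _ _ _ D _ _ τ e _ hTW => primr p k D τ e hTW.toTW0

end Vale.P179.H190
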