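import Mathlib
import Vale.Agent.P179.H190.Ten2

/-!
# P179, ALLB, piece NEWN: the new element `n`
-/

namespace Vale.P179.H190

universe u v w

theorem newn_core {p : ℕ} [Fact p.Prime] {k : Type u} [Field k] [IsAlgClosed k] [CharP k p]
    {A : Type v} [Ring A] [Algebra k A] [FiniteDimensional k A] {D : Type w} [Group D]
    (u : D →* A) (τ : MulAut D) (e : ℕ) (he : e ≠ 0) (hcop : e.Coprime p) (hτ : τ ^ e = 1)
    (n₀ m₀ : A) (hnm : n₀ * m₀ = 1) (hmn : m₀ * n₀ = 1) (hn₀ : ∀ d, n₀ * u d = u (τ d) * n₀)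
    (i : A) (hii : i * i = i) (hiu : ∀ d, i * u d = u d * i)
    (hloc : ∀ a, (∀ d, a * u d = u d * a) → i * a = a → a * i = a → IsNilpotent a ∨
      ∃ a', i * a' = a' ∧ a' * i = a' ∧ a * a' = i ∧ a' * a = i)
    (x y : A) (hx : ∀ d, x * u d = u d * x) (hy : ∀ d, y * u d = u d * y)
    (hxy : ¬ IsNilpotent (i * y * (n₀ * i * m₀) * x * i)) :
    ∃ n : A, i * n = n ∧ n * i = n ∧ n ^ e * i = i ∧ ∀ d, n * u d = u (τ d) * n := by
  classical
  have hp : p.Prime := Fact.out
  have hm₀ : ∀ d, m₀ * u (τ d) = u d * m₀ := by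
    intro d
    calc m₀ * u (τ d) = m₀ * (u (τ d) * n₀) * m₀ := by
          rw [mul_assoc, mul_assoc, hnm, mul_one]
      _ = m₀ * (n₀ * u d) * m₀ := by rw [hn₀]
      _ = u d * m₀ := by rw [← mul_assoc m₀, hmn, one_mul]
  set i' : A := n₀ * i * m₀ with hi'
  have hi'i' : i' * i' = i' := by
    calc i' * i' = n₀ * (i * (m₀ * n₀) * i) * m₀ := by rw [hi']; simp only [mul_assoc]
      _ = i' := by rw [hmn, mul_one, hii]
  have hi'n₀ : i' * n₀ = n₀ * i := by rw [hi', mul_assoc, hmn, mul_one]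
  have hm₀i' : m₀ * i' = i * m₀ := by
    rw [hi', mul_assoc n₀, ← mul_assoc m₀, hmn, one_mul]
  have hi'u : ∀ d, i' * u d = u d * i' := by
    intro d
    obtain ⟨d', rfl⟩ := τ.surjective d
    calc i' * u (τ d') = n₀ * i * (m₀ * u (τ d')) := by rw [hi', mul_assoc]
      _ = n₀ * (i * u d') * m₀ := by rw [hm₀]; simp only [mul_assoc]
      _ = (n₀ * u d') * i * m₀ := by rw [hiu]; simp only [mul_assoc]
      _ = _ := by rw [hn₀, hi']; simp only [mul_assoc]
  set X : A := i' * x * i with hX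
  set Y : A := i * y * i' with hY
  have hYX : Y * X = i * y * i' * x * i := by
    rw [hX, hY]
    calc i * y * i' * (i' * x * i) = i * y * (i' * i') * x * i := by simp only [mul_assoc]
      _ = _ := by rw [hi'i']
  have hXu : ∀ d, X * u d = u d * X := by
    intro d
    calc X * u d = i' * x * (i * u d) := by rw [hX]; simp only [mul_assoc]
      _ = i' * (x * u d) * i := by rw [hiu]; simp only [mul_assoc]
      _ = (i' * u d) * x * i := by rw [hx]; simp only [mul_assoc]
      _ = _ := by rw [hi'u, hX]; simp only [mul_assoc]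
  have hYu : ∀ d, Y * u d = u d * Y := by
    intro d
    calc Y * u d = i * y * (i' * u d) := by rw [hY]; simp only [mul_assoc]
      _ = i * (y * u d) * i' := by rw [hi'u]; simp only [mul_assoc]
      _ = (i * u d) * y * i' := by rw [hy]; simp only [mul_assoc]
      _ = _ := by rw [hiu, hY]; simp only [mul_assoc]
  have hiY : i * Y = Y := by
    calc i * Y = (i * i) * y * i' := by rw [hY]; simp only [mul_assoc]
      _ = Y := by rw [hii]
  have hXi : X * i = X := by rw [hX, mul_assoc, hii]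
  have hi'X : i' * X = X := by rw [hX, ← mul_assoc, ← mul_assoc, hi'i']
  have hYi' : Y * i' = Y := by rw [hY, mul_assoc, hi'i']
  obtain ⟨W, hW1, hW2, hW3, hW4⟩ : ∃ W, i * W = W ∧ W * i = W ∧ Y * X * W = i ∧ W * (Y * X) = i := by
    rcases hloc (Y * X) (fun d => by rw [mul_assoc, hXu, ← mul_assoc, hYu, mul_assoc])
      (by rw [← mul_assoc, hiY]) (by rw [mul_assoc, hXi]) with h | h
    · exact absurd (by rw [← hYX]; exact h) hxy
    · exact h
  have hWu : ∀ d, W * u d = u d * W := by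
    intro d
    calc W * u d = W * (i * u d) := by rw [← mul_assoc, hW2]
      _ = W * u d * i := by rw [hiu, mul_assoc]
      _ = W * u d * (Y * X * W) := by rw [hW3]
      _ = W * (u d * Y) * X * W := by simp only [mul_assoc]
      _ = W * Y * (u d * X) * W := by rw [← hYu]; simp only [mul_assoc]
      _ = (W * (Y * X)) * u d * W := by rw [← hXu]; simp only [mul_assoc]
      _ = u d * W := by rw [hW4, hiu, mul_assoc, hW1]
  have hi0 : i ≠ 0 := by
    intro h0
    apply hxy
    rw [h0, mul_zero]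
    exact IsNilpotent.zero
  -- `X W Y = i'`
  have hZZ : (X * W * Y) * (X * W * Y) = X * W * Y := by
    calc (X * W * Y) * (X * W * Y) = X * (W * (Y * X)) * W * Y := by simp only [mul_assoc]
      _ = X * W * Y := by rw [hW4, hXi]
  have hZne : X * W * Y ≠ 0 := by
    intro h0
    apply hi0
    calc i = Y * X * W := hW3.symm
      _ = Y * (X * (W * (Y * X))) * W := by rw [hW4, hXi]
      _ = Y * (X * W * Y) * X * W := by simp only [mul_assoc]
      _ = 0 := by rw [h0, mul_zero, zero_mul, zero_mul]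
  have hZ : m₀ * (X * W * Y) * n₀ = i := by
    set a : A := m₀ * (X * W * Y) * n₀ with ha
    have haa : a * a = a := by
      calc a * a = m₀ * ((X * W * Y) * (n₀ * m₀) * (X * W * Y)) * n₀ := by
            rw [ha]; simp only [mul_assoc]
        _ = a := by rw [hnm, mul_one, hZZ]
    have hia : i * a = a := by
      calc i * a = (i * m₀) * (X * W * Y) * n₀ := by rw [ha]; simp only [mul_assoc]
        _ = m₀ * (i' * X) * W * Y * n₀ := by rw [← hm₀i']; simp only [mul_assoc]
        _ = a := by rw [hi'X, ha]; simp only [mul_assoc]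
    have hai : a * i = a := by
      calc a * i = m₀ * (X * W * Y) * (n₀ * i) := by rw [ha]; simp only [mul_assoc]
        _ = m₀ * (X * W * Y) * (i' * n₀) := by rw [← hi'n₀]
        _ = m₀ * (X * W * (Y * i')) * n₀ := by simp only [mul_assoc]
        _ = a := by rw [hYi']
    have hau : ∀ d, a * u d = u d * a := by
      intro d
      calc a * u d = m₀ * (X * W * Y) * (n₀ * u d) := by rw [ha]; simp only [mul_assoc]
        _ = m₀ * (X * W * (Y * u (τ d))) * n₀ := by rw [hn₀]; simp only [mul_assoc]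
        _ = m₀ * (X * (W * u (τ d)) * Y) * n₀ := by rw [hYu]; simp only [mul_assoc]
        _ = m₀ * ((X * u (τ d)) * W * Y) * n₀ := by rw [hWu]; simp only [mul_assoc]
        _ = (m₀ * u (τ d)) * (X * W * Y) * n₀ := by rw [hXu]; simp only [mul_assoc]
        _ = _ := by rw [hm₀, ha]; simp only [mul_assoc]
    have hane : a ≠ 0 := by
      intro h0
      apply hZne
      calc X * W * Y = n₀ * m₀ * (X * W * Y) * (n₀ * m₀) := by rw [hnm, one_mul, mul_one]
        _ = n₀ * a * m₀ := by rw [ha]; simp only [mul_assoc]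
        _ = 0 := by rw [h0, mul_zero, zero_mul]
    rcases hloc a hau hia hai with h | ⟨a', h1, h2, h3, h4⟩
    · exfalso
      apply hane
      obtain ⟨N, hN⟩ := h
      have hidem : IsIdempotentElem a := haa
      rcases Nat.eq_zero_or_pos N with h7 | h7
      · rw [h7, pow_zero] at hN
        rw [← mul_one a, hN, mul_zero]
      · rw [← hidem.pow_eq h7.ne', hN]
    · calc a = a * (a * a') := by rw [h3, hai]
        _ = (a * a) * a' := (mul_assoc a a a').symm
        _ = i := by rw [haa, h3]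
  -- the element `n₁` and its inverse
  set n₁ : A := Y * n₀ with hn₁
  set m₁ : A := m₀ * X * W with hm₁
  have hin₁ : i * n₁ = n₁ := by rw [hn₁, ← mul_assoc, hiY]
  have hn₁i : n₁ * i = n₁ := by rw [hn₁, mul_assoc, ← hi'n₀, ← mul_assoc, hYi']
  have hn₁m₁ : n₁ * m₁ = i := by
    calc n₁ * m₁ = Y * (n₀ * m₀) * X * W := by rw [hn₁, hm₁]; simp only [mul_assoc]
      _ = i := by rw [hnm, mul_one, hW3]
  have hm₁n₁ : m₁ * n₁ = i := by
    rw [← hZ, hn₁, hm₁]; simp only [mul_assoc]
  have him₁ : i * m₁ = m₁ := by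
    calc i * m₁ = (i * m₀) * X * W := by rw [hm₁]; simp only [mul_assoc]
      _ = m₀ * (i' * X) * W := by rw [← hm₀i']; simp only [mul_assoc]
      _ = m₁ := by rw [hi'X]
  have hm₁i : m₁ * i = m₁ := by rw [hm₁, mul_assoc, hW2]
  have hn₁u : ∀ d, n₁ * u d = u (τ d) * n₁ := by
    intro d
    rw [hn₁, mul_assoc, hn₀, ← mul_assoc, hYu, mul_assoc]
  have hn₁pow : ∀ (j : ℕ) (d : D), n₁ ^ j * u d = u ((τ ^ j) d) * n₁ ^ j := by
    intro j
    induction j with
    | zero => intro d; simp
    | succ j ih =>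
      intro d
      rw [pow_succ, mul_assoc, hn₁u, ← mul_assoc, ih, pow_succ, mul_assoc]
      rfl
  set f : A := n₁ ^ e with hf
  have hfu : ∀ d, f * u d = u d * f := by
    intro d; rw [hf, hn₁pow, hτ]; rfl
  obtain ⟨e', rfl⟩ := Nat.exists_eq_succ_of_ne_zero he
  have hif : i * f = f := by rw [hf, pow_succ', ← mul_assoc, hin₁]
  have hfi : f * i = f := by rw [hf, pow_succ, mul_assoc, hn₁i]
  have hfm : ∀ j : ℕ, n₁ ^ (j + 1) * m₁ ^ (j + 1) = i := by
    intro j
    induction j with
    | zero => simpa using hn₁m₁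
    | succ j ih =>
      calc n₁ ^ (j + 1 + 1) * m₁ ^ (j + 1 + 1) = n₁ * (n₁ ^ (j + 1) * m₁ ^ (j + 1)) * m₁ := by
            rw [pow_succ' n₁, pow_succ m₁]; simp only [mul_assoc]
        _ = i := by rw [ih, hn₁i, hn₁m₁]
  have hfnil : ¬ IsNilpotent f := by
    rintro ⟨N, hN⟩
    apply hi0
    have h1 : f ^ (N + 1) = 0 := by rw [pow_succ, hN, zero_mul]
    have h2 := hfm (e' * (N + 1) + N)
    have e1 : e' * (N + 1) + N + 1 = Nat.succ e' * (N + 1) := by
      rw [Nat.succ_mul]; ring
    rw [e1, pow_mul, ← hf, h1, zero_mul] at h2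
    exact h2.symm
  -- the eigenvalue
  obtain ⟨lam, ν, hfν, hνnil, hiν, hνi⟩ : ∃ (lam : k) (ν : A), f = lam • i + ν ∧ IsNilpotent ν ∧
      i * ν = ν ∧ ν * i = ν := by
    let S : Submodule k A := LinearMap.ker (LinearMap.mulLeft k i - LinearMap.id)
    have hS : ∀ z, z ∈ S ↔ i * z = z := by
      intro z
      rw [LinearMap.mem_ker, LinearMap.sub_apply, LinearMap.mulLeft_apply, LinearMap.id_apply,
        sub_eq_zero]
    have hmap : ∀ z ∈ S, LinearMap.mulLeft k f z ∈ S := by
      intro z hz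
      rw [hS] at *
      rw [LinearMap.mulLeft_apply, ← mul_assoc, hif]
    have hnt : Nontrivial S := by
      refine ⟨⟨⟨i, (hS i).2 hii⟩, 0, fun h => hi0 (congrArg Subtype.val h)⟩⟩
    obtain ⟨lam, hlam⟩ := Module.End.exists_eigenvalue ((LinearMap.mulLeft k f).restrict hmap)
    obtain ⟨⟨z, hzS⟩, hz⟩ := hlam.exists_hasEigenvector
    have hz0 : z ≠ 0 := fun h => hz.2 (Subtype.ext h)
    have hfz : f * z = lam • z := congrArg Subtype.val hz.apply_eq_smul
    have hiz : i * z = z := (hS z).1 hzS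
    have h1 : i * (f - lam • i) = f - lam • i := by rw [mul_sub, hif, mul_smul_comm, hii]
    have h2 : (f - lam • i) * i = f - lam • i := by rw [sub_mul, hfi, smul_mul_assoc, hii]
    refine ⟨lam, f - lam • i, by abel, ?_, h1, h2⟩
    rcases hloc (f - lam • i) (fun d => by
      rw [sub_mul, mul_sub, hfu, smul_mul_assoc, mul_smul_comm, hiu]) h1 h2 with h | ⟨a', h3, h4, h5, h6⟩
    · exact h
    · exfalso
      apply hz0
      calc z = a' * (f - lam • i) * z := by rw [h6, hiz]
        _ = a' * (f * z - lam • (i * z)) := by rw [mul_assoc, sub_mul, smul_mul_assoc]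
        _ = 0 := by rw [hfz, hiz, sub_self, mul_zero]
  have hlam0 : lam ≠ 0 := by
    rintro rfl
    rw [zero_smul, zero_add] at hfν
    exact hfnil (hfν ▸ hνnil)
  obtain ⟨N, hN⟩ := hνnil
  have hntA : Nontrivial A := ⟨⟨i, 0, hi0⟩⟩
  have hcharA : CharP A p := charP_of_injective_algebraMap (algebraMap k A).injective p
  have hepos : 0 < Nat.succ e' := Nat.succ_pos _
  set T : ℕ := (p ^ N) ^ (Nat.totient (Nat.succ e')) with hT
  have htot : 0 < Nat.totient (Nat.succ e') := Nat.totient_pos.2 hepos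
  have hpN : (p ^ N).Coprime (Nat.succ e') := Nat.Coprime.pow_left N hcop.symm
  have hTmod : T ≡ 1 [MOD (Nat.succ e')] := Nat.ModEq.pow_totient hpN
  have hTpos : 1 ≤ T := Nat.one_le_iff_ne_zero.2 (pow_ne_zero _ (pow_ne_zero _ hp.ne_zero))
  obtain ⟨a, ha⟩ := (Nat.modEq_iff_dvd' hTpos).1 hTmod.symm
  have hTa : T = a * Nat.succ e' + 1 := by rw [mul_comm]; omega
  have hTpow : T = p ^ (N * Nat.totient (Nat.succ e')) := by rw [hT, ← pow_mul]
  have hNT : N ≤ T := by
    have h3 : N ≤ p ^ N := (Nat.lt_pow_self hp.one_lt).le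
    have h4 : p ^ N ≤ T := Nat.le_self_pow htot.ne' _
    omega
  have hfT : f ^ T = lam ^ T • i := by
    have hcomm : Commute (lam • i) ν := by
      change lam • i * ν = ν * (lam • i)
      rw [smul_mul_assoc, mul_smul_comm, hiν, hνi]
    have hνT : ν ^ T = 0 := pow_eq_zero_of_le hNT hN
    have hidem : IsIdempotentElem i := hii
    have h4 : (lam • i + ν) ^ T = (lam • i) ^ T + ν ^ T := by
      rw [hTpow]
      exact add_pow_char_pow_of_commute _ _ hcomm
    rw [hfν, h4, hνT, add_zero, smul_pow, hidem.pow_eq (by omega)]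
  obtain ⟨κ, hκ⟩ := IsAlgClosed.exists_pow_nat_eq ((lam ^ T)⁻¹) hepos
  have hfn₁ : Commute f n₁ := (Commute.refl n₁).pow_left _
  have hfai : f ^ a * i = i * f ^ a := by
    have : Commute f i := by change f * i = i * f; rw [hfi, hif]
    exact (this.pow_left a).eq
  have hfau : ∀ d, f ^ a * u d = u d * f ^ a := by
    intro d
    have : Commute f (u d) := hfu d
    exact (this.pow_left a).eq
  refine ⟨κ • (n₁ * f ^ a), ?_, ?_, ?_, ?_⟩
  · rw [mul_smul_comm, ← mul_assoc, hin₁]
  · rw [smul_mul_assoc, mul_assoc, hfai, ← mul_assoc, hn₁i]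
  · rw [smul_pow, (hfn₁.pow_left a).symm.mul_pow, ← hf, ← pow_mul, ← pow_succ', ← hTa, hfT, hκ,
      smul_smul, inv_mul_cancel₀ (pow_ne_zero _ hlam0), one_smul, hii]
  · intro d
    rw [smul_mul_assoc, mul_assoc, hfau, ← mul_assoc, hn₁u, mul_smul_comm, mul_assoc]

end Vale.P179.H190
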