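import Vale.Agent.P179.H531.St0
import Vale.Agent.P179.H190.Newn1

/-!
# P179, ALLB, piece NEWN of START
-/

namespace Vale.P179.H190

/-- **PIECE NEWN** -/
theorem newn : Vale.P179.H531.NEWN := by
  intro p _ k _ _ _ A _ _ _ D _ u τ e he hcop hτ n₀ m₀ hnm hmn hn₀ i hii hiu hloc x y hx hy hxy
  exact newn_core (p := p) (k := k) u τ e he hcop hτ n₀ m₀ hnm hmn hn₀ i hii hiu hloc x y hx hy hxy

end Vale.P179.H190
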