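import Mathlib
import Vale.Agent.P179.H190.KD1

/-!
# P179, signature theorem, module KD, part 2

Eigen-decomposition, freeness, the special generators, the greedy adapted extension.
-/

open Finset MonoidAlgebra
open scoped BigOperators

namespace Vale.P179.H190

universe u v

section Lift

variable {k : Type u} [Field k] {D : Type v} [CommGroup D] {p : ℕ} (C : Coord k D p)

/-- the section `e_i ↦ g_i - 1` -/
noncomputable def Coord.sg : (C.ι → k) →ₗ[k] MonoidAlgebra k D :=
  Fintype.linearCombination k (fun i => dl k (C.g i))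

lemma Coord.sg_apply (c : C.ι → k) : C.sg c = ∑ i, c i • dl k (C.g i) := by
  simp [Coord.sg, Fintype.linearCombination_apply]

lemma Coord.sg_mem (c : C.ι → k) : C.sg c ∈ K k D := by
  rw [C.sg_apply]
  exact Submodule.sum_mem _ fun i _ => Submodule.smul_mem _ _ (dl_mem_K _)

lemma Coord.Phi_sg (c : C.ι → k) : Phi C.δ (C.sg c) = c := by
  rw [C.sg_apply, map_sum]
  ext i
  rw [Finset.sum_apply, Finset.sum_eq_single i]
  · rw [map_smul, Phi_dl C.δ_mul, C.δ_g]; simp
  · intro j _ hj
    rw [map_smul, Phi_dl C.δ_mul, C.δ_g]; simp [hj]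
  · intro h; exact absurd (Finset.mem_univ _) h

lemma Coord.exists_sg {x : MonoidAlgebra k D} (hx : x ∈ K k D) :
    ∃ c : C.ι → k, x - C.sg c ∈ K k D * K k D := by
  have key : ∀ d : D, dl k d ∈ LinearMap.range C.sg ⊔ K k D * K k D := by
    let S : Submonoid D :=
      { carrier := {d | dl k d ∈ LinearMap.range C.sg ⊔ K k D * K k D}
        one_mem' := by
          rw [Set.mem_ofPred_eq]
          have : dl k (1 : D) = 0 := by simp [dl, MonoidAlgebra.one_def]
          rw [this]; exact Submodule.zero_mem _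
        mul_mem' := by
          intro a b ha hb
          rw [Set.mem_ofPred_eq] at *
          rw [dl_mul]
          refine Submodule.add_mem _ (Submodule.add_mem _ ha hb) ?_
          exact Submodule.mem_sup_right (Submodule.mul_mem_mul (dl_mem_K a) (dl_mem_K b)) }
    intro d
    obtain ⟨n, rfl⟩ := C.gen d
    have : ∏ i, C.g i ^ n i ∈ S := by
      refine prod_mem fun i _ => pow_mem ?_ _
      change dl k (C.g i) ∈ LinearMap.range C.sg ⊔ K k D * K k D
      refine Submodule.mem_sup_left ⟨Pi.single i 1, ?_⟩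
      rw [C.sg_apply, Finset.sum_eq_single i]
      · simp
      · intro j _ hj; simp [hj]
      · intro h; exact absurd (Finset.mem_univ _) h
    exact this
  have h2 : K k D ≤ LinearMap.range C.sg ⊔ K k D * K k D := by
    conv_lhs => rw [K_eq_span]
    rw [Submodule.span_le]
    rintro _ ⟨d, rfl⟩
    exact key d
  obtain ⟨_, ⟨c, rfl⟩, r, hr, hcr⟩ := Submodule.mem_sup.1 (h2 hx)
  exact ⟨c, by rw [← hcr, add_sub_cancel_left]; exact hr⟩

lemma Coord.sub_sg {x : MonoidAlgebra k D} (hx : x ∈ K k D) :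
    x - C.sg (Phi C.δ x) ∈ K k D * K k D := by
  obtain ⟨c, hc⟩ := C.exists_sg hx
  have h := Phi_KK C.δ_mul hc
  rw [map_sub, C.Phi_sg, sub_eq_zero] at h
  rw [h]; exact hc

lemma Coord.mem_KK {x : MonoidAlgebra k D} (hx : x ∈ K k D) (h0 : Phi C.δ x = 0) :
    x ∈ K k D * K k D := by
  have := C.sub_sg hx
  rwa [h0, map_zero, sub_zero] at this

/-- the endomorphism of `V` induced by `t` -/
noncomputable def Coord.bar (t : MulAut D) : Module.End k (C.ι → k) :=
  (Phi (fun d => C.δ (t d))) ∘ₗ C.sg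

lemma Coord.Phi_bar (t : MulAut D) {x : MonoidAlgebra k D} (hx : x ∈ K k D) :
    Phi C.δ (al k t x) = C.bar t (Phi C.δ x) := by
  have h := Phi_KK (δ := fun d => C.δ (t d)) (fun d d' => by rw [map_mul, C.δ_mul]) (C.sub_sg hx)
  rw [map_sub, sub_eq_zero] at h
  rw [Phi_al, h]
  rfl

lemma Coord.pow_eq_one {M : ℕ} (hM : ∀ i, C.m i ≤ M) (d : D) : d ^ (p ^ M) = 1 := by
  obtain ⟨n, rfl⟩ := C.gen d
  rw [← Finset.prod_pow]
  refine Finset.prod_eq_one fun i _ => ?_
  obtain ⟨c, hc⟩ := Nat.exists_eq_add_of_le (hM i)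
  rw [← pow_mul, mul_comm, hc, pow_add, mul_assoc, pow_mul, C.g_pow, one_pow]

end Lift

section Eigen

variable {k : Type u} [Field k] {D : Type v} [CommGroup D]

lemma al_pow_apply (t : MulAut D) (i : ℕ) (x : MonoidAlgebra k D) :
    al k (t ^ (i + 1)) x = al k t (al k (t ^ i) x) := by
  induction x using MonoidAlgebra.induction_linear with
  | zero => simp
  | add x y hx hy => simp only [map_add, hx, hy]
  | single d a => rw [al_single, al_single, al_single, pow_succ']; rfl

lemma al_one (x : MonoidAlgebra k D) : al k (1 : MulAut D) x = x := by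
  induction x using MonoidAlgebra.induction_linear with
  | zero => simp
  | add x y hx hy => simp only [map_add, hx, hy]
  | single d a => rw [al_single]; rfl

lemma al_pow_eig {t : MulAut D} {y : MonoidAlgebra k D} {lam : k} (hy : al k t y = lam • y)
    (i : ℕ) : al k (t ^ i) y = lam ^ i • y := by
  induction i with
  | zero => rw [pow_zero, pow_zero, al_one, one_smul]
  | succ i ih => rw [al_pow_apply, ih, map_smul, hy, smul_smul, pow_succ]

/-- eigen-projection -/
noncomputable def pr (k : Type u) [Field k] {D : Type v} [CommGroup D] (t : MulAut D) (e : ℕ)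
    (ζ : k) (a : ℕ) (x : MonoidAlgebra k D) : MonoidAlgebra k D :=
  (e : k)⁻¹ • ∑ i ∈ Finset.range e, (ζ⁻¹) ^ (a * i) • al k (t ^ i) x

lemma al_pr {t : MulAut D} {e : ℕ} (hte : t ^ e = 1) {ζ : k} (hζ : ζ ^ e = 1)
    (a : ℕ) (x : MonoidAlgebra k D) : al k t (pr k t e ζ a x) = ζ ^ a • pr k t e ζ a x := by
  rcases Nat.eq_zero_or_pos e with h0 | h0
  · subst h0; simp [pr]
  have hζ0 : ζ ≠ 0 := by
    rintro rfl
    rw [zero_pow (by omega)] at hζ
    exact zero_ne_one hζ
  have hinv : (ζ⁻¹) ^ e = 1 := by rw [inv_pow, hζ, inv_one]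
  set f : ℕ → MonoidAlgebra k D := fun i => (ζ⁻¹) ^ (a * i) • al k (t ^ i) x with hf
  have hshift : ∑ i ∈ Finset.range e, f (i + 1) = ∑ i ∈ Finset.range e, f i := by
    have h1 := Finset.sum_range_succ f e
    have h2 := Finset.sum_range_succ' f e
    have h3 : f e = f 0 := by
      simp only [hf, hte, mul_zero, pow_zero]
      rw [mul_comm, pow_mul, hinv, one_pow]
    rw [h1, h3] at h2
    exact (add_right_cancel h2).symm
  have h4 : ∀ i, al k t (f i) = ζ ^ a • f (i + 1) := by
    intro i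
    simp only [hf]
    rw [map_smul, ← al_pow_apply, smul_smul]
    congr 1
    rw [mul_add, mul_one, pow_add, mul_comm (ζ⁻¹ ^ (a * i)),
      ← mul_assoc, ← mul_pow, mul_inv_cancel₀ hζ0, one_pow, one_mul]
  rw [pr, map_smul, map_sum, smul_comm]
  congr 1
  rw [Finset.sum_congr rfl fun i _ => h4 i, ← Finset.smul_sum, hshift]

lemma sum_pr {t : MulAut D} {e : ℕ} (he : (e : k) ≠ 0) {ζ : k} (hζ : IsPrimitiveRoot ζ e)
    (x : MonoidAlgebra k D) : ∑ a ∈ Finset.range e, pr k t e ζ a x = x := by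
  have he0 : e ≠ 0 := by rintro rfl; simp at he
  simp only [pr]
  rw [← Finset.smul_sum, Finset.sum_comm]
  have h1 : ∀ i ∈ Finset.range e, ∑ a ∈ Finset.range e, (ζ⁻¹) ^ (a * i) • al k (t ^ i) x =
      if i = 0 then (e : k) • x else 0 := by
    intro i hi
    rw [← Finset.sum_smul]
    split_ifs with h
    · subst h; simp [al_one]
    · have h2 : (ζ⁻¹) ^ i ≠ 1 := by
        intro h3
        rw [inv_pow, inv_eq_one] at h3
        have := Nat.le_of_dvd (Nat.pos_of_ne_zero h) (hζ.dvd_of_pow_eq_one i h3)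
        rw [Finset.mem_range] at hi
        omega
      have h3 : ∑ a ∈ Finset.range e, (ζ⁻¹) ^ (a * i) = 0 := by
        have h4 := mul_neg_geom_sum ((ζ⁻¹) ^ i) e
        have h5 : ((ζ⁻¹) ^ i) ^ e = 1 := by
          rw [← pow_mul, mul_comm i e, pow_mul, inv_pow, hζ.pow_eq_one, inv_one, one_pow]
        rw [h5, sub_self, mul_eq_zero] at h4
        rcases h4 with h4 | h4
        · exact absurd (sub_eq_zero.1 h4).symm h2
        · rw [← h4]
          refine Finset.sum_congr rfl fun a _ => ?_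
          rw [← pow_mul, mul_comm]
      rw [h3, zero_smul]
  rw [Finset.sum_congr rfl h1, Finset.sum_ite_eq' (Finset.range e) 0,
    if_pos (Finset.mem_range.2 (Nat.pos_of_ne_zero he0)), smul_smul, inv_mul_cancel₀ he, one_smul]

lemma al_pow_J (t : MulAut D) {p j : ℕ} {z : MonoidAlgebra k D} (hz : z ∈ J k D p j) (i : ℕ) :
    al k (t ^ i) z ∈ J k D p j := al_J _ hz

lemma pr_J (t : MulAut D) {p j : ℕ} {z : MonoidAlgebra k D} (hz : z ∈ J k D p j) (e : ℕ) (ζ : k)
    (a : ℕ) : pr k t e ζ a z ∈ J k D p j :=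
  Submodule.smul_mem _ _ (Submodule.sum_mem _ fun i _ => Submodule.smul_mem _ _ (al_pow_J t hz i))

/-- freeness of the action of `t`, of order `e` -/
def Free (t : MulAut D) (e : ℕ) : Prop :=
  t ^ e = 1 ∧ ∀ (i : ℕ) (d : D), d ≠ 1 → (t ^ i) d = d → e ∣ i

lemma eig_zero {ι : Type*} {δ : D → ι → k} (hδ : ∀ d d', δ (d * d') = δ d + δ d')
    {t : MulAut D} {e : ℕ} (hfree : Free t e) (he : (e : k) ≠ 0) {y : MonoidAlgebra k D} {lam : k}
    (hy : al k t y = lam • y) {r : ℕ} (hr : r ∣ e) (hre : r < e) (hlam : lam ^ r = 1) :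
    Phi δ y = 0 := by
  obtain ⟨n, rfl⟩ := hr
  have hr0 : 0 < r := by
    rcases Nat.eq_zero_or_pos r with h | h
    · subst h; simp at hre
    · exact h
  have hn : (n : k) ≠ 0 := by
    intro h; apply he; rw [Nat.cast_mul, h, mul_zero]
  have h1 : ∀ d : D, ∏ i ∈ Finset.range n, (t ^ (r * i)) d = 1 := by
    intro d
    by_contra hne
    have h2 : (t ^ r) (∏ i ∈ Finset.range n, (t ^ (r * i)) d) =
        ∏ i ∈ Finset.range n, (t ^ (r * i)) d := by
      rw [map_prod]
      set f : ℕ → D := fun i => (t ^ (r * i)) d with hf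
      have h3 : ∀ i, (t ^ r) (f i) = f (i + 1) := by
        intro i
        simp only [hf]
        rw [mul_add, mul_one, add_comm, pow_add]; rfl
      rw [Finset.prod_congr rfl fun i _ => h3 i]
      have h4 := Finset.prod_range_succ f n
      have h5 := Finset.prod_range_succ' f n
      have h6 : f n = f 0 := by simp only [hf]; rw [hfree.1, mul_zero, pow_zero]
      rw [h4, h6] at h5
      exact (mul_right_cancel h5).symm
    have h7 := hfree.2 r _ hne h2
    have := Nat.le_of_dvd hr0 h7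
    omega
  have h2 : ∀ d : D, ∑ i ∈ Finset.range n, δ ((t ^ (r * i)) d) = 0 := by
    intro d
    have h3 : ∀ m : ℕ, ∑ i ∈ Finset.range m, δ ((t ^ (r * i)) d) =
        δ (∏ i ∈ Finset.range m, (t ^ (r * i)) d) := by
      intro m
      induction m with
      | zero => simp [delta_one hδ]
      | succ m ih => rw [Finset.sum_range_succ, Finset.prod_range_succ, hδ, ih]
    rw [h3, h1, delta_one hδ]
  have h3 : ∑ i ∈ Finset.range n, Phi δ (al k (t ^ (r * i)) y) = (n : k) • Phi δ y := by
    have : ∀ i ∈ Finset.range n, Phi δ (al k (t ^ (r * i)) y) = Phi δ y := by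
      intro i _
      rw [al_pow_eig hy, pow_mul, hlam, one_pow, one_smul]
    rw [Finset.sum_congr rfl this, Finset.sum_const, Finset.card_range, Nat.cast_smul_eq_nsmul]
  have h4 : ∑ i ∈ Finset.range n, Phi δ (al k (t ^ (r * i)) y) = 0 := by
    simp_rw [Phi_al]
    rw [Phi_sum]
    simp_rw [h2]
    exact Phi_zero y
  rw [h4] at h3
  exact (smul_eq_zero.1 h3.symm).resolve_left hn

lemma eig_primitive {ι : Type*} {δ : D → ι → k} (hδ : ∀ d d', δ (d * d') = δ d + δ d')
    {t : MulAut D} {e : ℕ} (hfree : Free t e) (he : (e : k) ≠ 0) {y : MonoidAlgebra k D} {lam : k}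
    (hy : al k t y = lam • y) (hy0 : Phi δ y ≠ 0) : IsPrimitiveRoot lam e := by
  have he0 : e ≠ 0 := by rintro rfl; simp at he
  have hyne : y ≠ 0 := by rintro rfl; simp at hy0
  have h1 : lam ^ e = 1 := by
    have := al_pow_eig hy e
    rw [hfree.1, al_one] at this
    have h2 : (lam ^ e - 1) • y = 0 := by rw [sub_smul, one_smul, ← this, sub_self]
    exact sub_eq_zero.1 ((smul_eq_zero.1 h2).resolve_right hyne)
  have h2 : orderOf lam ∣ e := orderOf_dvd_of_pow_eq_one h1
  have h3 : orderOf lam = e := by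
    by_contra h
    have hlt : orderOf lam < e := lt_of_le_of_ne (Nat.le_of_dvd (Nat.pos_of_ne_zero he0) h2) h
    exact hy0 (eig_zero hδ hfree he hy h2 hlt (pow_orderOf_eq_one lam))
  rw [← h3]
  exact IsPrimitiveRoot.orderOf lam

end Eigen

section Frob

variable {k : Type u} [Field k] {D : Type v} [CommGroup D] {p : ℕ} [Fact p.Prime] [CharP k p]

lemma FrI_J {j : ℕ} {z : MonoidAlgebra k D} (hz : z ∈ J k D p j) (n : ℕ) :
    (Fr k D p)^[n] z ∈ J k D p j := by
  induction n with
  | zero => exact hz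
  | succ n ih => rw [Function.iterate_succ_apply']; exact Fr_J p ih

lemma FrI_al {t : MulAut D} {y : MonoidAlgebra k D} {lam : k} (hy : al k t y = lam • y) (n : ℕ) :
    al k t ((Fr k D p)^[n] y) = lam ^ (p ^ n) • (Fr k D p)^[n] y := by
  induction n with
  | zero => simpa using hy
  | succ n ih =>
    rw [Function.iterate_succ_apply', ← Fr_al, ih, Fr_smul, ← pow_mul, pow_succ]

lemma FrI_Phi {ι : Type*} {δ : D → ι → k} (hδp : ∀ d i, δ d i ^ p = δ d i)
    (x : MonoidAlgebra k D) (n : ℕ) (i : ι) :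
    Phi δ ((Fr k D p)^[n] x) i = (Phi δ x i) ^ (p ^ n) := by
  induction n with
  | zero => simp
  | succ n ih => rw [Function.iterate_succ_apply', Phi_Fr p hδp, ih, ← pow_mul, pow_succ]

lemma FrI_Phi_ne {ι : Type*} {δ : D → ι → k} (hδp : ∀ d i, δ d i ^ p = δ d i)
    {x : MonoidAlgebra k D} (hx : Phi δ x ≠ 0) (n : ℕ) : Phi δ ((Fr k D p)^[n] x) ≠ 0 := by
  obtain ⟨i, hi⟩ := Function.ne_iff.1 hx
  refine Function.ne_iff.2 ⟨i, ?_⟩
  rw [FrI_Phi hδp]
  exact pow_ne_zero _ hi

end Frob

end Vale.P179.H190
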