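import Mathlib
import Vale.Agent.P179.H190.KD2
import Vale.Agent.P179.H342.Gr1

/-!
# P179, signature theorem, module KD, part 3

The adapted extension and the generators.
-/

open Finset MonoidAlgebra
open scoped BigOperators

namespace Vale.P179.H190

universe u v

section Chain

variable {k : Type u} [Field k] {D : Type v} [CommGroup D] {p : ℕ} (C : Coord k D p)

/-- images of eigenvectors in `J j` -/
def Coord.T (t : MulAut D) (e : ℕ) (ζ : k) (j : ℕ) : Set (C.ι → k) :=
  {v | ∃ z ∈ J k D p j, ∃ a : ℕ, a < e ∧ al k t z = ζ ^ a • z ∧ Phi C.δ z = v}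

lemma Coord.T_mono (t : MulAut D) (e : ℕ) (ζ : k) {i j : ℕ} (h : i ≤ j) :
    C.T t e ζ i ⊆ C.T t e ζ j := by
  rintro v ⟨z, hz, a, ha, h1, h2⟩
  exact ⟨z, J_mono p h hz, a, ha, h1, h2⟩

lemma Coord.Phi_mem_span {t : MulAut D} {e : ℕ} (hte : t ^ e = 1) (he : (e : k) ≠ 0) {ζ : k}
    (hζ : IsPrimitiveRoot ζ e) {j : ℕ} {x : MonoidAlgebra k D} (hx : x ∈ J k D p j) :
    Phi C.δ x ∈ Submodule.span k (C.T t e ζ j) := by
  rw [← sum_pr (t := t) he hζ x, map_sum]
  refine Submodule.sum_mem _ fun a ha => Submodule.subset_span ?_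
  exact ⟨_, pr_J t hx e ζ a, a, Finset.mem_range.1 ha, al_pr hte hζ.pow_eq_one a x, rfl⟩

lemma Coord.g_mem (i : C.ι) {j : ℕ} (h : C.m i ≤ j) : dl k (C.g i) ∈ J k D p j :=
  J_mono p h (Submodule.subset_span ⟨C.g i, C.g_pow i, rfl⟩)

lemma Coord.single_mem {t : MulAut D} {e : ℕ} (hte : t ^ e = 1) (he : (e : k) ≠ 0) {ζ : k}
    (hζ : IsPrimitiveRoot ζ e) (i : C.ι) {j : ℕ} (h : C.m i ≤ j) :
    (Pi.single i 1 : C.ι → k) ∈ Submodule.span k (C.T t e ζ j) := by
  rw [← C.δ_g, ← Phi_dl C.δ_mul]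
  exact C.Phi_mem_span hte he hζ (C.g_mem i h)

lemma Coord.card_le {t : MulAut D} {e : ℕ} (hte : t ^ e = 1) (he : (e : k) ≠ 0) {ζ : k}
    (hζ : IsPrimitiveRoot ζ e) {j : ℕ} (b : Finset (C.ι → k))
    (hb : C.T t e ζ j ⊆ Submodule.span k (b : Set (C.ι → k))) :
    (Finset.univ.filter fun i => C.m i ≤ j).card ≤ b.card := by
  classical
  have hli : LinearIndependent k (fun i : {i // C.m i ≤ j} => (Pi.single i.1 1 : C.ι → k)) := by
    have := (Pi.basisFun k C.ι).linearIndependent.comp (fun i : {i // C.m i ≤ j} => i.1)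
      Subtype.val_injective
    convert this using 1
    ext i
    simp
  have h1 := finrank_span_eq_card hli
  have h2 : Submodule.span k (Set.range (fun i : {i // C.m i ≤ j} => (Pi.single i.1 1 : C.ι → k)))
      ≤ Submodule.span k (b : Set (C.ι → k)) := by
    rw [Submodule.span_le]
    rintro _ ⟨i, rfl⟩
    exact (Submodule.span_le.2 hb) (C.single_mem hte he hζ i.1 i.2)
  have h3 := (Submodule.finrank_mono h2).trans (finrank_span_finset_le_card b)
  rw [h1, Fintype.card_subtype] at h3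
  exact h3

/-- the greedy adapted extension -/
theorem Coord.chain {t : MulAut D} {e : ℕ} (hte : t ^ e = 1) (he : (e : k) ≠ 0) {ζ : k}
    (hζ : IsPrimitiveRoot ζ e) {m : ℕ} (hm : ∀ i, m ≤ C.m i) (S : Finset (C.ι → k))
    (hS : LinearIndepOn k id (S : Set (C.ι → k))) (hST : (S : Set (C.ι → k)) ⊆ C.T t e ζ m) :
    ∀ n : ℕ, ∃ (b : Finset (C.ι → k)) (lev : (C.ι → k) → ℕ), S ⊆ b ∧ (∀ v ∈ S, lev v = m) ∧
      LinearIndepOn k id (b : Set (C.ι → k)) ∧ (∀ v ∈ b, lev v ≤ m + n ∧ v ∈ C.T t e ζ (lev v)) ∧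
      C.T t e ζ (m + n) ⊆ Submodule.span k (b : Set (C.ι → k)) ∧
      ∑ i, (m + n - C.m i) ≤ ∑ v ∈ b, (m + n - lev v) := by
  classical
  intro n
  induction n with
  | zero =>
    obtain ⟨b, hb1, hb2, hb3, hb4⟩ := exists_linearIndepOn_id_extension hS hST
    have hfin : b.Finite := hb4.setFinite
    refine ⟨hfin.toFinset, fun _ => m, ?_, fun _ _ => rfl, ?_, ?_, ?_, ?_⟩
    · intro v hv; rw [Set.Finite.mem_toFinset]; exact hb2 hv
    · rw [Set.Finite.coe_toFinset]; exact hb4
    · intro v hv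
      rw [Set.Finite.mem_toFinset] at hv
      exact ⟨le_rfl, hb1 hv⟩
    · rw [Set.Finite.coe_toFinset, add_zero]; exact hb3
    · rw [Finset.sum_eq_zero]
      · exact Nat.zero_le _
      · intro i _
        have := hm i
        omega
  | succ n ih =>
    obtain ⟨b, lev, h1, h2, h3, h4, h5, h6⟩ := ih
    have hbT : (b : Set (C.ι → k)) ⊆ C.T t e ζ (m + (n + 1)) := fun v hv =>
      C.T_mono t e ζ (by have := (h4 v hv).1; omega) (h4 v hv).2
    obtain ⟨b', hb1, hb2, hb3, hb4⟩ := exists_linearIndepOn_id_extension h3 hbT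
    have hfin : b'.Finite := hb4.setFinite
    refine ⟨hfin.toFinset, fun v => if v ∈ b then lev v else m + (n + 1), ?_, ?_, ?_, ?_, ?_, ?_⟩
    · intro v hv; rw [Set.Finite.mem_toFinset]; exact hb2 (h1 hv)
    · intro v hv; simp only; rw [if_pos (h1 hv), h2 v hv]
    · rw [Set.Finite.coe_toFinset]; exact hb4
    · intro v hv
      rw [Set.Finite.mem_toFinset] at hv
      simp only
      split_ifs with hvb
      · exact ⟨by have := (h4 v hvb).1; omega, (h4 v hvb).2⟩
      · exact ⟨le_rfl, hb1 hv⟩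
    · rw [Set.Finite.coe_toFinset]; exact hb3
    · have hsub : b ⊆ hfin.toFinset := fun v hv => by
        rw [Set.Finite.mem_toFinset]; exact hb2 hv
      calc ∑ i, (m + (n + 1) - C.m i)
          = ∑ i, ((m + n - C.m i) + if C.m i ≤ m + n then 1 else 0) := by
            refine Finset.sum_congr rfl fun i _ => ?_
            split_ifs <;> omega
        _ = ∑ i, (m + n - C.m i) + (Finset.univ.filter fun i => C.m i ≤ m + n).card := by
            rw [Finset.sum_add_distrib, Finset.card_filter]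
        _ ≤ ∑ v ∈ b, (m + n - lev v) + b.card :=
            Nat.add_le_add h6 (C.card_le hte he hζ b h5)
        _ = ∑ v ∈ b, (m + (n + 1) - if v ∈ b then lev v else m + (n + 1)) := by
            rw [Finset.card_eq_sum_ones, ← Finset.sum_add_distrib]
            refine Finset.sum_congr rfl fun v hv => ?_
            rw [if_pos hv]
            have := (h4 v hv).1
            omega
        _ ≤ _ := Finset.sum_le_sum_of_subset hsub

end Chain

section Gens

variable {k : Type u} [Field k] {D : Type v} [CommGroup D] {p : ℕ} (C : Coord k D p)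

/-- the output of the adapted extension: eigen-generators with levels -/
theorem Coord.extension {t : MulAut D} {e : ℕ} (hte : t ^ e = 1) (he : (e : k) ≠ 0) {ζ : k}
    (hζ : IsPrimitiveRoot ζ e) {m : ℕ} (hm : ∀ i, m ≤ C.m i) {L : ℕ} (y : Fin L → MonoidAlgebra k D)
    (hyJ : ∀ j, y j ∈ J k D p m) (wy : Fin L → ℕ) (hy : ∀ j, al k t (y j) = ζ ^ wy j • y j)
    (hli : LinearIndependent k fun j => Phi C.δ (y j)) :
    ∃ (ρ : Type u) (_ : Fintype ρ) (z : ρ → MonoidAlgebra k D) (lev w : ρ → ℕ),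
      (∀ r, z r ∈ J k D p (lev r)) ∧ (∀ r, al k t (z r) = ζ ^ w r • z r) ∧
      (∀ x ∈ K k D, ∃ (l : Fin L → k) (l' : ρ → k),
        x - (∑ j, l j • y j + ∑ r, l' r • z r) ∈ K k D * K k D) ∧
      L * m + ∑ r, lev r ≤ ∑ i, C.m i := by
  classical
  have hepos : 0 < e := Nat.pos_of_ne_zero (by rintro rfl; simp at he)
  set V := C.ι → k with hV
  set f : Fin L → V := fun j => Phi C.δ (y j) with hf
  have hinj : Function.Injective f := hli.injective
  set S : Finset V := Finset.univ.image f with hSdef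
  have hSrange : (S : Set V) = Set.range f := by simp [hSdef]
  have hS : LinearIndepOn k id (S : Set V) := by
    rw [hSrange]; exact hli.linearIndepOn_id
  have hST : (S : Set V) ⊆ C.T t e ζ m := by
    rw [hSrange]
    rintro _ ⟨j, rfl⟩
    refine ⟨y j, hyJ j, wy j % e, Nat.mod_lt _ hepos, ?_, rfl⟩
    rw [hy j]
    congr 1
    conv_lhs => rw [← Nat.mod_add_div (wy j) e]
    rw [pow_add, pow_mul, hζ.pow_eq_one, one_pow, mul_one]
  -- the bound
  set M : ℕ := ∑ i, C.m i + m with hM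
  have hMi : ∀ i, C.m i ≤ m + ∑ i, C.m i := fun i => by
    have := Finset.single_le_sum (f := C.m) (fun i _ => Nat.zero_le _) (Finset.mem_univ i)
    omega
  obtain ⟨b, lev, h1, h2, h3, h4, h5, h6⟩ := C.chain hte he hζ hm S hS hST (∑ i, C.m i)
  have hspan : Submodule.span k (b : Set V) = ⊤ := by
    rw [eq_top_iff, ← (Pi.basisFun k C.ι).span_eq, Submodule.span_le]
    rintro _ ⟨i, rfl⟩
    rw [Pi.basisFun_apply]
    exact (Submodule.span_le.2 h5) (C.single_mem hte he hζ i (hMi i))
  have hbcard : b.card = Fintype.card C.ι := by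
    have e1 := finrank_span_finset_eq_card (R := k) (s := b) h3
    rw [hspan, finrank_top, Module.finrank_fintype_fun_eq_card] at e1
    exact e1.symm
  have hlevsum : ∑ v ∈ b, lev v ≤ ∑ i, C.m i := by
    set N := m + ∑ i, C.m i with hN
    have e1 : ∑ i, (N - C.m i) + ∑ i, C.m i = Fintype.card C.ι * N := by
      rw [← Finset.sum_add_distrib]
      rw [Finset.sum_congr rfl fun i _ => Nat.sub_add_cancel (hMi i)]
      simp
    have e2 : ∑ v ∈ b, (N - lev v) + ∑ v ∈ b, lev v = b.card * N := by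
      rw [← Finset.sum_add_distrib]
      rw [Finset.sum_congr rfl fun v hv => Nat.sub_add_cancel (h4 v hv).1]
      simp
    rw [hbcard] at e2
    omega
  -- the remaining elements
  choose! Z hZJ A hAe hAl hZ using fun v (hv : v ∈ b) => (h4 v hv).2
  refine ⟨{v // v ∈ b \ S}, inferInstance, fun r => Z r.1, fun r => lev r.1, fun r => A r.1,
    ?_, ?_, ?_, ?_⟩
  · intro r; exact hZJ _ (Finset.mem_sdiff.1 r.2).1
  · intro r; exact hAl _ (Finset.mem_sdiff.1 r.2).1
  · intro x hx
    have hPx : Phi C.δ x ∈ Submodule.span k (b : Set V) := by rw [hspan]; exact Submodule.mem_top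
    rw [Submodule.mem_span_finset] at hPx
    obtain ⟨c, _, hc⟩ := hPx
    refine ⟨fun j => c (f j), fun r => c r.1, ?_⟩
    apply C.mem_KK
    · refine Submodule.sub_mem _ hx (Submodule.add_mem _ ?_ ?_)
      · exact Submodule.sum_mem _ fun j _ => Submodule.smul_mem _ _ (J_le_K p m (hyJ j))
      · exact Submodule.sum_mem _ fun r _ => Submodule.smul_mem _ _
          (J_le_K p _ (hZJ _ (Finset.mem_sdiff.1 r.2).1))
    · rw [map_sub, map_add, map_sum, map_sum, ← hc, sub_eq_zero]
      have e1 : ∑ j, Phi C.δ (c (f j) • y j) = ∑ v ∈ S, c v • v := by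
        rw [hSdef, Finset.sum_image (fun a _ b _ h => hinj h)]
        refine Finset.sum_congr rfl fun j _ => ?_
        rw [map_smul]
      have e2 : ∑ r : {v // v ∈ b \ S}, Phi C.δ (c r.1 • Z r.1) = ∑ v ∈ b \ S, c v • v := by
        rw [← Finset.sum_coe_sort (b \ S) (fun v => c v • v)]
        refine Finset.sum_congr rfl fun r _ => ?_
        rw [map_smul, hZ _ (Finset.mem_sdiff.1 r.2).1]
      rw [e1, e2, add_comm, Finset.sum_sdiff h1]
  · have e1 : ∑ r : {v // v ∈ b \ S}, lev r.1 = ∑ v ∈ b \ S, lev v :=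
      Finset.sum_coe_sort (b \ S) lev
    have e2 : ∑ v ∈ S, lev v = L * m := by
      rw [Finset.sum_congr rfl h2, Finset.sum_const, hSdef, Finset.card_image_of_injective _ hinj,
        Finset.card_univ, Fintype.card_fin, smul_eq_mul]
    rw [e1, ← e2, add_comm, Finset.sum_sdiff h1]
    exact hlevsum

end Gens

end Vale.P179.H190
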