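import Mathlib
import Vale.Agent.P179.H190.KD2
import Vale.Agent.P179.H342.Gr1

/-!
# P179, signature theorem, module KD, part 4

Dimensions of the eigenspaces of the induced automorphism; counting.
-/

open Finset MonoidAlgebra
open scoped BigOperators

namespace Vale.P179.H190

universe u v

section Coprime

variable {D : Type v} [CommGroup D]

lemma mulAut_pow_add (t : MulAut D) (a b : ℕ) (d : D) : (t ^ (a + b)) d = (t ^ a) ((t ^ b) d) := by
  rw [pow_add]; rfl

lemma Free.eq_one_of {t : MulAut D} {e : ℕ} (h : Free t e) (d : D) (hd : d ≠ 1) {a b : ℕ}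
    (hab : (t ^ a) d = (t ^ b) d) : a ≡ b [MOD e] := by
  wlog hle : a ≤ b generalizing a b
  · exact (this hab.symm (by omega)).symm
  obtain ⟨c, rfl⟩ := Nat.exists_eq_add_of_le hle
  rw [mulAut_pow_add] at hab
  have h1 := (t ^ a).injective hab
  have h2 := h.2 c d hd h1.symm
  rw [Nat.modEq_iff_dvd' hle]
  simpa using h2

/-- the order of a free automorphism of a nontrivial finite p-group is prime to p -/
lemma Free.coprime [Finite D] [Nontrivial D] {p : ℕ} [hp : Fact p.Prime] (hD : IsPGroup p D)
    {t : MulAut D} {e : ℕ} (he : 0 < e) (h : Free t e) : Nat.Coprime e p := by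
  by_contra hcop
  have hpe : p ∣ e := by
    by_contra hpe
    exact hcop ((Nat.Prime.coprime_iff_not_dvd hp.out).2 hpe).symm
  obtain ⟨r, hr⟩ := hpe
  have hr0 : 0 < r := by
    rcases Nat.eq_zero_or_pos r with h0 | h0
    · subst h0; simp at hr; omega
    · exact h0
  have hp1 : 1 < p := hp.out.one_lt
  have hlt : r < e := by rw [hr]; exact lt_mul_of_one_lt_left hr0 hp1
  -- the group generated by `t ^ r`
  have hcyc : IsPGroup p (Subgroup.zpowers (t ^ r)) := by
    apply IsPGroup.of_card (n := 1)
    rw [Nat.card_zpowers, pow_one]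
    have hne : t ^ r ≠ 1 := by
      intro h1
      obtain ⟨d, hd⟩ := exists_ne (1 : D)
      have := h.2 r d hd (by rw [h1]; rfl)
      have := Nat.le_of_dvd hr0 this
      omega
    exact orderOf_eq_prime (by rw [← pow_mul, mul_comm, ← hr]; exact h.1) hne
  have hfix : (1 : D) ∈ MulAction.fixedPoints (Subgroup.zpowers (t ^ r)) D := by
    rintro ⟨g, hg⟩
    change g (1 : D) = 1
    exact map_one g
  have hdvd : p ∣ Nat.card D := by
    obtain ⟨n, hn⟩ := IsPGroup.iff_card.1 hD
    rw [hn]
    refine dvd_pow_self p ?_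
    rintro rfl
    rw [pow_zero] at hn
    exact absurd hn (by have := Finite.one_lt_card (α := D); omega)
  obtain ⟨b, hb, hb1⟩ := hcyc.exists_fixed_point_of_prime_dvd_card_of_fixed_point D hdvd hfix
  have hb2 : (t ^ r) b = b := hb ⟨t ^ r, Subgroup.mem_zpowers _⟩
  have := Nat.le_of_dvd hr0 (h.2 r b (Ne.symm hb1) hb2)
  omega

end Coprime

section Dim

variable {k : Type u} [Field k] {D : Type v} [CommGroup D]

/-- an equivariant function -/
lemma exists_equi {t : MulAut D} {e : ℕ} (he : 0 < e) (h : Free t e) {ζ : k} (hζ : ζ ^ e = 1) :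
    ∃ c : D → k, c 1 = 0 ∧ (∀ d, d ≠ 1 → c d ≠ 0) ∧ ∀ d, c (t d) = ζ * c d := by
  classical
  have hζ0 : ζ ≠ 0 := by
    rintro rfl
    rw [zero_pow (by omega)] at hζ
    exact zero_ne_one hζ
  let s : Setoid D :=
    { r := fun d d' => ∃ i : ℕ, (t ^ i) d = d'
      iseqv := by
        constructor
        · intro d; exact ⟨0, rfl⟩
        · rintro d _ ⟨i, rfl⟩
          refine ⟨(e - 1) * i, ?_⟩
          rw [← mulAut_pow_add]
          have : (e - 1) * i + i = e * i := by
            obtain ⟨n, rfl⟩ := Nat.exists_eq_add_of_le' he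
            simp only [Nat.add_sub_cancel]
            ring
          rw [this, pow_mul, h.1, one_pow]
          rfl
        · rintro d _ _ ⟨i, rfl⟩ ⟨j, rfl⟩
          exact ⟨j + i, mulAut_pow_add t j i d⟩ }
  have hrep : ∀ d : D, ∃ i : ℕ, (t ^ i) (Quotient.mk s d).out = d := fun d => Quotient.mk_out d
  choose i hi using hrep
  refine ⟨fun d => if d = 1 then 0 else ζ ^ i d, if_pos rfl, ?_, ?_⟩
  · intro d hd
    simp only
    rw [if_neg hd]
    exact pow_ne_zero _ hζ0
  · intro d
    simp only
    by_cases hd : d = 1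
    · subst hd; simp
    · have htd : t d ≠ 1 := fun h1 => hd (t.injective (by rw [h1, map_one]))
      rw [if_neg hd, if_neg htd]
      have hq : (Quotient.mk s (t d)) = Quotient.mk s d :=
        (Quotient.sound (⟨1, by rw [pow_one]⟩ : s.r d (t d))).symm
      have h1 := hi (t d)
      rw [hq] at h1
      have h2 : (t ^ (i d + 1)) (Quotient.mk s d).out = t d := by
        rw [add_comm, mulAut_pow_add, hi d, pow_one]
      have hr0 : (Quotient.mk s d).out ≠ 1 := by
        intro h3
        have := hi d
        rw [h3, map_one] at this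
        exact hd this.symm
      have h4 := h.eq_one_of _ hr0 (h1.trans h2.symm)
      have h5 : ζ ^ i (t d) = ζ ^ (i d + 1) := by
        rw [← Nat.mod_add_div (i (t d)) e, ← Nat.mod_add_div (i d + 1) e, pow_add, pow_add,
          pow_mul, pow_mul, hζ, one_pow, one_pow, h4]
      rw [h5, pow_succ, mul_comm]

/-- multiplication of the coefficients by a function -/
noncomputable def mulC (c : D → k) : MonoidAlgebra k D →ₗ[k] MonoidAlgebra k D :=
  (MonoidAlgebra.basis D k).constr k (fun d => c d • MonoidAlgebra.single d 1)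

lemma mulC_single (c : D → k) (d : D) (a : k) :
    mulC c (MonoidAlgebra.single d a) = MonoidAlgebra.single d (c d * a) := by
  have h1 : (MonoidAlgebra.single d a : MonoidAlgebra k D) = a • MonoidAlgebra.basis D k d := by
    rw [MonoidAlgebra.basis_apply, MonoidAlgebra.smul_single, smul_eq_mul, mul_one]
  rw [h1, map_smul, mulC, Module.Basis.constr_basis, MonoidAlgebra.smul_single,
    MonoidAlgebra.smul_single]
  simp [mul_comm]

lemma coeff_mulC (c : D → k) (x : MonoidAlgebra k D) (d : D) :
    (mulC c x).coeff d = c d * x.coeff d := by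
  classical
  induction x using MonoidAlgebra.induction_linear with
  | zero => simp
  | add x y hx hy => simp only [map_add, MonoidAlgebra.coeff_add, Finsupp.add_apply, hx, hy, mul_add]
  | single d' a =>
    rw [mulC_single, MonoidAlgebra.coeff_single, MonoidAlgebra.coeff_single]
    by_cases h : d' = d
    · subst h; simp
    · simp [h]

lemma mulC_al {t : MulAut D} {ζ : k} {c : D → k} (hc : ∀ d, c (t d) = ζ * c d)
    (x : MonoidAlgebra k D) : mulC c (al k t x) = ζ • al k t (mulC c x) := by
  induction x using MonoidAlgebra.induction_linear with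
  | zero => simp
  | add x y hx hy => simp only [map_add, smul_add, hx, hy]
  | single d a =>
    rw [al_single, mulC_single, mulC_single, al_single, MonoidAlgebra.smul_single, hc,
      smul_eq_mul, mul_assoc]

/-- coefficient at `1` -/
noncomputable def c1 (k : Type u) [Field k] (D : Type v) [CommGroup D] :
    MonoidAlgebra k D →ₗ[k] k :=
  (Finsupp.lapply 1) ∘ₗ (MonoidAlgebra.coeffLinearEquiv k).toLinearMap

lemma c1_apply (x : MonoidAlgebra k D) : c1 k D x = x.coeff 1 := rfl

lemma c1_al (t : MulAut D) (x : MonoidAlgebra k D) : c1 k D (al k t x) = c1 k D x := by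
  classical
  induction x using MonoidAlgebra.induction_linear with
  | zero => simp
  | add x y hx hy => simp only [map_add, hx, hy]
  | single d a =>
    rw [al_single, c1_apply, c1_apply, MonoidAlgebra.coeff_single, MonoidAlgebra.coeff_single]
    by_cases h : d = 1
    · subst h; simp
    · have h1 : t d ≠ 1 := fun h1 => h (t.injective (by rw [h1, map_one]))
      rw [Finsupp.single_eq_of_ne (Ne.symm h), Finsupp.single_eq_of_ne (Ne.symm h1)]

/-- `al` as an endomorphism -/
noncomputable def alE (k : Type u) [Field k] {D : Type v} [CommGroup D] (t : MulAut D) :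
    Module.End k (MonoidAlgebra k D) := (al k t).toLinearMap

lemma alE_apply (t : MulAut D) (x : MonoidAlgebra k D) : alE k t x = al k t x := rfl

/-- eigenvectors without constant coefficient -/
noncomputable def E0 (t : MulAut D) (μ : k) : Submodule k (MonoidAlgebra k D) :=
  (alE k t).eigenspace μ ⊓ LinearMap.ker (c1 k D)

lemma mem_E0 {t : MulAut D} {μ : k} {x : MonoidAlgebra k D} :
    x ∈ E0 t μ ↔ al k t x = μ • x ∧ x.coeff 1 = 0 := by
  rw [E0, Submodule.mem_inf, Module.End.mem_eigenspace_iff, LinearMap.mem_ker]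
  rfl

variable [Finite D]

instance finA : FiniteDimensional k (MonoidAlgebra k D) :=
  Module.Finite.equiv (MonoidAlgebra.coeffLinearEquiv k (M := D) (S := k)).symm

lemma finrank_A : Module.finrank k (MonoidAlgebra k D) = Nat.card D := by
  have := Fintype.ofFinite D
  rw [Module.finrank_eq_card_basis (MonoidAlgebra.basis D k), Nat.card_eq_fintype_card]

lemma finrank_E0_le {t : MulAut D} {e : ℕ} (he : 0 < e) (h : Free t e) {ζ : k} (hζ : ζ ^ e = 1)
    (μ : k) : Module.finrank k (E0 t μ) ≤ Module.finrank k (E0 t (ζ⁻¹ * μ)) := by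
  have hζ0 : ζ ≠ 0 := by
    rintro rfl
    rw [zero_pow (by omega)] at hζ
    exact zero_ne_one hζ
  obtain ⟨c, hc1, hc0, hct⟩ := exists_equi he h hζ
  have hmap : ∀ x ∈ E0 t μ, mulC c x ∈ E0 t (ζ⁻¹ * μ) := by
    intro x hx
    rw [mem_E0] at *
    refine ⟨?_, by rw [coeff_mulC, hx.2, mul_zero]⟩
    have h1 := mulC_al hct x
    rw [hx.1, map_smul] at h1
    rw [mul_smul, h1, smul_smul, inv_mul_cancel₀ hζ0, one_smul]
  refine LinearMap.finrank_le_finrank_of_injective (f := (mulC c).restrict hmap) ?_
  rw [← LinearMap.ker_eq_bot, LinearMap.ker_eq_bot']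
  rintro ⟨x, hx⟩ h0
  have h1 : mulC c x = 0 := congrArg Subtype.val h0
  rw [mem_E0] at hx
  ext d
  by_cases hd : d = 1
  · subst hd; simpa using hx.2
  · have h2 : (mulC c x).coeff d = 0 := by rw [h1]; simp
    rw [coeff_mulC] at h2
    have := (mul_eq_zero.1 h2).resolve_left (hc0 d hd)
    simpa using this

lemma finrank_E0_eq {t : MulAut D} {e : ℕ} (he : 0 < e) (h : Free t e) {ζ : k} (hζ : ζ ^ e = 1)
    (s : ℕ) : Module.finrank k (E0 t (ζ ^ s)) = Module.finrank k (E0 t (1 : k)) := by
  have hζ0 : ζ ≠ 0 := by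
    rintro rfl
    rw [zero_pow (by omega)] at hζ
    exact zero_ne_one hζ
  have hstep : ∀ n : ℕ, Module.finrank k (E0 t (ζ ^ (n + 1))) ≤ Module.finrank k (E0 t (ζ ^ n)) := by
    intro n
    have h1 := finrank_E0_le he h hζ (ζ ^ (n + 1))
    have h2 : ζ⁻¹ * ζ ^ (n + 1) = ζ ^ n := by
      rw [pow_succ', ← mul_assoc, inv_mul_cancel₀ hζ0, one_mul]
    rw [h2] at h1
    exact h1
  have hanti : Antitone fun n : ℕ => Module.finrank k (E0 t (ζ ^ n)) := antitone_nat_of_succ_le hstep
  apply le_antisymm
  · have h1 := hanti (Nat.zero_le s)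
    have h2 : ζ ^ 0 = 1 := pow_zero ζ
    simp only at h1
    rw [h2] at h1
    exact h1
  · have h1 := hanti (Nat.le_mul_of_pos_left s he)
    have h2 : ζ ^ (e * s) = 1 := by rw [pow_mul, hζ, one_pow]
    simp only at h1
    rw [h2] at h1
    exact h1

lemma finrank_eig {t : MulAut D} {e : ℕ} (he : 0 < e) (h : Free t e) {ζ : k} (hζ : ζ ^ e = 1)
    (s : ℕ) [Decidable (ζ ^ s = 1)] : Module.finrank k ((alE k t).eigenspace (ζ ^ s)) =
      (if ζ ^ s = 1 then 1 else 0) + Module.finrank k (E0 t (1 : k)) := by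
  rw [← finrank_E0_eq he h hζ s]
  split_ifs with h1
  · rw [h1]
    have h2 : (alE k t).eigenspace 1 = k ∙ (1 : MonoidAlgebra k D) ⊔ E0 t 1 := by
      apply le_antisymm
      · intro x hx
        have hx' : al k t x = x := by
          rw [Module.End.mem_eigenspace_iff, one_smul] at hx; exact hx
        rw [Submodule.mem_sup]
        obtain ⟨a, ha⟩ : ∃ a : k, a = x.coeff 1 := ⟨_, rfl⟩
        refine ⟨a • (1 : MonoidAlgebra k D),
          Submodule.smul_mem _ _ (Submodule.mem_span_singleton_self _),
          x - a • (1 : MonoidAlgebra k D), ?_, by abel⟩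
        rw [mem_E0]
        refine ⟨by rw [map_sub, map_smul, map_one, hx', one_smul], ?_⟩
        rw [MonoidAlgebra.coeff_sub, Finsupp.sub_apply, MonoidAlgebra.coeff_smul,
          Finsupp.smul_apply, MonoidAlgebra.coeff_one_one, smul_eq_mul, mul_one, ha, sub_self]
      · rw [sup_le_iff, Submodule.span_singleton_le_iff_mem]
        refine ⟨?_, inf_le_left⟩
        rw [Module.End.mem_eigenspace_iff, one_smul, alE_apply, map_one]
    have h3 : k ∙ (1 : MonoidAlgebra k D) ⊓ E0 t 1 = ⊥ := by
      rw [eq_bot_iff]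
      rintro x ⟨hx1, hx2⟩
      obtain ⟨a, rfl⟩ := Submodule.mem_span_singleton.1 hx1
      have h4 := (mem_E0.1 hx2).2
      rw [MonoidAlgebra.coeff_smul, Finsupp.smul_apply, MonoidAlgebra.coeff_one_one, smul_eq_mul,
        mul_one] at h4
      rw [h4, zero_smul]
      exact Submodule.zero_mem _
    have h5 := Submodule.finrank_sup_add_finrank_inf_eq (k ∙ (1 : MonoidAlgebra k D))
      (E0 t (1 : k))
    rw [h3, finrank_bot, add_zero, finrank_span_singleton one_ne_zero, ← h2] at h5
    exact h5
  · rw [zero_add]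
    have h2 : (alE k t).eigenspace (ζ ^ s) = E0 t (ζ ^ s) := by
      apply le_antisymm
      · intro x hx
        refine ⟨hx, ?_⟩
        rw [Module.End.mem_eigenspace_iff, alE_apply] at hx
        rw [SetLike.mem_coe, LinearMap.mem_ker]
        have h3 := c1_al t x
        rw [hx, map_smul, smul_eq_mul] at h3
        have h4 : (ζ ^ s - 1) * c1 k D x = 0 := by rw [sub_mul, one_mul, h3, sub_self]
        exact (mul_eq_zero.1 h4).resolve_left (sub_ne_zero.2 h1)
      · exact inf_le_left
    rw [h2]

end Dim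

section Count

/-- sums over residues -/
lemma sum_range_zmod (e : ℕ) [NeZero e] (g : ZMod e → ℕ) :
    ∑ i ∈ Finset.range e, g (i : ZMod e) = ∑ r, g r := by
  refine Finset.sum_bij (fun i _ => (i : ZMod e)) (fun _ _ => Finset.mem_univ _) ?_ ?_
    (fun _ _ => rfl)
  · intro a ha b hb hab
    rw [Finset.mem_range] at ha hb
    rw [ZMod.natCast_eq_natCast_iff] at hab
    exact Nat.ModEq.eq_of_lt_of_lt hab ha hb
  · intro r _
    exact ⟨r.val, Finset.mem_range.2 (ZMod.val_lt r), ZMod.natCast_zmod_val r⟩

lemma sum_window (e : ℕ) [NeZero e] (f : ZMod e → ℕ) (s : ZMod e) (M : ℕ) :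
    ∑ w ∈ Finset.range (e * M + 1), f (s - w) = f s + M * ∑ r, f r := by
  induction M with
  | zero => simp
  | succ M ih =>
    have h1 : e * (M + 1) + 1 = (e * M + 1) + e := by ring
    rw [h1, Finset.sum_range_add, ih]
    have h2 : ∑ i ∈ Finset.range e, f (s - ((e * M + 1 + i : ℕ) : ZMod e)) = ∑ r, f r := by
      have h3 : ∀ i ∈ Finset.range e, f (s - ((e * M + 1 + i : ℕ) : ZMod e)) =
          (fun r => f (s - 1 - r)) (i : ZMod e) := by
        intro i _
        simp only
        congr 1
        push_cast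
        rw [ZMod.natCast_self]
        ring
      rw [Finset.sum_congr rfl h3, sum_range_zmod e (fun r => f (s - 1 - r))]
      exact Equiv.sum_comp (Equiv.subLeft (s - 1)) f
    rw [h2]
    ring

end Count

end Vale.P179.H190
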