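import Mathlib
import Vale.Agent.P179.H190.KD3
import Vale.Agent.P179.H190.KD4

/-!
# P179, signature theorem, module KD, part 5: the eigen-monomial basis of `k D`
-/

open Finset MonoidAlgebra
open scoped BigOperators

namespace Vale.P179.H190

universe u v

section CountMain

/-- splitting off the digits -/
def splitE (P L : ℕ) {ρ : Type*} (q' : ρ → ℕ) :
    ((i : Fin L ⊕ ρ) → Fin (Sum.elim (fun _ => P) q' i)) ≃
      Fin (P ^ L) × ((r : ρ) → Fin (q' r)) :=
  (Equiv.sumPiEquivProdPi (fun i : Fin L ⊕ ρ => Fin (Sum.elim (fun _ => P) q' i))).trans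
    (Equiv.prodCongr (finFunctionFinEquiv (m := P) (n := L)) (Equiv.refl _))

lemma splitE_dg (P L : ℕ) {ρ : Type*} [Fintype ρ] (q' : ρ → ℕ)
    (b : (i : Fin L ⊕ ρ) → Fin (Sum.elim (fun _ => P) q' i)) :
    ∑ i, (b i : ℕ) * Sum.elim (fun j : Fin L => P ^ (j : ℕ)) (fun _ => 0) i =
      ((splitE P L q' b).1 : ℕ) := by
  rw [Fintype.sum_sum_type]
  simp only [Sum.elim_inl, Sum.elim_inr, mul_zero, Finset.sum_const_zero, add_zero]
  rfl

lemma splitE_wt (P L : ℕ) {ρ : Type*} [Fintype ρ] (q' w : ρ → ℕ)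
    (b : (i : Fin L ⊕ ρ) → Fin (Sum.elim (fun _ => P) q' i)) :
    ∑ i, (b i : ℕ) * Sum.elim (fun j : Fin L => P ^ (j : ℕ)) w i =
      ((splitE P L q' b).1 : ℕ) + ∑ r, ((splitE P L q' b).2 r : ℕ) * w r := by
  rw [Fintype.sum_sum_type]
  rfl

variable {e : ℕ} [NeZero e] {ρ : Type*} [Fintype ρ] (q' w : ρ → ℕ)

/-- number of exponents of the non-special part with given weight -/
def fcnt (e : ℕ) {ρ : Type*} [Fintype ρ] [DecidableEq ρ] (q' w : ρ → ℕ) (s : ZMod e) : ℕ :=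
  (Finset.univ.filter fun b : (r : ρ) → Fin (q' r) =>
    ((∑ r, (b r : ℕ) * w r : ℕ) : ZMod e) = s).card

lemma count_A [DecidableEq ρ] {P L : ℕ} {n : ℕ} (hn : n < P ^ L) (s : ZMod e) :
    Nat.card {b : (i : Fin L ⊕ ρ) → Fin (Sum.elim (fun _ => P) q' i) //
      ∑ i, (b i : ℕ) * Sum.elim (fun j : Fin L => P ^ (j : ℕ)) (fun _ => 0) i = n ∧
      ((∑ i, (b i : ℕ) * Sum.elim (fun j : Fin L => P ^ (j : ℕ)) w i : ℕ) : ZMod e) = s} =
    fcnt e q' w (s - n) := by
  rw [Nat.card_eq_fintype_card, Fintype.card_subtype, Finset.card_filter]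
  have h1 : ∀ b : (i : Fin L ⊕ ρ) → Fin (Sum.elim (fun _ => P) q' i),
      (if ∑ i, (b i : ℕ) * Sum.elim (fun j : Fin L => P ^ (j : ℕ)) (fun _ => 0) i = n ∧
      ((∑ i, (b i : ℕ) * Sum.elim (fun j : Fin L => P ^ (j : ℕ)) w i : ℕ) : ZMod e) = s
      then 1 else 0) =
      (fun x : Fin (P ^ L) × ((r : ρ) → Fin (q' r)) => if (x.1 : ℕ) = n ∧
        (((x.1 : ℕ) + ∑ r, (x.2 r : ℕ) * w r : ℕ) : ZMod e) = s then 1 else 0)
        (splitE P L q' b) := by
    intro b
    simp only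
    rw [splitE_dg, splitE_wt]
  rw [Finset.sum_congr rfl fun b _ => h1 b]
  refine (Equiv.sum_comp (splitE P L q')
    (fun x : Fin (P ^ L) × ((r : ρ) → Fin (q' r)) => if (x.1 : ℕ) = n ∧
        (((x.1 : ℕ) + ∑ r, (x.2 r : ℕ) * w r : ℕ) : ZMod e) = s then 1 else 0)).trans ?_
  rw [Fintype.sum_prod_type, Finset.sum_eq_single ⟨n, hn⟩]
  · rw [fcnt, Finset.card_filter]
    refine Finset.sum_congr rfl fun b _ => ?_
    simp only [true_and]
    refine if_congr ?_ rfl rfl
    push_cast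
    rw [eq_sub_iff_add_eq, add_comm]
  · intro j _ hj
    refine Finset.sum_eq_zero fun b _ => if_neg ?_
    rintro ⟨h, _⟩
    exact hj (Fin.ext h)
  · intro h; exact absurd (Finset.mem_univ _) h

lemma count_B [DecidableEq ρ] {P L : ℕ} (s : ZMod e) :
    Nat.card {b : (i : Fin L ⊕ ρ) → Fin (Sum.elim (fun _ => P) q' i) //
      ((∑ i, (b i : ℕ) * Sum.elim (fun j : Fin L => P ^ (j : ℕ)) w i : ℕ) : ZMod e) = s} =
    ∑ n ∈ Finset.range (P ^ L), fcnt e q' w (s - n) := by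
  rw [Nat.card_eq_fintype_card, Fintype.card_subtype, Finset.card_filter]
  have h1 : ∀ b : (i : Fin L ⊕ ρ) → Fin (Sum.elim (fun _ => P) q' i),
      (if ((∑ i, (b i : ℕ) * Sum.elim (fun j : Fin L => P ^ (j : ℕ)) w i : ℕ) : ZMod e) = s
      then 1 else 0) =
      (fun x : Fin (P ^ L) × ((r : ρ) → Fin (q' r)) => if
        (((x.1 : ℕ) + ∑ r, (x.2 r : ℕ) * w r : ℕ) : ZMod e) = s then 1 else 0)
        (splitE P L q' b) := by
    intro b
    simp only
    rw [splitE_wt]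
  rw [Finset.sum_congr rfl fun b _ => h1 b]
  refine (Equiv.sum_comp (splitE P L q')
    (fun x : Fin (P ^ L) × ((r : ρ) → Fin (q' r)) => if
        (((x.1 : ℕ) + ∑ r, (x.2 r : ℕ) * w r : ℕ) : ZMod e) = s then 1 else 0)).trans ?_
  rw [Fintype.sum_prod_type, Finset.sum_range]
  refine Finset.sum_congr rfl fun n _ => ?_
  rw [fcnt, Finset.card_filter]
  refine Finset.sum_congr rfl fun b _ => ?_
  refine if_congr ?_ rfl rfl
  push_cast
  rw [eq_sub_iff_add_eq, add_comm]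

lemma sum_fcnt [DecidableEq ρ] : ∑ s : ZMod e, fcnt e q' w s = ∏ r, q' r := by
  classical
  have h1 := Finset.card_eq_sum_card_fiberwise (s := (Finset.univ : Finset ((r : ρ) → Fin (q' r))))
    (t := (Finset.univ : Finset (ZMod e)))
    (f := fun b => ((∑ r, (b r : ℕ) * w r : ℕ) : ZMod e)) (fun _ _ => Finset.mem_coe.2 (Finset.mem_univ _))
  rw [Finset.card_univ, Fintype.card_pi] at h1
  simp only [Fintype.card_fin] at h1
  rw [h1]
  rfl

end CountMain

section Arith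

lemma geom_top (P L : ℕ) (hP : 1 ≤ P) : ∑ j : Fin L, (P - 1) * P ^ (j : ℕ) + 1 = P ^ L := by
  rw [← Finset.sum_range (fun j => (P - 1) * P ^ j)]
  induction L with
  | zero => simp
  | succ L ih =>
    rw [Finset.sum_range_succ, add_right_comm, ih]
    obtain ⟨Q, rfl⟩ := Nat.exists_eq_add_of_le' hP
    simp only [Nat.add_sub_cancel]
    ring

lemma root_pow_eq_iff {k : Type u} [Field k] {ζ : k} {e : ℕ} [NeZero e] (hζ : IsPrimitiveRoot ζ e)
    (a b : ℕ) : ζ ^ a = ζ ^ b ↔ (a : ZMod e) = b := by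
  have hζ0 : ζ ≠ 0 := hζ.ne_zero (NeZero.ne e)
  rw [ZMod.natCast_eq_natCast_iff]
  constructor
  · intro h
    wlog hle : a ≤ b generalizing a b
    · exact (this b a h.symm (by omega)).symm
    obtain ⟨c, rfl⟩ := Nat.exists_eq_add_of_le hle
    have h1 : ζ ^ c = 1 := by
      rw [pow_add] at h
      exact (mul_left_cancel₀ (pow_ne_zero a hζ0) (by rw [mul_one]; exact h)).symm
    rw [Nat.modEq_iff_dvd' hle]
    simpa using hζ.dvd_of_pow_eq_one c h1
  · intro h
    rw [← Nat.mod_add_div a e, ← Nat.mod_add_div b e, pow_add, pow_add, pow_mul, pow_mul,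
      hζ.pow_eq_one, one_pow, one_pow, h]

end Arith

section Special

variable {k : Type u} [Field k] {D : Type v} [CommGroup D] {p : ℕ} [Fact p.Prime]
  [CharP k p] (C : Coord k D p)

theorem Coord.exists_special [Finite D] [Nontrivial D] {t : MulAut D} {e : ℕ} (hfree : Free t e)
    (he : (e : k) ≠ 0) {ζ₀ : k} (hζ₀ : IsPrimitiveRoot ζ₀ e) :
    ∃ (m : ℕ) (y : MonoidAlgebra k D) (ζ : k), 1 ≤ m ∧ (∀ i, m ≤ C.m i) ∧ y ∈ J k D p m ∧
      IsPrimitiveRoot ζ e ∧ al k t y = ζ • y ∧ Phi C.δ y ≠ 0 := by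
  classical
  have hg : ∀ i, ∃ x ∈ J k D p (C.m i), Phi C.δ x ≠ 0 := by
    intro i
    refine ⟨dl k (C.g i), C.g_mem i le_rfl, ?_⟩
    rw [Phi_dl C.δ_mul, C.δ_g]
    exact Pi.single_ne_zero_iff.2 one_ne_zero
  have hne : Nonempty C.ι := by
    by_contra h
    rw [not_nonempty_iff] at h
    have h1 := C.card
    rw [Finset.univ_eq_empty, Finset.sum_empty, pow_zero] at h1
    have := Finite.one_lt_card (α := D)
    omega
  obtain ⟨i₀⟩ := hne
  have hex : ∃ j, ∃ x ∈ J k D p j, Phi C.δ x ≠ 0 := ⟨_, hg i₀⟩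
  obtain ⟨x, hx, hx0⟩ := Nat.find_spec hex
  have hm1 : 1 ≤ Nat.find hex := by
    rw [Nat.one_le_iff_ne_zero]
    intro h0
    rw [h0, J_zero, Submodule.mem_bot] at hx
    rw [hx, map_zero] at hx0
    exact hx0 rfl
  have hmi : ∀ i, Nat.find hex ≤ C.m i := fun i => Nat.find_min' hex (hg i)
  rw [← sum_pr (t := t) he hζ₀ x, map_sum] at hx0
  obtain ⟨a, _, ha0⟩ := Finset.exists_ne_zero_of_sum_ne_zero hx0
  have hal := al_pr hfree.1 hζ₀.pow_eq_one a x
  exact ⟨Nat.find hex, pr k t e ζ₀ a x, ζ₀ ^ a, hm1, hmi, pr_J t hx e ζ₀ a,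
    eig_primitive C.δ_mul hfree he hal ha0, hal, ha0⟩

end Special

section Adjoin

variable {k : Type u} [Field k] {D : Type v} [CommGroup D] {p : ℕ} [Fact p.Prime]
  [CharP k p] (C : Coord k D p)

/-- augmentation ideal as an ideal -/
noncomputable def KI (k : Type u) [Field k] (D : Type v) [CommGroup D] :
    Ideal (MonoidAlgebra k D) := RingHom.ker (aug k D)

lemma mem_KI {x : MonoidAlgebra k D} : x ∈ KI k D ↔ x ∈ K k D := by
  rw [KI, RingHom.mem_ker, mem_K]

lemma KK_sub_KI {x : MonoidAlgebra k D} (hx : x ∈ K k D * K k D) : x ∈ KI k D ^ 2 := by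
  have : K k D * K k D ≤ (KI k D ^ 2).restrictScalars k := by
    refine Submodule.mul_le.2 fun a ha b hb => ?_
    rw [Submodule.restrictScalars_mem, pow_two]
    exact Ideal.mul_mem_mul (mem_KI.2 ha) (mem_KI.2 hb)
  exact this hx

include C in
lemma KI_nilpotent [Finite D] : IsNilpotent (KI k D) := by
  have hM : ∀ i, C.m i ≤ ∑ i, C.m i := fun i =>
    Finset.single_le_sum (f := C.m) (fun i _ => Nat.zero_le _) (Finset.mem_univ i)
  have hle : KI k D ≤ nilradical (MonoidAlgebra k D) := by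
    intro x hx
    rw [mem_nilradical]
    rw [mem_KI, ← J_top (p := p) (j := ∑ i, C.m i) (C.pow_eq_one hM)] at hx
    exact ⟨_, J_pow hx⟩
  have hN : IsNoetherianRing (MonoidAlgebra k D) := isNoetherian_of_tower k inferInstance
  obtain ⟨n, hn⟩ := IsNoetherianRing.isNilpotent_nilradical (MonoidAlgebra k D)
  refine ⟨n, ?_⟩
  rw [Ideal.zero_eq_bot, eq_bot_iff]
  rw [Ideal.zero_eq_bot] at hn
  rw [← hn]
  exact Ideal.pow_right_mono hle n

end Adjoin

/-- **The eigen-monomial basis of `k D`.** -/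
theorem exists_mono (p : ℕ) [Fact p.Prime] (k : Type u) [Field k] [IsAlgClosed k] [CharP k p]
    (D : Type v) [CommGroup D] [Finite D] [Nontrivial D] (hD : IsPGroup p D) (t : MulAut D)
    (e : ℕ) [NeZero e] (hfree : Free t e) :
    ∃ (ζ : k) (M c : ℕ) (ι : Type u) (_ : Fintype ι) (z : ι → MonoidAlgebra k D)
      (q dg wt : ι → ℕ) (bas : Module.Basis ((i : ι) → Fin (q i)) k (MonoidAlgebra k D)),
      IsPrimitiveRoot ζ e ∧ 1 ≤ M ∧ Nat.card D = (e * M + 1) * (e * c + 1) ∧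
      (∀ i, 1 ≤ q i) ∧ (∀ i, z i ^ q i = 0) ∧ (∀ i, aug k D (z i) = 0) ∧
      (∀ i, al k t (z i) = ζ ^ wt i • z i) ∧
      (∀ b, bas b = ∏ i, z i ^ (b i : ℕ)) ∧
      (∀ b : (i : ι) → Fin (q i), ∑ i, (b i : ℕ) * dg i < e * M + 1) ∧
      (∀ w, w < e * M + 1 → ∀ s : ZMod e, Nat.card {b : (i : ι) → Fin (q i) //
        ∑ i, (b i : ℕ) * dg i = w ∧ ((∑ i, (b i : ℕ) * wt i : ℕ) : ZMod e) = s} =
        (if (w : ZMod e) = s then 1 else 0) + c) ∧
      ∑ i, (q i - 1) * dg i = e * M := by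
  classical
  have hp : p.Prime := Fact.out
  have hepos : 0 < e := Nat.pos_of_ne_zero (NeZero.ne e)
  have hcop : Nat.Coprime e p := hfree.coprime hD hepos
  have he : (e : k) ≠ 0 := by
    rw [Ne, CharP.cast_eq_zero_iff k p]
    exact (Nat.Prime.coprime_iff_not_dvd hp).1 hcop.symm
  have : NeZero (e : k) := ⟨he⟩
  obtain ⟨ζ₀, hζ₀⟩ := HasEnoughRootsOfUnity.exists_primitiveRoot k e
  obtain ⟨C⟩ := nonempty_coord k D p hD
  obtain ⟨m, y, ζ, hm1, hmi, hyJ, hζ, hy, hy0⟩ := C.exists_special hfree he hζ₀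
  set P : ℕ := p ^ m with hP
  have hP2 : 2 ≤ P := (hp.two_le).trans (Nat.le_self_pow (by omega) p)
  have hPe : Nat.Coprime P e := Nat.Coprime.pow_left m hcop.symm
  set u : (ZMod e)ˣ := ZMod.unitOfCoprime P hPe with hu
  set L : ℕ := orderOf u with hL
  have hLpos : 0 < L := orderOf_pos u
  have huL : ((P ^ L : ℕ) : ZMod e) = 1 := by
    have h1 : ((u ^ L : (ZMod e)ˣ) : ZMod e) = 1 := by rw [hL, pow_orderOf_eq_one]; rfl
    rw [Units.val_pow_eq_pow_val, hu, ZMod.coe_unitOfCoprime] at h1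
    rw [Nat.cast_pow]; exact h1
  have hPL2 : 2 ≤ P ^ L := hP2.trans (Nat.le_self_pow (by omega) P)
  obtain ⟨M, hM⟩ : ∃ M, P ^ L = e * M + 1 := by
    have h1 : ((P ^ L : ℕ) : ZMod e) = ((1 : ℕ) : ZMod e) := by rw [huL, Nat.cast_one]
    rw [ZMod.natCast_eq_natCast_iff] at h1
    obtain ⟨M, hM⟩ := (Nat.modEq_iff_dvd' (by omega : 1 ≤ P ^ L)).1 h1.symm
    exact ⟨M, by omega⟩
  have hM1 : 1 ≤ M := by
    rcases Nat.eq_zero_or_pos M with h | h
    · rw [h, mul_zero] at hM; omega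
    · exact h
  -- special generators
  set Y : Fin L → MonoidAlgebra k D := fun j => (Fr k D p)^[m * j] y with hY
  have hYJ : ∀ j, Y j ∈ J k D p m := fun j => FrI_J hyJ _
  have hYal : ∀ j : Fin L, al k t (Y j) = ζ ^ (P ^ (j : ℕ)) • Y j := by
    intro j
    rw [hP, ← pow_mul]
    exact FrI_al hy _
  have hli : LinearIndependent k fun j => Phi C.δ (Y j) := by
    refine Module.End.eigenvectors_linearIndependent' (C.bar t)
      (fun j : Fin L => ζ ^ (P ^ (j : ℕ))) ?_ _ ?_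
    · intro i j hij
      simp only at hij
      rw [root_pow_eq_iff hζ] at hij
      have h1 : u ^ (i : ℕ) = u ^ (j : ℕ) := by
        apply Units.ext
        rw [Units.val_pow_eq_pow_val, Units.val_pow_eq_pow_val, hu, ZMod.coe_unitOfCoprime]
        exact_mod_cast hij
      exact Fin.ext (pow_injOn_Iio_orderOf i.2 j.2 h1)
    · intro j
      refine ⟨?_, FrI_Phi_ne C.δ_p hy0 _⟩
      rw [Module.End.mem_eigenspace_iff, ← C.Phi_bar t (J_le_K p m (hYJ j)), hYal, map_smul]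
  obtain ⟨ρ, hρ, z, lev, w, hzJ, hzal, hzspan, hlev⟩ :=
    C.extension hfree.1 he hζ hmi Y hYJ (fun j => P ^ (j : ℕ)) hYal hli
  -- all generators
  set Z : Fin L ⊕ ρ → MonoidAlgebra k D := Sum.elim Y z with hZ
  set q' : ρ → ℕ := fun r => p ^ lev r with hq'
  set q : Fin L ⊕ ρ → ℕ := Sum.elim (fun _ => P) q' with hq
  have hZq : ∀ i, Z i ^ q i = 0 := by
    rintro (j | r)
    · exact J_pow (hYJ j)
    · exact J_pow (hzJ r)
  have hgen : Algebra.adjoin k (Set.range Z) = ⊤ := by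
    refine P179H342.adjoin_eq_top (KI k D) (KI_nilpotent C) ?_ Z ?_ ?_
    · intro a
      refine ⟨aug k D a, ?_⟩
      rw [mem_KI, mem_K, map_sub, AlgHom.commutes, Algebra.algebraMap_self, RingHom.id_apply,
        sub_self]
    · rintro (j | r)
      · exact mem_KI.2 (J_le_K p m (hYJ j))
      · exact mem_KI.2 (J_le_K p _ (hzJ r))
    · intro x hx
      obtain ⟨l, l', hl⟩ := hzspan x (mem_KI.1 hx)
      refine ⟨Sum.elim l l', ?_⟩
      rw [Fintype.sum_sum_type]
      exact KK_sub_KI hl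
  have hprod : ∏ i, q i = p ^ (L * m + ∑ r, lev r) := by
    rw [Fintype.prod_sum_type, pow_add]
    congr 1
    · simp only [hq, Sum.elim_inl, Finset.prod_const, Finset.card_univ, Fintype.card_fin, hP]
      rw [← pow_mul, mul_comm]
    · simp only [hq, Sum.elim_inr, hq']
      rw [Finset.prod_pow_eq_pow_sum]
  have hcard : ∏ i, q i = Module.finrank k (MonoidAlgebra k D) := by
    apply le_antisymm
    · rw [hprod, finrank_A, C.card]
      exact Nat.pow_le_pow_right hp.pos hlev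
    · have h1 := P179H342.span_mono_eq_top Z hgen q hZq
      have h2 := finrank_range_le_card (R := k)
        (b := fun a : (i : Fin L ⊕ ρ) → Fin (q i) => P179H342.mono Z fun i => (a i : ℕ))
      rw [Set.finrank, top_le_iff.1 h1, finrank_top, Fintype.card_pi] at h2
      simpa using h2
  set bas := P179H342.monoBasis Z hgen q hZq hcard with hbas
  have hbasap : ∀ b, bas b = ∏ i, Z i ^ (b i : ℕ) := fun b =>
    P179H342.monoBasis_apply Z hgen q hZq hcard b
  set wt : Fin L ⊕ ρ → ℕ := Sum.elim (fun j : Fin L => P ^ (j : ℕ)) w with hwt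
  set dg : Fin L ⊕ ρ → ℕ := Sum.elim (fun j : Fin L => P ^ (j : ℕ)) (fun _ => 0) with hdg
  have hZal : ∀ i, al k t (Z i) = ζ ^ wt i • Z i := by
    rintro (j | r)
    · exact hYal j
    · exact hzal r
  have hbasal : ∀ b, alE k t (bas b) = ζ ^ (∑ i, (b i : ℕ) * wt i) • bas b := by
    intro b
    rw [alE_apply, hbasap, map_prod, ← Finset.prod_pow_eq_pow_sum, Algebra.smul_def, map_prod,
      ← Finset.prod_mul_distrib]
    refine Finset.prod_congr rfl fun i _ => ?_
    rw [map_pow, hZal, smul_pow, Algebra.smul_def, ← pow_mul, mul_comm (wt i)]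
  -- counting
  set R : ℕ := ∏ r, q' r with hR
  have hR1 : 1 ≤ R := Finset.prod_pos fun r _ => pow_pos hp.pos _
  set r₀ : ℕ := Module.finrank k (E0 t (1 : k)) with hr₀
  have hf : ∀ s : ZMod e, fcnt e q' w s + M * R = (if s = 0 then 1 else 0) + r₀ := by
    intro s
    have h1 := P179H342.finrank_eigenspace bas (alE k t) _ hbasal (ζ ^ s.val)
    rw [finrank_eig hepos hfree hζ.pow_eq_one] at h1
    have h2 : Nat.card {b : (i : Fin L ⊕ ρ) → Fin (q i) //
        ζ ^ (∑ i, (b i : ℕ) * wt i) = ζ ^ s.val} =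
        Nat.card {b : (i : Fin L ⊕ ρ) → Fin (q i) //
          ((∑ i, (b i : ℕ) * wt i : ℕ) : ZMod e) = s} := by
      refine Nat.card_congr (Equiv.subtypeEquivRight fun b => ?_)
      rw [root_pow_eq_iff hζ, ZMod.natCast_zmod_val]
    rw [h2] at h1
    have h3 := count_B (e := e) (q' := q') (w := w) (P := P) (L := L) s
    rw [← hq, ← hwt, ← h1, hM, sum_window, sum_fcnt, ← hR] at h3
    rw [← h3]
    congr 1
    refine if_congr ?_ rfl rfl
    have h4 := root_pow_eq_iff hζ s.val 0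
    rw [pow_zero, ZMod.natCast_zmod_val, Nat.cast_zero] at h4
    exact h4
  have hsum : R + e * (M * R) = 1 + e * r₀ := by
    have h1 : ∑ s : ZMod e, (fcnt e q' w s + M * R) =
        ∑ s : ZMod e, ((if s = 0 then 1 else 0) + r₀) := Finset.sum_congr rfl fun s _ => hf s
    rw [Finset.sum_add_distrib, Finset.sum_add_distrib, sum_fcnt, Finset.sum_const,
      Finset.sum_const, Finset.card_univ, ZMod.card, Finset.sum_ite_eq' Finset.univ (0 : ZMod e),
      if_pos (Finset.mem_univ _), smul_eq_mul, smul_eq_mul] at h1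
    exact h1
  have hrle : M * R ≤ r₀ := by
    have h1 : e * (M * R) ≤ e * r₀ := by omega
    exact Nat.le_of_mul_le_mul_left h1 hepos
  obtain ⟨c, hc⟩ := Nat.exists_eq_add_of_le hrle
  have hRc : R = e * c + 1 := by
    rw [hc, mul_add] at hsum
    omega
  have hfc : ∀ s : ZMod e, fcnt e q' w s = (if s = 0 then 1 else 0) + c := by
    intro s
    have := hf s
    rw [hc] at this
    omega
  refine ⟨ζ, M, c, Fin L ⊕ ρ, inferInstance, Z, q, dg, wt, bas, hζ, hM1, ?_, ?_, hZq, ?_, hZal,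
    hbasap, ?_, ?_, ?_⟩
  · rw [← finrank_A (k := k), ← hcard, Fintype.prod_sum_type, ← hM, ← hRc]
    simp only [hq, Sum.elim_inl, Sum.elim_inr, Finset.prod_const, Finset.card_univ,
      Fintype.card_fin, ← hR]
  · rintro (j | r)
    · exact le_trans (by omega) hP2
    · exact Nat.one_le_iff_ne_zero.2 (pow_ne_zero _ hp.ne_zero)
  · rintro (j | r)
    · exact mem_K.1 (J_le_K p m (hYJ j))
    · exact mem_K.1 (J_le_K p _ (hzJ r))
  · intro b
    have h1 := splitE_dg P L q' b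
    rw [← hM]
    calc ∑ i, (b i : ℕ) * dg i = _ := h1
      _ < _ := (splitE P L q' b).1.2
  · intro n hn s
    have h1 := count_A (e := e) (q' := q') (w := w) (P := P) (L := L) (n := n) (by rw [hM]; exact hn) s
    rw [hfc] at h1
    refine h1.trans ?_
    congr 1
    refine if_congr ?_ rfl rfl
    rw [sub_eq_zero, eq_comm]
  · rw [Fintype.sum_sum_type]
    simp only [hq, hdg, Sum.elim_inl, Sum.elim_inr, mul_zero, Finset.sum_const_zero, add_zero]
    have := geom_top P L (by omega)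
    omega

end Vale.P179.H190
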