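import Mathlib
import Vale.Agent.P179.H190.KD5
import Vale.Agent.P179.H342.K1Defs

/-!
# P179, signature theorem, module K1
-/

namespace Vale.P179.H190

/-- module K1 in helper342's letters -/
theorem k1 : P179H342.K1 := by
  intro p _ k _ _ _ D _ _ τ e he _ hD hnt hτ hfree
  have : NeZero e := ⟨he⟩
  obtain ⟨ζ, M, c, ι, hι, z, q, dg, wt, bas, h1, h2, -, h4, h5, -, h7, h8, h9, h10, h11⟩ :=
    exists_mono p k D hD τ e ⟨hτ, hfree⟩
  have hb : (fun b : (i : ι) → Fin (q i) => P179H342.mono z fun i => (b i : ℕ)) = bas := by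
    funext b
    exact (h8 b).symm
  refine ⟨{
    ζ := ζ
    N := e * M + 1
    c := c
    ι := ι
    fin := hι
    z := z
    q := q
    dg := dg
    wt := wt
    prim := h1
    hN := ⟨M, h2, rfl⟩
    q_pos := h4
    z_pow := h5
    z_eig := h7
    li := by rw [hb]; exact bas.linearIndependent
    sp := by rw [hb]; exact bas.span_eq.ge
    count := ?_
    top := by rw [h11] }⟩
  intro w s
  split_ifs with hw hs
  · rw [h10 w hw s, if_pos hs]
  · rw [h10 w hw s, if_neg hs]
  · rw [Nat.card_eq_zero]
    left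
    constructor
    rintro ⟨b, hb1, _⟩
    have := h9 b
    omega

end Vale.P179.H190
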