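import Vale.Agent.P179.H905.I17

/-!
# REL, upper bound 1: the combinatorial lemma, relative form
-/

namespace Vale.P179.H190

open Finset

open scoped Classical

section Abs

/-- the sum of an invariant function over a set with an action -/
theorem sum_orbits {T Z R : Type*} [Group T] [Finite T] [Fintype Z] [MulAction T Z]
    [Fintype (MulAction.orbitRel.Quotient T Z)] [CommSemiring R] (f : Z → R)
    (hf : ∀ (t : T) z, f (t • z) = f z) :
    ∑ z, f z = ∑ ω : MulAction.orbitRel.Quotient T Z,
      (Nat.card (MulAction.orbit T ω.out) : R) * f ω.out := by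
  rw [← (MulAction.selfEquivSigmaOrbits T Z).symm.sum_comp, Fintype.sum_sigma]
  refine Finset.sum_congr rfl fun ω _ => ?_
  have h2 : ∀ x : MulAction.orbit T ω.out,
      f ((MulAction.selfEquivSigmaOrbits T Z).symm ⟨ω, x⟩) = f ω.out := by
    rintro ⟨_, g, rfl⟩
    exact hf g _
  rw [Finset.sum_congr rfl fun x _ => h2 x, Finset.sum_const, nsmul_eq_mul, Finset.card_univ,
    Nat.card_eq_fintype_card]

variable {T : Type*} [Group T]

theorem card_transporter {Z : Type*} [MulAction T Z] {z w : Z} (h : ∃ t : T, t • z = w) :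
    Nat.card {t : T // t • z = w} = Nat.card (MulAction.stabilizer T z) := by
  obtain ⟨s, hs⟩ := h
  refine Nat.card_congr
    { toFun := fun t => ⟨s⁻¹ * t.1, by
        rw [MulAction.mem_stabilizer_iff, mul_smul, t.2, ← hs, inv_smul_smul]⟩
      invFun := fun t => ⟨s * t.1, by
        rw [mul_smul, MulAction.mem_stabilizer_iff.1 t.2, hs]⟩
      left_inv := fun t => by simp
      right_inv := fun t => by simp }

theorem card_stab_smul {Z : Type*} [MulAction T Z] (t : T) (z : Z) :
    Nat.card (MulAction.stabilizer T (t • z)) = Nat.card (MulAction.stabilizer T z) := by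
  rw [← card_transporter (T := T) (z := t • z) (w := z) ⟨t⁻¹, by rw [inv_smul_smul]⟩]
  have h1 := card_transporter (T := T) (z := z) (w := t • z) ⟨t, rfl⟩
  rw [← h1]
  refine Nat.card_congr
    { toFun := fun s => ⟨s.1⁻¹, by rw [inv_smul_eq_iff]; exact s.2.symm⟩
      invFun := fun s => ⟨s.1⁻¹, by rw [inv_smul_eq_iff]; exact s.2.symm⟩
      left_inv := fun s => by simp
      right_inv := fun s => by simp }

variable [Finite T] {Y Z X : Type*} [Fintype Y] [Fintype Z] [Fintype X] [MulAction T Y] [MulAction T Z]

/-- **the combinatorial lemma, relative form** -/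
theorem comb_rel (ν : Y → Z) (hν : ∀ (t : T) y, ν (t • y) = t • ν y) (c : ℕ) (hc : 0 < c)
    (hY : ∀ y : Y, Nat.card (MulAction.stabilizer T y) = c)
    (hZ : ∀ z : Z, c ∣ Nat.card (MulAction.stabilizer T z))
    (V : Y → X → ℤ)
    (hG : ∀ y y', (c : ℤ) * ∑ x, V y x * V y' x =
      (Nat.card {t : T // t • y' = y} : ℤ) + Nat.card {t : T // t • ν y' = ν y})
    (hnz : ∀ x, ∃ y, V y x ≠ 0) :
    c * Nat.card T * Fintype.card X ≤ c ^ 2 * Fintype.card Y +
      ∑ z : Z, Nat.card (MulAction.stabilizer T z) ^ 2 := by
  have hTF : Fintype T := Fintype.ofFinite T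
  have hc' : (c : ℤ) ≠ 0 := by exact_mod_cast hc.ne'
  -- invariance
  have hVt : ∀ (t : T) y x, V (t • y) x = V y x := by
    intro t y
    have h1 : (c : ℤ) * ∑ x, (V (t • y) x - V y x) ^ 2 = 0 := by
      have e1 := hG (t • y) (t • y)
      have e2 := hG (t • y) y
      have e3 := hG y y
      rw [card_transporter ⟨1, one_smul _ _⟩, card_transporter ⟨1, one_smul _ _⟩, hY, hν,
        card_stab_smul] at e1
      rw [card_transporter ⟨t, rfl⟩, card_transporter ⟨t, (hν t y).symm⟩, hY] at e2
      rw [card_transporter ⟨1, one_smul _ _⟩, card_transporter ⟨1, one_smul _ _⟩, hY] at e3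
      have e4 : ∑ x, (V (t • y) x - V y x) ^ 2 = ∑ x, V (t • y) x * V (t • y) x -
          2 * ∑ x, V (t • y) x * V y x + ∑ x, V y x * V y x := by
        rw [Finset.mul_sum, ← Finset.sum_sub_distrib, ← Finset.sum_add_distrib]
        exact Finset.sum_congr rfl fun x _ => by ring
      rw [e4, mul_add, mul_sub, e1, e3, mul_left_comm, e2]
      ring
    have h2 := (mul_eq_zero.1 h1).resolve_left hc'
    intro x
    have h3 := (Finset.sum_eq_zero_iff_of_nonneg fun x _ => sq_nonneg _).1 h2 x (mem_univ x)
    exact sub_eq_zero.1 (pow_eq_zero_iff two_ne_zero |>.1 h3)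
  have : Fintype (MulAction.orbitRel.Quotient T Z) := Fintype.ofFinite _
  have : Fintype (MulAction.orbitRel.Quotient T Y) := Fintype.ofFinite _
  choose e he using hZ
  let I : MulAction.orbitRel.Quotient T Z → Type _ := fun ω =>
    {i : MulAction.orbitRel.Quotient T Y //
      (Quotient.mk _ (ν i.out) : MulAction.orbitRel.Quotient T Z) = ω}
  let XX : MulAction.orbitRel.Quotient T Z → Finset X := fun ω =>
    univ.filter fun x => ∃ i : I ω, V i.1.out x ≠ 0
  -- one orbit
  have h1 : ∀ ω, (XX ω).card ≤ Fintype.card (I ω) + e ω.out := by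
    intro ω
    by_cases hne : Nonempty (I ω)
    swap
    · have : XX ω = ∅ := by
        rw [Finset.eq_empty_iff_forall_notMem]
        intro x hx
        obtain ⟨i, -⟩ := (mem_filter.1 hx).2
        exact hne ⟨i⟩
      rw [this]
      simp
    have h2 := P179I.comb (ι := I ω) (X := XX ω) (fun i x => V i.1.out x.1) (e ω.out) ?_ ?_ hne
    · rwa [Fintype.card_coe] at h2
    · intro i j
      have h3 : ∑ x : XX ω, V i.1.out x.1 * V j.1.out x.1 = ∑ x : X, V i.1.out x * V j.1.out x := by
        rw [Finset.sum_coe_sort (XX ω) (fun x => V i.1.out x * V j.1.out x)]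
        refine Finset.sum_subset (Finset.subset_univ _) fun x _ hx => ?_
        have h4 : V i.1.out x = 0 := by
          by_contra h5
          exact hx (mem_filter.2 ⟨mem_univ _, i, h5⟩)
        rw [h4, zero_mul]
      rw [h3]
      apply mul_left_cancel₀ hc'
      rw [hG]
      have h5 : Nat.card {t : T // t • ν j.1.out = ν i.1.out} = c * e ω.out := by
        have hi : ∃ t : T, t • ω.out = ν i.1.out := by
          have : (Quotient.mk _ (ν i.1.out) : MulAction.orbitRel.Quotient T Z) =
            Quotient.mk _ ω.out := by rw [i.2, Quotient.out_eq]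
          obtain ⟨t, ht⟩ := Quotient.exact this
          exact ⟨t, ht⟩
        have hj : ∃ t : T, t • ω.out = ν j.1.out := by
          have : (Quotient.mk _ (ν j.1.out) : MulAction.orbitRel.Quotient T Z) =
            Quotient.mk _ ω.out := by rw [j.2, Quotient.out_eq]
          obtain ⟨t, ht⟩ := Quotient.exact this
          exact ⟨t, ht⟩
        obtain ⟨s, hs⟩ := hi
        obtain ⟨t, ht⟩ := hj
        rw [card_transporter ⟨s * t⁻¹, by rw [mul_smul, ← ht, inv_smul_smul, hs]⟩, ← ht,
          card_stab_smul, he]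
      rw [h5]
      by_cases hij : i = j
      · rw [if_pos hij, hij, card_transporter ⟨1, one_smul _ _⟩, hY]
        push_cast
        ring
      · rw [if_neg hij]
        have h6 : IsEmpty {t : T // t • j.1.out = i.1.out} := by
          rw [isEmpty_subtype]
          intro t ht
          apply hij
          apply Subtype.ext
          have h7 : (Quotient.mk _ i.1.out : MulAction.orbitRel.Quotient T Y) =
              Quotient.mk _ j.1.out := Quotient.sound ⟨t, ht⟩
          rwa [Quotient.out_eq, Quotient.out_eq] at h7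
        rw [Nat.card_of_isEmpty]
        push_cast
        ring
    · rintro ⟨x, hx⟩
      exact (mem_filter.1 hx).2
  -- all orbits
  have h2 : Fintype.card X ≤ ∑ ω, (XX ω).card := by
    rw [← Finset.card_univ]
    refine le_trans (Finset.card_le_card ?_) Finset.card_biUnion_le
    intro x _
    obtain ⟨y, hy⟩ := hnz x
    rw [Finset.mem_biUnion]
    have h3 : ∃ t : T, t • (Quotient.mk _ y : MulAction.orbitRel.Quotient T Y).out = y := by
      have h4 : (Quotient.mk _ y : MulAction.orbitRel.Quotient T Y) =
        Quotient.mk _ (Quotient.mk _ y : MulAction.orbitRel.Quotient T Y).out := by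
          rw [Quotient.out_eq]
      obtain ⟨t, ht⟩ := Quotient.exact h4
      exact ⟨t, ht⟩
    obtain ⟨t, ht⟩ := h3
    refine ⟨(Quotient.mk _ (ν (Quotient.mk _ y : MulAction.orbitRel.Quotient T Y).out) :
      MulAction.orbitRel.Quotient T Z), mem_univ _, mem_filter.2 ⟨mem_univ _,
        ⟨(Quotient.mk _ y : MulAction.orbitRel.Quotient T Y), rfl⟩, ?_⟩⟩
    rw [← hVt t, ht]
    exact hy
  have h3 : ∑ ω, Fintype.card (I ω) = Fintype.card (MulAction.orbitRel.Quotient T Y) := by
    rw [← Fintype.card_sigma]
    exact Fintype.card_congr (Equiv.sigmaFiberEquiv _)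
  have h4 : Fintype.card X ≤ Fintype.card (MulAction.orbitRel.Quotient T Y) +
      ∑ ω : MulAction.orbitRel.Quotient T Z, e ω.out := by
    rw [← h3, ← Finset.sum_add_distrib]
    exact h2.trans (Finset.sum_le_sum fun ω _ => h1 ω)
  -- the numbers
  have h5 : Nat.card T * Fintype.card (MulAction.orbitRel.Quotient T Y) = c * Fintype.card Y := by
    have h6 := sum_orbits (T := T) (Z := Y) (R := ℕ) (fun _ => c) (fun _ _ => rfl)
    rw [Finset.sum_const, Finset.card_univ, smul_eq_mul] at h6
    rw [mul_comm c, h6, mul_comm (Nat.card T), ← smul_eq_mul, ← Finset.card_univ,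
      ← Finset.sum_const]
    refine Finset.sum_congr rfl fun ω _ => ?_
    rw [Nat.cast_id, ← hY ω.out]
    have h7 := MulAction.card_orbit_mul_card_stabilizer_eq_card_group T ω.out
    rw [← Nat.card_eq_fintype_card, ← Nat.card_eq_fintype_card, ← Nat.card_eq_fintype_card] at h7
    exact h7.symm
  have h6 : c * Nat.card T * ∑ ω : MulAction.orbitRel.Quotient T Z, e ω.out =
      ∑ z : Z, Nat.card (MulAction.stabilizer T z) ^ 2 := by
    rw [sum_orbits (T := T) (fun z : Z => Nat.card (MulAction.stabilizer T z) ^ 2)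
      (fun t z => by rw [card_stab_smul]), Finset.mul_sum]
    refine Finset.sum_congr rfl fun ω _ => ?_
    have h7 := MulAction.card_orbit_mul_card_stabilizer_eq_card_group T ω.out
    rw [← Nat.card_eq_fintype_card, ← Nat.card_eq_fintype_card, ← Nat.card_eq_fintype_card] at h7
    rw [Nat.cast_id, ← h7, he]
    ring
  calc c * Nat.card T * Fintype.card X
      ≤ c * Nat.card T * (Fintype.card (MulAction.orbitRel.Quotient T Y) +
        ∑ ω : MulAction.orbitRel.Quotient T Z, e ω.out) := Nat.mul_le_mul_left _ h4
    _ = c * (Nat.card T * Fintype.card (MulAction.orbitRel.Quotient T Y)) +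
        c * Nat.card T * ∑ ω : MulAction.orbitRel.Quotient T Z, e ω.out := by ring
    _ = _ := by rw [h5, h6]; ring

end Abs

end Vale.P179.H190
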