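import Vale.Agent.P179.H190.U1
import Vale.Agent.P179.H905.I18

/-!
# REL, upper bound 2: the action of the inertial group, relative to a projection
-/

namespace Vale.P179.H190

open Finset Subgroup P179I P179Y P179P P179C P179H524

open scoped Classical IsMulCommutative

section Count

/-- fixed points of pairs -/
theorem exists_single {T : Type*} [Group T] (C : Subgroup T) (z : T)
    (hz : ∀ s : T, ∃ i : ℤ, z ^ i * s ∈ C) (s t : T) :
    ∃ r : T, ∀ S : Subgroup T, C ≤ S → ((s ∈ S ∧ t ∈ S) ↔ r ∈ S) := by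
  obtain ⟨i, hi⟩ := hz s
  obtain ⟨j, hj⟩ := hz t
  refine ⟨z ^ (Int.gcd i j : ℤ), fun S hCS => ?_⟩
  have h1 : ∀ (s : T) (i : ℤ), z ^ i * s ∈ C → (s ∈ S ↔ z ^ i ∈ S) := by
    intro s i hi
    have h2 := hCS hi
    constructor
    · intro hs
      have := mul_mem h2 (inv_mem hs)
      rwa [mul_inv_cancel_right] at this
    · intro hs
      have := mul_mem (inv_mem hs) h2
      rwa [inv_mul_cancel_left] at this
  rw [h1 s i hi, h1 t j hj]
  constructor
  · rintro ⟨h2, h3⟩
    rw [Int.gcd_eq_gcd_ab, zpow_add, zpow_mul, zpow_mul]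
    exact mul_mem (zpow_mem h2 _) (zpow_mem h3 _)
  · intro h2
    obtain ⟨a, ha⟩ := Int.gcd_dvd_left i j
    obtain ⟨b, hb⟩ := Int.gcd_dvd_right i j
    constructor
    · have := zpow_mem h2 a
      rwa [← zpow_mul, ← ha] at this
    · have := zpow_mem h2 b
      rwa [← zpow_mul, ← hb] at this

theorem card_stab_sq {T Z : Type*} [Group T] [Fintype T] [MulAction T Z] [Fintype Z] :
    ∑ x : Z, Nat.card (MulAction.stabilizer T x) ^ 2 =
      ∑ s : T, ∑ t : T, Nat.card {x : Z // s ∈ MulAction.stabilizer T x ∧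
        t ∈ MulAction.stabilizer T x} := by
  have h1 : ∀ x : Z, Nat.card (MulAction.stabilizer T x) ^ 2 =
      ∑ s : T, ∑ t : T, if s ∈ MulAction.stabilizer T x ∧ t ∈ MulAction.stabilizer T x then 1
        else 0 := by
    intro x
    have h2 : Nat.card (MulAction.stabilizer T x) =
        ∑ s : T, if s ∈ MulAction.stabilizer T x then 1 else 0 := by
      rw [Nat.card_eq_fintype_card, Fintype.card_subtype, Finset.card_filter]
    rw [sq, h2, Finset.sum_mul_sum]
    refine Finset.sum_congr rfl fun s _ => Finset.sum_congr rfl fun t _ => ?_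
    by_cases h3 : s ∈ MulAction.stabilizer T x <;> by_cases h4 : t ∈ MulAction.stabilizer T x <;>
      simp [h3, h4]
  rw [Finset.sum_congr rfl fun x _ => h1 x, Finset.sum_comm]
  refine Finset.sum_congr rfl fun s _ => ?_
  rw [Finset.sum_comm]
  refine Finset.sum_congr rfl fun t _ => ?_
  rw [Nat.card_eq_fintype_card, Fintype.card_subtype, Finset.card_filter]

/-- the sums of the squares of the stabilisers -/
theorem sum_stab_sq {T Z W : Type*} [Group T] [Finite T] [MulAction T Z] [MulAction T W]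
    [Fintype Z] [Fintype W] (C : Subgroup T) (z : T) (hz : ∀ s : T, ∃ i : ℤ, z ^ i * s ∈ C)
    (hCZ : ∀ x : Z, C ≤ MulAction.stabilizer T x) (hCW : ∀ x : W, C ≤ MulAction.stabilizer T x)
    (h : ∀ r : T, Nat.card {x : Z // r • x = x} = Nat.card {x : W // r • x = x}) :
    ∑ x : Z, Nat.card (MulAction.stabilizer T x) ^ 2 =
      ∑ x : W, Nat.card (MulAction.stabilizer T x) ^ 2 := by
  have : Fintype T := Fintype.ofFinite T
  rw [card_stab_sq, card_stab_sq]
  refine Finset.sum_congr rfl fun s _ => Finset.sum_congr rfl fun t _ => ?_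
  obtain ⟨r, hr⟩ := exists_single C z hz s t
  rw [Nat.card_congr (Equiv.subtypeEquivRight fun x : Z => hr _ (hCZ x)),
    Nat.card_congr (Equiv.subtypeEquivRight fun x : W => hr _ (hCW x))]
  exact h r

variable {A : Type*} [AddCommGroup A] [Fintype A]

/-- the characters which are trivial on the image of an endomorphism -/
theorem card_char_ker (g : A →+ A) :
    Nat.card {ψ : AddChar A ℂ // ∀ a, ψ (g a) = 1} = Nat.card {a : A // g a = 0} := by
  have h1 : ∑ ψ : AddChar A ℂ, ∑ a : A, ψ (g a) =
      (Fintype.card A : ℂ) * Nat.card {ψ : AddChar A ℂ // ∀ a, ψ (g a) = 1} := by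
    have h2 : ∀ ψ : AddChar A ℂ, ∑ a : A, ψ (g a) =
        if ∀ a, ψ (g a) = 1 then (Fintype.card A : ℂ) else 0 := by
      intro ψ
      have h3 := AddChar.sum_eq_ite (ψ.compAddMonoidHom g)
      have h4 : (ψ.compAddMonoidHom g = 0) ↔ ∀ a, ψ (g a) = 1 := by
        rw [AddChar.ext_iff]
        rfl
      simp only [h4] at h3
      exact h3
    rw [Finset.sum_congr rfl fun ψ _ => h2 ψ, ← Finset.sum_filter, Finset.sum_const,
      nsmul_eq_mul, Nat.card_eq_fintype_card, Fintype.card_subtype, mul_comm]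
  have h2 : ∑ ψ : AddChar A ℂ, ∑ a : A, ψ (g a) =
      (Fintype.card A : ℂ) * Nat.card {a : A // g a = 0} := by
    rw [Finset.sum_comm]
    have h3 : ∀ a : A, ∑ ψ : AddChar A ℂ, ψ (g a) = if g a = 0 then (Fintype.card A : ℂ) else 0 :=
      fun a => AddChar.sum_apply_eq_ite (g a)
    rw [Finset.sum_congr rfl fun a _ => h3 a, ← Finset.sum_filter, Finset.sum_const,
      nsmul_eq_mul, Nat.card_eq_fintype_card, Fintype.card_subtype, mul_comm]
  rw [h1] at h2
  have h3 : (Fintype.card A : ℂ) ≠ 0 := by exact_mod_cast Fintype.card_ne_zero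
  exact_mod_cast mul_left_cancel₀ h3 h2

end Count

universe v

section Prj

variable {p : ℕ} [hp : Fact p.Prime] {k : Type v} [Field k] [CharP k p]
  {G : Type} [Group G] [Fintype G] {D : Subgroup G} {l : (G → k) → k} [IsMulCommutative D]

/-- a projection of `D` which commutes with the inertial group -/
structure Prj (D : Subgroup G) (l : (G → k) → k) [IsMulCommutative D] where
  /-- the projection -/
  π : D →* D
  idem : ∀ b, π (π b) = π b
  eqv : ∀ (t : stabT D l) (b : D), π (cjD t b) = cjD t (π b)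

/-- the composite of a character with the projection -/
noncomputable def nuC (P : Prj D l) (ψ : AddChar (Additive D) ℂ) : AddChar (Additive D) ℂ :=
  ψ.compAddMonoidHom (MonoidHom.toAdditive P.π)

omit [Fintype G] in
theorem nuC_apply (P : Prj D l) (ψ : AddChar (Additive D) ℂ) (b : Additive D) :
    nuC P ψ b = ψ (Additive.ofMul (P.π b.toMul)) := rfl

omit [Fintype G] in
theorem nuC_nuC (P : Prj D l) (ψ : AddChar (Additive D) ℂ) : nuC P (nuC P ψ) = nuC P ψ := by
  apply AddChar.ext
  intro b
  rw [nuC_apply, nuC_apply, nuC_apply]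
  exact congrArg _ (congrArg Additive.ofMul (P.idem _))

omit [Fintype G] in
theorem nuC_actC (P : Prj D l) (t : stabT D l) (ψ : AddChar (Additive D) ℂ) :
    nuC P (actC t ψ) = actC t (nuC P ψ) := by
  apply AddChar.ext
  intro b
  rw [nuC_apply, actC_apply, actC_apply, nuC_apply]
  exact congrArg _ (congrArg Additive.ofMul (P.eqv t⁻¹ b.toMul).symm)

omit [Fintype G] in
theorem actC_inj (t : stabT D l) {ψ φ : AddChar (Additive D) ℂ} (h : actC t ψ = actC t φ) :
    ψ = φ := by
  rw [← actC_one (l := l) ψ, ← actC_one (l := l) φ, ← inv_mul_cancel t, actC_mul, actC_mul, h]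

/-- the characters which are not trivial on the kernel -/
abbrev YC (P : Prj D l) : Type := {ψ : AddChar (Additive D) ℂ // nuC P ψ ≠ ψ}

/-- the characters which are trivial on the kernel -/
abbrev ZC (P : Prj D l) : Type := {ψ : AddChar (Additive D) ℂ // nuC P ψ = ψ}

/-- the elements of the image -/
abbrev ZE (P : Prj D l) : Type := {b : D // P.π b = b}

/-- the other elements -/
abbrev YE (P : Prj D l) : Type := {b : D // P.π b ≠ b}

noncomputable instance actYC (P : Prj D l) : MulAction (stabT D l) (YC P) where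
  smul t ψ := ⟨actC t ψ.1, fun h => ψ.2 (actC_inj t (by rw [← nuC_actC, h]))⟩
  one_smul ψ := Subtype.ext (actC_one ψ.1)
  mul_smul s t ψ := Subtype.ext (actC_mul s t ψ.1)

noncomputable instance actZC (P : Prj D l) : MulAction (stabT D l) (ZC P) where
  smul t ψ := ⟨actC t ψ.1, by rw [nuC_actC, ψ.2]⟩
  one_smul ψ := Subtype.ext (actC_one ψ.1)
  mul_smul s t ψ := Subtype.ext (actC_mul s t ψ.1)

noncomputable instance actZE (P : Prj D l) : MulAction (stabT D l) (ZE P) where
  smul t b := ⟨cjD t b.1, by rw [P.eqv, b.2]⟩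
  one_smul b := Subtype.ext (cjD_one b.1)
  mul_smul s t b := Subtype.ext (cjD_mul s t b.1)

omit [Fintype G] in
theorem smul_YC (P : Prj D l) (t : stabT D l) (ψ : YC P) : (t • ψ : YC P).1 = actC t ψ.1 := rfl

omit [Fintype G] in
theorem smul_ZC (P : Prj D l) (t : stabT D l) (ψ : ZC P) : (t • ψ : ZC P).1 = actC t ψ.1 := rfl

omit [Fintype G] in
theorem smul_ZE (P : Prj D l) (t : stabT D l) (b : ZE P) : (t • b : ZE P).1 = cjD t b.1 := rfl

/-- the projection of the characters -/
noncomputable def nuY (P : Prj D l) (ψ : YC P) : ZC P := ⟨nuC P ψ.1, nuC_nuC P ψ.1⟩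

omit [Fintype G] in
theorem nuY_smul (P : Prj D l) (t : stabT D l) (ψ : YC P) : nuY P (t • ψ) = t • nuY P ψ :=
  Subtype.ext (nuC_actC P t ψ.1)

omit [Fintype G] [IsMulCommutative D] in
theorem cjD_of_cent {t : stabT D l} (ht : (t : G) ∈ centralizer (D : Set G)) (b : D) :
    cjD t b = b := by
  apply Subtype.ext
  rw [cjD_coe]
  have h := mem_centralizer_iff.1 ht _ b.2
  rw [← h]
  group

omit [Fintype G] in
theorem actC_of_cent {t : stabT D l} (ht : (t : G) ∈ centralizer (D : Set G))
    (ψ : AddChar (Additive D) ℂ) : actC t ψ = ψ := by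
  apply AddChar.ext
  intro b
  rw [actC_apply, cjD_of_cent (by simpa using inv_mem ht)]
  rfl

/-- the action on the characters which are not trivial on the kernel is free modulo `C_G(D)` -/
theorem stab_YC (P : Prj D l) (hreg : ∀ b : D, P.π b ≠ b → RegT D l (b : G)) (ψ : YC P) :
    MulAction.stabilizer (stabT D l) ψ = (centralizer (D : Set G)).subgroupOf (stabT D l) := by
  ext t
  rw [MulAction.mem_stabilizer_iff, Subgroup.mem_subgroupOf]
  constructor
  · intro h
    by_contra ht
    apply ψ.2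
    have h1 : ∀ b : D, ψ.1 (Additive.ofMul (cjD t⁻¹ b)) = ψ.1 (Additive.ofMul b) := by
      intro b
      have h2 : actC t ψ.1 = ψ.1 := by rw [← smul_YC, h]
      have h3 := DFunLike.congr_fun h2 (Additive.ofMul b)
      rwa [actC_apply] at h3
    -- the endomorphism `b ↦ b⁻¹ b^t` of the kernel
    have hker : ∀ b ∈ P.π.ker, b⁻¹ * cjD t⁻¹ b ∈ P.π.ker := by
      intro b hb
      rw [MonoidHom.mem_ker] at hb ⊢
      rw [map_mul, map_inv, P.eqv, hb, map_one, inv_one, mul_one]
    let f : P.π.ker → P.π.ker := fun b => ⟨(b : D)⁻¹ * cjD t⁻¹ b, hker b b.2⟩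
    have hinj : Function.Injective f := by
      intro a b hab
      have h2 : (a : D)⁻¹ * cjD t⁻¹ a = (b : D)⁻¹ * cjD t⁻¹ b := congrArg Subtype.val hab
      have h3 : cjD t⁻¹ ((a : D) * (b : D)⁻¹) = (a : D) * (b : D)⁻¹ := by
        rw [map_mul, map_inv]
        have h4 : cjD t⁻¹ (a : D) = (a : D) * ((b : D)⁻¹ * cjD t⁻¹ b) := by
          rw [← h2, mul_inv_cancel_left]
        rw [h4]
        rw [mul_assoc, mul_assoc, mul_inv_cancel, mul_one]
      by_contra hne
      have h5 : (a : D) * (b : D)⁻¹ ≠ 1 := fun h5 => hne (Subtype.ext (mul_inv_eq_one.1 h5))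
      have h6 : P.π ((a : D) * (b : D)⁻¹) ≠ (a : D) * (b : D)⁻¹ := by
        rw [map_mul, map_inv, MonoidHom.mem_ker.1 a.2, MonoidHom.mem_ker.1 b.2, inv_one, mul_one]
        exact fun h => h5 h.symm
      have h7 := (hreg _ h6).2 _ (inv_mem t.2) (congrArg Subtype.val h3)
      apply ht
      simpa using inv_mem h7
    have hsurj : Function.Surjective f := Finite.surjective_of_injective hinj
    have h2 : ∀ b : D, P.π b = 1 → ψ.1 (Additive.ofMul b) = 1 := by
      intro d hd
      obtain ⟨b, hb⟩ := hsurj ⟨d, MonoidHom.mem_ker.2 hd⟩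
      have h3 : d = (b : D)⁻¹ * cjD t⁻¹ b := (congrArg Subtype.val hb).symm
      rw [h3, ofMul_mul, ofMul_inv, AddChar.map_add_eq_mul, h1, ← AddChar.map_add_eq_mul,
        neg_add_cancel, AddChar.map_zero_eq_one]
    apply AddChar.ext
    intro b
    rw [nuC_apply]
    have h3 : P.π (b.toMul * (P.π b.toMul)⁻¹) = 1 := by
      rw [map_mul, map_inv, P.idem, mul_inv_cancel]
    have h4 : b = Additive.ofMul (b.toMul * (P.π b.toMul)⁻¹) + Additive.ofMul (P.π b.toMul) := by
      rw [← ofMul_mul, inv_mul_cancel_right]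
      rfl
    conv_rhs => rw [h4, AddChar.map_add_eq_mul, h2 _ h3, one_mul]
  · intro h
    apply Subtype.ext
    rw [smul_YC]
    exact actC_of_cent h _

omit [Fintype G] in
theorem cent_le_stab_ZC (P : Prj D l) (ψ : ZC P) :
    (centralizer (D : Set G)).subgroupOf (stabT D l) ≤ MulAction.stabilizer (stabT D l) ψ := by
  intro t ht
  rw [Subgroup.mem_subgroupOf] at ht
  rw [MulAction.mem_stabilizer_iff]
  exact Subtype.ext (actC_of_cent ht _)

omit [Fintype G] in
theorem cent_le_stab_ZE (P : Prj D l) (b : ZE P) :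
    (centralizer (D : Set G)).subgroupOf (stabT D l) ≤ MulAction.stabilizer (stabT D l) b := by
  intro t ht
  rw [Subgroup.mem_subgroupOf] at ht
  rw [MulAction.mem_stabilizer_iff]
  exact Subtype.ext (cjD_of_cent ht _)

/-- the number of fixed points of one element -/
theorem card_fix (P : Prj D l) (r : stabT D l) :
    Nat.card {ψ : ZC P // r • ψ = ψ} = Nat.card {b : ZE P // r • b = b} := by
  -- the endomorphism
  let g : D →* D :=
    { toFun := fun b => b * (P.π b)⁻¹ * ((P.π b)⁻¹ * cjD r (P.π b))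
      map_one' := by simp
      map_mul' := fun a b => by
        simp only [map_mul]
        have h : ∀ x y z w u v : D, x * y * (z * w)⁻¹ * ((z * w)⁻¹ * (u * v)) =
            x * z⁻¹ * (z⁻¹ * u) * (y * w⁻¹ * (w⁻¹ * v)) := by
          intro x y z w u v
          rw [mul_inv]
          have : ∀ x y z w u v : D, x * y * (z * w) * (z * w * (u * v)) =
            x * z * (z * u) * (y * w * (w * v)) := by
            intro x y z w u v
            ac_rfl
          exact this x y z⁻¹ w⁻¹ u v
        exact h _ _ _ _ _ _ }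
  have hg : ∀ b : D, g b = b * (P.π b)⁻¹ * ((P.π b)⁻¹ * cjD r (P.π b)) := fun _ => rfl
  have h1 : ∀ b : D, g b = 1 ↔ (P.π b = b ∧ cjD r b = b) := by
    intro b
    constructor
    · intro h
      have h2 : P.π (g b) = 1 := by rw [h, map_one]
      simp only [hg, map_mul, map_inv, P.idem, P.eqv, mul_inv_cancel, one_mul] at h2
      rw [hg, h2, mul_one] at h
      have h3 : P.π b = b := (mul_inv_eq_one.1 h).symm
      refine ⟨h3, ?_⟩
      rw [h3] at h2
      exact (inv_mul_eq_one.1 h2).symm
    · rintro ⟨h2, h3⟩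
      rw [hg, h2, h3]
      simp
  have h2 := card_char_ker (A := Additive D) (MonoidHom.toAdditive g)
  have h3 : Nat.card {ψ : ZC P // r • ψ = ψ} =
      Nat.card {ψ : AddChar (Additive D) ℂ // ∀ a, ψ (MonoidHom.toAdditive g a) = 1} := by
    have h4 : ∀ ψ : AddChar (Additive D) ℂ, (∀ a, ψ (MonoidHom.toAdditive g a) = 1) ↔
        (nuC P ψ = ψ ∧ actC r ψ = ψ) := by
      intro ψ
      have e1 : ∀ b : D, ψ (MonoidHom.toAdditive g (Additive.ofMul b)) =
          ψ (Additive.ofMul b) * (ψ (Additive.ofMul (P.π b)))⁻¹ *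
            ((ψ (Additive.ofMul (P.π b)))⁻¹ * ψ (Additive.ofMul (cjD r (P.π b)))) := by
        intro b
        have : MonoidHom.toAdditive g (Additive.ofMul b) =
          Additive.ofMul b + -Additive.ofMul (P.π b) +
            (-Additive.ofMul (P.π b) + Additive.ofMul (cjD r (P.π b))) := rfl
        rw [this, AddChar.map_add_eq_mul, AddChar.map_add_eq_mul, AddChar.map_add_eq_mul,
          AddChar.map_neg_eq_inv]
      have hne : ∀ b : D, ψ (Additive.ofMul b) ≠ 0 := by
        intro b h0
        have h5 := AddChar.map_zero_eq_one ψ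
        rw [← add_neg_cancel (Additive.ofMul b), AddChar.map_add_eq_mul, h0, zero_mul] at h5
        exact zero_ne_one h5
      constructor
      · intro h
        have h5 : ∀ b : D, P.π b = 1 → ψ (Additive.ofMul b) = 1 := by
          intro b hb
          have h6 := h (Additive.ofMul b)
          rw [e1, hb, map_one (cjD r)] at h6
          have h7 : ψ (Additive.ofMul (1 : D)) = 1 := AddChar.map_zero_eq_one ψ
          rwa [h7, inv_one, mul_one, mul_one, mul_one] at h6
        have h8 : ∀ b : D, ψ (Additive.ofMul (P.π b)) = ψ (Additive.ofMul b) := by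
          intro b
          have h9 : P.π (b * (P.π b)⁻¹) = 1 := by rw [map_mul, map_inv, P.idem, mul_inv_cancel]
          have h10 : Additive.ofMul b = Additive.ofMul (b * (P.π b)⁻¹) + Additive.ofMul (P.π b) := by
            rw [← ofMul_mul, inv_mul_cancel_right]
          rw [h10, AddChar.map_add_eq_mul, h5 _ h9, one_mul]
        have h11 : ∀ b : D, ψ (Additive.ofMul (cjD r b)) = ψ (Additive.ofMul b) := by
          intro b
          have h6 := h (Additive.ofMul b)
          rw [e1, h8 b, mul_inv_cancel₀ (hne b), one_mul, ← P.eqv, h8] at h6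
          rw [inv_mul_eq_one₀ (hne b)] at h6
          exact h6.symm
        refine ⟨?_, ?_⟩
        · apply AddChar.ext
          intro b
          exact h8 b.toMul
        apply AddChar.ext
        intro b
        rw [actC_apply, ← h11, ← cjD_mul, mul_inv_cancel, cjD_one]
        rfl
      · rintro ⟨h5, h6⟩ b
        have h8 : ∀ b : D, ψ (Additive.ofMul (P.π b)) = ψ (Additive.ofMul b) := fun b =>
          DFunLike.congr_fun h5 (Additive.ofMul b)
        have h9 : ∀ b : D, ψ (Additive.ofMul (cjD r b)) = ψ (Additive.ofMul b) := by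
          intro b
          have h10 := DFunLike.congr_fun h6 (Additive.ofMul (cjD r b))
          rw [actC_apply] at h10
          rw [← h10]
          change ψ (Additive.ofMul (cjD r⁻¹ (cjD r b))) = _
          rw [← cjD_mul, inv_mul_cancel, cjD_one]
        have h11 := e1 b.toMul
        rw [h9, h8, mul_inv_cancel₀ (hne _), inv_mul_cancel₀ (hne _), one_mul] at h11
        exact h11
    rw [Nat.card_congr (Equiv.subtypeEquivRight h4)]
    refine Nat.card_congr
      { toFun := fun ψ => ⟨ψ.1.1, ψ.1.2, by rw [← smul_ZC, ψ.2]⟩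
        invFun := fun ψ => ⟨⟨ψ.1, ψ.2.1⟩, Subtype.ext ψ.2.2⟩
        left_inv := fun _ => rfl
        right_inv := fun _ => rfl }
  have h4 : Nat.card {b : ZE P // r • b = b} =
      Nat.card {a : Additive D // MonoidHom.toAdditive g a = 0} := by
    refine Nat.card_congr
      { toFun := fun b => ⟨Additive.ofMul b.1.1, (h1 b.1.1).2 ⟨b.1.2, by rw [← smul_ZE, b.2]⟩⟩
        invFun := fun a => ⟨⟨a.1.toMul, ((h1 a.1.toMul).1 a.2).1⟩,
          Subtype.ext ((h1 a.1.toMul).1 a.2).2⟩
        left_inv := fun _ => rfl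
        right_inv := fun _ => rfl }
  rw [h3, h4, h2]

/-- the sums of the squares of the stabilisers -/
theorem sum_sq_ZC (P : Prj D l) {z : G} (hzT : z ∈ stabT D l)
    (hz : ∀ s ∈ stabT D l, ∃ i : ℤ, z ^ i * s ∈ centralizer (D : Set G)) :
    ∑ ψ : ZC P, Nat.card (MulAction.stabilizer (stabT D l) ψ) ^ 2 =
      ∑ b : ZE P, Nat.card (MulAction.stabilizer (stabT D l) b) ^ 2 := by
  refine sum_stab_sq ((centralizer (D : Set G)).subgroupOf (stabT D l)) ⟨z, hzT⟩ ?_
    (cent_le_stab_ZC P) (cent_le_stab_ZE P) (card_fix P)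
  intro s
  obtain ⟨i, hi⟩ := hz s s.2
  refine ⟨i, ?_⟩
  rw [Subgroup.mem_subgroupOf]
  exact hi

end Prj

end Vale.P179.H190
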