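import Vale.Agent.P179.H190.U2
import Vale.Agent.P179.H905.J7
import Vale.Agent.P179.R2.H666.Cnt

/-!
# REL, upper bound 3: the integral vectors
-/

namespace Vale.P179.H190

open Finset P179P P179C P179Y Subgroup P179H524 P179I

open scoped Classical IsMulCommutative

universe v

section

variable {p : ℕ} [hp : Fact p.Prime] {k : Type v} [Field k] [CharP k p] {red : AA →+* k}
  {G : Type} [Group G] [Fintype G] {D : Subgroup G} {l : (G → k) → k}
  {Φ : ∀ H : Subgroup G, Irr H} {aH bH : Subgroup G → ℕ} {ε : Subgroup G → ℤ} {κ₀ : k}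
  [IsMulCommutative D]

omit hp [CharP k p] in
/-- summation over the conjugates of a regular element -/
theorem sum_conj_reg {b : D} (hb : RegT D l (b : G)) (F : D → ℂ) :
    ∑ t : stabT D l, F (cjD t b) =
      (Nat.card ((centralizer (D : Set G)).subgroupOf (stabT D l)) : ℂ) *
        ∑ b' : D, if ∃ t ∈ stabT D l, t * (b : G) * t⁻¹ = b' then F b' else 0 := by
  rw [← Finset.sum_fiberwise univ (fun t : stabT D l => cjD t b), Finset.mul_sum]
  refine Finset.sum_congr rfl fun b' _ => ?_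
  by_cases h : ∃ t ∈ stabT D l, t * (b : G) * t⁻¹ = b'
  · obtain ⟨s, hs, hsb⟩ := h
    rw [if_pos ⟨s, hs, hsb⟩]
    have h1 : ∀ t ∈ univ.filter (fun t : stabT D l => cjD t b = b'), F (cjD t b) = F b' := by
      intro t ht
      rw [(mem_filter.1 ht).2]
    rw [Finset.sum_congr rfl h1, Finset.sum_const, nsmul_eq_mul]
    congr 2
    rw [← Fintype.card_subtype, ← Nat.card_eq_fintype_card]
    have hs' : cjD (⟨s, hs⟩ : stabT D l) b = b' := Subtype.ext hsb
    refine Nat.card_congr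
      { toFun := fun t => ⟨(⟨s, hs⟩ : stabT D l)⁻¹ * t.1, ?_⟩
        invFun := fun t => ⟨(⟨s, hs⟩ : stabT D l) * t.1, ?_⟩
        left_inv := fun t => by simp
        right_inv := fun t => by simp }
    · rw [Subgroup.mem_subgroupOf]
      refine hb.2 _ (SetLike.coe_mem _) ?_
      have h2 : cjD ((⟨s, hs⟩ : stabT D l)⁻¹ * t.1) b = b := by
        rw [cjD_mul, t.2, ← hs', ← cjD_mul, inv_mul_cancel, cjD_one]
      exact congrArg Subtype.val h2
    · rw [cjD_mul, cjD_of_cent (Subgroup.mem_subgroupOf.1 t.2), hs']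
  · rw [if_neg h, mul_zero]
    refine Finset.sum_eq_zero fun t ht => ?_
    exact absurd ⟨(t : G), t.2, congrArg Subtype.val (mem_filter.1 ht).2⟩ h

/-- the Gram matrix of the combinations of the columns -/
theorem gram_f (h : LocR p red D l Φ aH bH ε κ₀) (hl : BP p D l) (hD : IsPGroup p D)
    (hab : D ≤ centralizer (D : Set G)) (f g : D → ℂ)
    (hf : ∀ b : D, ¬ (RegT D l (b : G) ∧ (b : G) ≠ 1) → f b = 0)
    (hg : ∀ b : D, ¬ (RegT D l (b : G) ∧ (b : G) ≠ 1) → g b = 0) :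
    (Nat.card ((centralizer (D : Set G)).subgroupOf (stabT D l)) : ℂ) *
      ∑ χ : Irr G, (∑ b : D, f b * (Ad p D Φ ε (b : G) χ : ℂ)) *
        (starRingEnd ℂ) (∑ b : D, g b * (Ad p D Φ ε (b : G) χ : ℂ)) =
      (Nat.card D : ℂ) * ∑ t : stabT D l, ∑ b : D, f b * (starRingEnd ℂ) (g (cjD t b)) := by
  have h1 : ∑ χ : Irr G, (∑ b : D, f b * (Ad p D Φ ε (b : G) χ : ℂ)) *
        (starRingEnd ℂ) (∑ b : D, g b * (Ad p D Φ ε (b : G) χ : ℂ)) =
      ∑ b : D, ∑ b' : D, f b * (starRingEnd ℂ) (g b') *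
        ∑ χ : Irr G, (Ad p D Φ ε (b : G) χ : ℂ) * (starRingEnd ℂ) (Ad p D Φ ε (b' : G) χ : ℂ) := by
    have e1 : ∀ χ : Irr G, (∑ b : D, f b * (Ad p D Φ ε (b : G) χ : ℂ)) *
        (starRingEnd ℂ) (∑ b : D, g b * (Ad p D Φ ε (b : G) χ : ℂ)) =
        ∑ b : D, ∑ b' : D, f b * (starRingEnd ℂ) (g b') *
          ((Ad p D Φ ε (b : G) χ : ℂ) * (starRingEnd ℂ) (Ad p D Φ ε (b' : G) χ : ℂ)) := by
      intro χ
      rw [map_sum, Finset.sum_mul_sum]
      refine Finset.sum_congr rfl fun b _ => Finset.sum_congr rfl fun b' _ => ?_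
      rw [map_mul]
      ring
    rw [Finset.sum_congr rfl fun χ _ => e1 χ, Finset.sum_comm]
    refine Finset.sum_congr rfl fun b _ => ?_
    rw [Finset.sum_comm]
    exact Finset.sum_congr rfl fun b' _ => by rw [Finset.mul_sum]
  rw [h1, Finset.sum_comm (s := (univ : Finset (stabT D l))), Finset.mul_sum, Finset.mul_sum]
  refine Finset.sum_congr rfl fun b _ => ?_
  by_cases hb : RegT D l (b : G) ∧ (b : G) ≠ 1
  swap
  · simp only [hf b hb, zero_mul, Finset.sum_const_zero, mul_zero]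
  have h2 : ∀ b' : D, f b * (starRingEnd ℂ) (g b') *
        ∑ χ : Irr G, (Ad p D Φ ε (b : G) χ : ℂ) * (starRingEnd ℂ) (Ad p D Φ ε (b' : G) χ : ℂ) =
      f b * (Nat.card D : ℂ) * (if ∃ t ∈ stabT D l, t * (b : G) * t⁻¹ = b' then
        (starRingEnd ℂ) (g b') else 0) := by
    intro b'
    by_cases hb' : RegT D l (b' : G) ∧ (b' : G) ≠ 1
    · rw [P179H666.gramC h hl hD hab hb.1 hb.2 hb'.1 hb'.2]
      split_ifs
      · ring
      · ring
    · rw [hg b' hb', map_zero]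
      split_ifs <;> ring
  rw [Finset.sum_congr rfl fun b' _ => h2 b', ← Finset.mul_sum, ← Finset.mul_sum,
    sum_conj_reg hb.1 (fun b' => (starRingEnd ℂ) (g b'))]
  ring

/-- orthogonality of the characters of `D` -/
theorem sum_char (ψ φ : AddChar (Additive D) ℂ) :
    ∑ b : D, ψ (Additive.ofMul b) * (starRingEnd ℂ) (φ (Additive.ofMul b)) =
      if ψ = φ then (Nat.card D : ℂ) else 0 := by
  have h1 := AddChar.sum_eq_ite (ψ - φ)
  have h2 : ∑ a : Additive D, (ψ - φ) a =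
      ∑ b : D, ψ (Additive.ofMul b) * (starRingEnd ℂ) (φ (Additive.ofMul b)) := by
    refine Fintype.sum_equiv Additive.toMul _ _ fun a => ?_
    rw [AddChar.sub_apply, AddChar.map_neg_eq_conj]
    rfl
  rw [← h2, h1]
  simp only [sub_eq_zero]
  rw [Nat.card_eq_fintype_card, Fintype.card_congr (Additive.toMul (α := D))]

/-- orthogonality of the differences -/
theorem sum_diff (P : Prj D l) {ψ φ : AddChar (Additive D) ℂ} (hψ : nuC P ψ ≠ ψ)
    (hφ : nuC P φ ≠ φ) (t : stabT D l) :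
    ∑ b : D, (ψ (Additive.ofMul b) - nuC P ψ (Additive.ofMul b)) *
      (starRingEnd ℂ) (φ (Additive.ofMul (cjD t b)) - nuC P φ (Additive.ofMul (cjD t b))) =
      (Nat.card D : ℂ) * ((if actC t⁻¹ φ = ψ then 1 else 0) +
        if actC t⁻¹ (nuC P φ) = nuC P ψ then 1 else 0) := by
  have h1 : ∀ (φ : AddChar (Additive D) ℂ) (b : D), φ (Additive.ofMul (cjD t b)) =
      actC t⁻¹ φ (Additive.ofMul b) := by
    intro φ b
    rw [actC_apply, inv_inv]
    rfl
  have h2 : ∀ b : D, (ψ (Additive.ofMul b) - nuC P ψ (Additive.ofMul b)) *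
      (starRingEnd ℂ) (φ (Additive.ofMul (cjD t b)) - nuC P φ (Additive.ofMul (cjD t b))) =
      ψ (Additive.ofMul b) * (starRingEnd ℂ) (actC t⁻¹ φ (Additive.ofMul b)) -
      ψ (Additive.ofMul b) * (starRingEnd ℂ) (actC t⁻¹ (nuC P φ) (Additive.ofMul b)) -
      nuC P ψ (Additive.ofMul b) * (starRingEnd ℂ) (actC t⁻¹ φ (Additive.ofMul b)) +
      nuC P ψ (Additive.ofMul b) * (starRingEnd ℂ) (actC t⁻¹ (nuC P φ) (Additive.ofMul b)) := by
    intro b
    rw [h1, h1, map_sub]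
    ring
  rw [Finset.sum_congr rfl fun b _ => h2 b, Finset.sum_add_distrib, Finset.sum_sub_distrib,
    Finset.sum_sub_distrib, sum_char, sum_char, sum_char, sum_char]
  have h3 : ψ ≠ actC t⁻¹ (nuC P φ) := by
    intro h
    apply hψ
    rw [h, nuC_actC, nuC_nuC]
  have h4 : nuC P ψ ≠ actC t⁻¹ φ := by
    intro h
    apply hφ
    have h5 := congrArg (nuC P) h
    rw [nuC_nuC, nuC_actC] at h5
    exact actC_inj t⁻¹ (h5.symm.trans h)
  rw [if_neg h3, if_neg h4]
  have e1 : (ψ = actC t⁻¹ φ) ↔ (actC t⁻¹ φ = ψ) := eq_comm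
  have e2 : (nuC P ψ = actC t⁻¹ (nuC P φ)) ↔ (actC t⁻¹ (nuC P φ) = nuC P ψ) := eq_comm
  simp only [e1, e2]
  split_ifs <;> ring

omit [Fintype G] in
theorem nuC_of_not_reg (P : Prj D l)
    (hreg : ∀ b : D, P.π b ≠ b → RegT D l (b : G)) (ψ : AddChar (Additive D) ℂ) {b : D}
    (hb : ¬ (RegT D l (b : G) ∧ (b : G) ≠ 1)) :
    ψ (Additive.ofMul b) - nuC P ψ (Additive.ofMul b) = 0 := by
  have h1 : P.π b = b := by
    by_contra h
    apply hb
    refine ⟨hreg b h, fun h1 => h ?_⟩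
    have h2 : b = 1 := Subtype.ext h1
    rw [h2, map_one]
  rw [nuC_apply]
  have : (Additive.ofMul (P.π (Additive.ofMul b).toMul)) = Additive.ofMul b := congrArg _ h1
  rw [this, sub_self]

include hp in
/-- the integral vectors -/
theorem exists_V [IsAlgClosed k] (h : LocR p red D l Φ aH bH ε κ₀)
    (hl : BP p D l) (hD : IsPGroup p D) (hab : D ≤ centralizer (D : Set G)) (hp2 : p ≠ 2)
    (he : ((centralizer (D : Set G)).relIndex (stabT D l) : k) ≠ 0) (P : Prj D l)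
    (hreg : ∀ b : D, P.π b ≠ b → RegT D l (b : G)) (ψ : AddChar (Additive D) ℂ) (χ : Irr G) :
    ∃ z : ℤ, ∑ b : D, (ψ (Additive.ofMul b) - nuC P ψ (Additive.ofMul b)) *
      (Ad p D Φ ε (b : G) χ : ℂ) = (Nat.card D : ℂ) * z := by
  let c : AddChar (Additive D) ℂ → ℤ := fun φ =>
    (if φ = ψ then 1 else 0) - (if φ = nuC P ψ then 1 else 0)
  have hc : ∀ b : Additive D, ∑ φ, (c φ : AA) * lamA φ b = lamA ψ b - lamA (nuC P ψ) b := by
    intro b
    have h1 : ∀ φ, (c φ : AA) * lamA φ b =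
        (if φ = ψ then lamA φ b else 0) - (if φ = nuC P ψ then lamA φ b else 0) := by
      intro φ
      simp only [c]
      split_ifs <;> simp
    rw [Finset.sum_congr rfl fun φ _ => h1 φ, Finset.sum_sub_distrib, Finset.sum_ite_eq',
      Finset.sum_ite_eq', if_pos (mem_univ _), if_pos (mem_univ _)]
  obtain ⟨z, hz⟩ := h.INT hl hD hab hp2 he c (by
    intro b hb
    rw [hc]
    apply Subtype.ext
    push_cast
    exact nuC_of_not_reg P hreg ψ (b := b.toMul) hb) χ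
  refine ⟨z, ?_⟩
  have h2 := congrArg (fun x : AA => (x : ℂ)) hz
  push_cast at h2
  rw [← h2]
  symm
  refine Fintype.sum_equiv Additive.toMul _ _ fun b => ?_
  have h3 := congrArg (fun x : AA => (x : ℂ)) (hc b)
  push_cast at h3
  rw [h3]
  rfl

/-- the Gram matrix of the integral vectors -/
theorem gram_V (h : LocR p red D l Φ aH bH ε κ₀)
    (hl : BP p D l) (hD : IsPGroup p D) (hab : D ≤ centralizer (D : Set G)) (P : Prj D l)
    (hreg : ∀ b : D, P.π b ≠ b → RegT D l (b : G)) (V : AddChar (Additive D) ℂ → Irr G → ℤ)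
    (hV : ∀ ψ χ, ∑ b : D, (ψ (Additive.ofMul b) - nuC P ψ (Additive.ofMul b)) *
      (Ad p D Φ ε (b : G) χ : ℂ) = (Nat.card D : ℂ) * V ψ χ) {ψ φ : AddChar (Additive D) ℂ}
    (hψ : nuC P ψ ≠ ψ) (hφ : nuC P φ ≠ φ) :
    (Nat.card ((centralizer (D : Set G)).subgroupOf (stabT D l)) : ℤ) *
      ∑ χ : Irr G, V ψ χ * V φ χ =
      (Nat.card {t : stabT D l // actC t φ = ψ} : ℤ) +
        Nat.card {t : stabT D l // actC t (nuC P φ) = nuC P ψ} := by
  have h1 := gram_f h hl hD hab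
    (fun b => ψ (Additive.ofMul b) - nuC P ψ (Additive.ofMul b))
    (fun b => φ (Additive.ofMul b) - nuC P φ (Additive.ofMul b))
    (fun b hb => nuC_of_not_reg P hreg ψ hb) (fun b hb => nuC_of_not_reg P hreg φ hb)
  simp only [hV] at h1
  rw [Finset.sum_congr rfl fun t _ => sum_diff P hψ hφ t, ← Finset.mul_sum] at h1
  have hD0 : (Nat.card D : ℂ) ≠ 0 := by exact_mod_cast Nat.card_pos.ne'
  have h2 : ∑ χ : Irr G, (Nat.card D : ℂ) * V ψ χ * (starRingEnd ℂ) ((Nat.card D : ℂ) * V φ χ) =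
      (Nat.card D : ℂ) * ((Nat.card D : ℂ) * ((∑ χ : Irr G, V ψ χ * V φ χ : ℤ) : ℂ)) := by
    push_cast
    rw [Finset.mul_sum, Finset.mul_sum]
    refine Finset.sum_congr rfl fun χ _ => ?_
    rw [map_mul, map_natCast, map_intCast]
    ring
  have h3 : ∑ t : stabT D l, ((if actC t⁻¹ φ = ψ then (1 : ℂ) else 0) +
        if actC t⁻¹ (nuC P φ) = nuC P ψ then 1 else 0) =
      (((Nat.card {t : stabT D l // actC t φ = ψ} : ℤ) +
        Nat.card {t : stabT D l // actC t (nuC P φ) = nuC P ψ} : ℤ) : ℂ) := by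
    rw [Finset.sum_add_distrib]
    push_cast
    congr 1
    · rw [← Equiv.sum_comp (Equiv.inv (stabT D l))]
      simp only [Equiv.inv_apply, inv_inv]
      rw [Finset.sum_boole, Nat.card_eq_fintype_card, Fintype.card_subtype]
    · rw [← Equiv.sum_comp (Equiv.inv (stabT D l))]
      simp only [Equiv.inv_apply, inv_inv]
      rw [Finset.sum_boole, Nat.card_eq_fintype_card, Fintype.card_subtype]
  rw [h2, h3] at h1
  have h4 : ((Nat.card ((centralizer (D : Set G)).subgroupOf (stabT D l)) : ℂ)) *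
      ((∑ χ : Irr G, V ψ χ * V φ χ : ℤ) : ℂ) =
      (((Nat.card {t : stabT D l // actC t φ = ψ} : ℤ) +
        Nat.card {t : stabT D l // actC t (nuC P φ) = nuC P ψ} : ℤ) : ℂ) := by
    apply mul_left_cancel₀ hD0
    apply mul_left_cancel₀ hD0
    rw [← h1]
    ring
  exact_mod_cast h4

include hp in
/-- nonvanishing -/
theorem V_ne_zero' [IsAlgClosed k] (h : LocR p red D l Φ aH bH ε κ₀) (hl : BP p D l)
    (hD : IsPGroup p D) (hab : D ≤ centralizer (D : Set G))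
    (he : ((centralizer (D : Set G)).relIndex (stabT D l) : k) ≠ 0) (P : Prj D l)
    (hreg : ∀ b : D, P.π b ≠ b → RegT D l (b : G)) (V : AddChar (Additive D) ℂ → Irr G → ℤ)
    (hV : ∀ ψ χ, ∑ b : D, (ψ (Additive.ofMul b) - nuC P ψ (Additive.ofMul b)) *
      (Ad p D Φ ε (b : G) χ : ℂ) = (Nat.card D : ℂ) * V ψ χ)
    (hne : ∃ b : D, P.π b ≠ b) (χ : Irr G) (hχ : InL red l χ.1) :
    ∃ ψ, nuC P ψ ≠ ψ ∧ V ψ χ ≠ 0 := by
  by_contra hcon
  push Not at hcon
  obtain ⟨b₀, hb₀⟩ := hne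
  have h1 : ∀ ψ : AddChar (Additive D) ℂ, ∑ b : D, (ψ (Additive.ofMul b) -
      nuC P ψ (Additive.ofMul b)) * (Ad p D Φ ε (b : G) χ : ℂ) = 0 := by
    intro ψ
    by_cases hψ : nuC P ψ = ψ
    · refine Finset.sum_eq_zero fun b _ => ?_
      rw [hψ, sub_self, zero_mul]
    · rw [hV, hcon ψ hψ]
      simp
  have h2 : ∑ ψ : AddChar (Additive D) ℂ, (∑ b : D, (ψ (Additive.ofMul b) -
      nuC P ψ (Additive.ofMul b)) * (Ad p D Φ ε (b : G) χ : ℂ)) *
        ψ (-Additive.ofMul b₀) = 0 :=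
    Finset.sum_eq_zero fun ψ _ => by rw [h1, zero_mul]
  have h3 : ∀ b : D, ∑ ψ : AddChar (Additive D) ℂ, (ψ (Additive.ofMul b) -
      nuC P ψ (Additive.ofMul b)) * ψ (-Additive.ofMul b₀) =
        if b = b₀ then (Fintype.card (Additive D) : ℂ) else 0 := by
    intro b
    have e1 : ∀ ψ : AddChar (Additive D) ℂ, (ψ (Additive.ofMul b) -
      nuC P ψ (Additive.ofMul b)) * ψ (-Additive.ofMul b₀) =
        ψ (Additive.ofMul (b * b₀⁻¹)) - ψ (Additive.ofMul (P.π b * b₀⁻¹)) := by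
      intro ψ
      rw [nuC_apply, sub_mul, ← AddChar.map_add_eq_mul, ← AddChar.map_add_eq_mul]
      rfl
    rw [Finset.sum_congr rfl fun ψ _ => e1 ψ, Finset.sum_sub_distrib,
      AddChar.sum_apply_eq_ite, AddChar.sum_apply_eq_ite]
    have e2 : (Additive.ofMul (b * b₀⁻¹) = 0) ↔ b = b₀ := by
      rw [ofMul_eq_zero, mul_inv_eq_one]
    have e3 : ¬ (Additive.ofMul (P.π b * b₀⁻¹) = 0) := by
      rw [ofMul_eq_zero, mul_inv_eq_one]
      intro h'
      apply hb₀
      rw [← h', P.idem]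
    simp only [e2, if_neg e3, sub_zero]
  have h4 : ∑ ψ : AddChar (Additive D) ℂ, (∑ b : D, (ψ (Additive.ofMul b) -
      nuC P ψ (Additive.ofMul b)) * (Ad p D Φ ε (b : G) χ : ℂ)) *
        ψ (-Additive.ofMul b₀) =
      (Fintype.card (Additive D) : ℂ) * (Ad p D Φ ε (b₀ : G) χ : ℂ) := by
    have e1 : ∀ ψ : AddChar (Additive D) ℂ, (∑ b : D, (ψ (Additive.ofMul b) -
      nuC P ψ (Additive.ofMul b)) * (Ad p D Φ ε (b : G) χ : ℂ)) *
        ψ (-Additive.ofMul b₀) = ∑ b : D, ((ψ (Additive.ofMul b) -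
      nuC P ψ (Additive.ofMul b)) * ψ (-Additive.ofMul b₀)) * (Ad p D Φ ε (b : G) χ : ℂ) := by
      intro ψ
      rw [Finset.sum_mul]
      exact Finset.sum_congr rfl fun b _ => by ring
    rw [Finset.sum_congr rfl fun ψ _ => e1 ψ, Finset.sum_comm]
    have e2 : ∀ b : D, ∑ ψ : AddChar (Additive D) ℂ, ((ψ (Additive.ofMul b) -
      nuC P ψ (Additive.ofMul b)) * ψ (-Additive.ofMul b₀)) * (Ad p D Φ ε (b : G) χ : ℂ) =
        if b = b₀ then (Fintype.card (Additive D) : ℂ) * (Ad p D Φ ε (b : G) χ : ℂ) else 0 := by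
      intro b
      rw [← Finset.sum_mul, h3]
      split_ifs <;> simp
    rw [Finset.sum_congr rfl fun b _ => e2 b, Finset.sum_ite_eq', if_pos (mem_univ _)]
  rw [h2] at h4
  have h5 : (Fintype.card (Additive D) : ℂ) ≠ 0 := by exact_mod_cast Fintype.card_ne_zero
  have h6 := (mul_eq_zero.1 h4.symm).resolve_left h5
  have hb1 : (b₀ : G) ≠ 1 := by
    intro h7
    apply hb₀
    have h8 : b₀ = 1 := Subtype.ext h7
    rw [h8, map_one]
  exact h.Ad_ne_zero hl hD hab he (hreg b₀ hb₀) hb1 χ hχ (Subtype.ext h6)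

end

end Vale.P179.H190
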