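import Vale.Agent.P179.H190.U3
import Vale.Agent.P179.R2.H967.Sub4
import Vale.Agent.P179.R2.H967.WatF

/-!
# REL, upper bound 4: the number of characters and the number of simple modules
-/

namespace Vale.P179.H190

open Finset P179P P179C P179Y Subgroup P179H524 P179I P179A P179H12 P179H452 P179H967

open scoped Classical IsMulCommutative

universe v

section

variable {p : ℕ} [hp : Fact p.Prime] {k : Type v} [Field k] [IsAlgClosed k] [CharP k p]
  (red : integralClosure ℤ ℂ →+* k) {G : Type} [Group G] [Fintype G] {D : Subgroup G}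
  {l : (G → k) → k} [IsMulCommutative D]

omit hp [IsAlgClosed k] [CharP k p] [Fintype G] [IsMulCommutative D] in
theorem card_centT : Nat.card ((centralizer (D : Set G)).subgroupOf (stabT D l)) =
    Nat.card (centralizer (D : Set G)) :=
  Nat.card_congr (Subgroup.subgroupOfEquivOfLe (cent_le_stabT D l)).toEquiv

include red in
/-- **the number of the characters of the block** -/
theorem card_X_le (hl : BP p D l) (hD : IsPGroup p D) (hab : D ≤ centralizer (D : Set G))
    (hp2 : p ≠ 2) (hT : ¬ p ∣ (centralizer (D : Set G)).relIndex (stabT D l)) (P : Prj D l)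
    (hreg : ∀ b : D, P.π b ≠ b → RegT D l (b : G)) (hne : ∃ b : D, P.π b ≠ b) :
    Nat.card (centralizer (D : Set G)) * Nat.card (stabT D l) * (X1 red l 1).card ≤
      Nat.card (centralizer (D : Set G)) ^ 2 * Nat.card (YC P) +
        ∑ ψ : ZC P, Nat.card (MulAction.stabilizer (stabT D l) ψ) ^ 2 := by
  have he : ((centralizer (D : Set G)).relIndex (stabT D l) : k) ≠ 0 := by
    rw [Ne, CharP.cast_eq_zero_iff k p]
    exact hT
  obtain ⟨Φ, aH, bH, ε, κ₀, h⟩ := exists_LocR (red := red) hl hD hab
  have h2 : ∀ (ψ : AddChar (Additive D) ℂ) (χ : Irr G), ∃ z : ℤ,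
      ∑ b : D, (ψ (Additive.ofMul b) - nuC P ψ (Additive.ofMul b)) *
        (Ad p D Φ ε (b : G) χ : ℂ) = (Nat.card D : ℂ) * z := fun ψ χ =>
    exists_V h hl hD hab hp2 he P hreg ψ χ
  choose V hV using h2
  have hV0 : ∀ ψ χ, ¬ InL red l χ.1 → V ψ χ = 0 := by
    intro ψ χ hχ
    have h3 := hV ψ χ
    have h4 : ∑ b : D, (ψ (Additive.ofMul b) - nuC P ψ (Additive.ofMul b)) *
        (Ad p D Φ ε (b : G) χ : ℂ) = 0 := by
      refine Finset.sum_eq_zero fun b _ => ?_
      by_cases hb : RegT D l (b : G) ∧ (b : G) ≠ 1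
      · rw [h.Ad_eq_zero hl hD hb.1 hb.2 χ hχ]
        simp
      · rw [nuC_of_not_reg P hreg ψ hb, zero_mul]
    rw [h4] at h3
    have h6 : (Nat.card D : ℂ) ≠ 0 := by exact_mod_cast Nat.card_pos.ne'
    rcases mul_eq_zero.1 h3.symm with h7 | h7
    · exact absurd h7 h6
    · exact_mod_cast h7
  let X := {χ : Irr G // InL red l χ.1}
  have hX : (X1 red l 1).card = Fintype.card X := by
    rw [Fintype.card_subtype]
    congr 1
    ext χ
    rw [mem_X1, mem_filter]
    simp
  have hcard := card_centT (D := D) (l := l)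
  have h3 := comb_rel (T := stabT D l) (Y := YC P) (Z := ZC P) (X := X) (nuY P) (nuY_smul P)
    (Nat.card (centralizer (D : Set G))) Nat.card_pos
    (fun y => by rw [stab_YC P hreg, hcard])
    (fun z => by
      rw [← hcard]
      exact Subgroup.card_dvd_of_le (cent_le_stab_ZC P z))
    (fun y x => V y.1 x.1) ?_ ?_
  · rw [hX, Nat.card_eq_fintype_card (α := YC P)]
    exact h3
  · intro y y'
    have h4 := gram_V h hl hD hab P hreg V hV y.2 y'.2
    rw [hcard] at h4
    have h5 : ∑ χ : Irr G, V y.1 χ * V y'.1 χ = ∑ x : X, V y.1 x.1 * V y'.1 x.1 := by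
      have h6 : ∑ χ : Irr G, V y.1 χ * V y'.1 χ =
          ∑ χ ∈ univ.filter (fun χ : Irr G => InL red l χ.1), V y.1 χ * V y'.1 χ := by
        rw [Finset.sum_filter]
        refine Finset.sum_congr rfl fun χ _ => ?_
        by_cases hχ : InL red l χ.1
        · rw [if_pos hχ]
        · rw [if_neg hχ, hV0 _ χ hχ, zero_mul]
      rw [h6]
      exact Finset.sum_subtype _ (fun χ => by simp) _
    rw [h5] at h4
    refine h4.trans ?_
    have e1 : Nat.card {t : stabT D l // actC t y'.1 = y.1} =
        Nat.card {t : stabT D l // t • y' = y} :=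
      Nat.card_congr (Equiv.subtypeEquivRight fun t => by rw [Subtype.ext_iff, smul_YC])
    have e2 : Nat.card {t : stabT D l // actC t (nuC P y'.1) = nuC P y.1} =
        Nat.card {t : stabT D l // t • nuY P y' = nuY P y} :=
      Nat.card_congr (Equiv.subtypeEquivRight fun t => by
        rw [Subtype.ext_iff, smul_ZC]; rfl)
    rw [e1, e2]
  · intro x
    obtain ⟨ψ, hψ, hψx⟩ := V_ne_zero' h hl hD hab he P hreg V hV hne x.1 x.2
    exact ⟨⟨ψ, hψ⟩, hψx⟩

omit hp [IsAlgClosed k] [CharP k p] in
theorem card_YC (P : Prj D l) : Nat.card (YC P) = Nat.card (YE P) := by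
  have h1 : Nat.card (ZC P) = Nat.card (ZE P) := by
    have h2 := card_fix P (1 : stabT D l)
    rw [Nat.card_congr (Equiv.subtypeUnivEquiv fun ψ : ZC P => one_smul _ ψ),
      Nat.card_congr (Equiv.subtypeUnivEquiv fun ψ : ZE P => one_smul _ ψ)] at h2
    exact h2
  have h3 : Nat.card (ZC P) + Nat.card (YC P) = Nat.card (AddChar (Additive D) ℂ) := by
    rw [← Nat.card_sum]
    exact Nat.card_congr (Equiv.sumCompl _)
  have h4 : Nat.card (ZE P) + Nat.card (YE P) = Nat.card D := by
    rw [← Nat.card_sum]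
    exact Nat.card_congr (Equiv.sumCompl _)
  have h5 : Nat.card (AddChar (Additive D) ℂ) = Nat.card D := by
    rw [Nat.card_eq_fintype_card, AddChar.card_eq, Nat.card_eq_fintype_card,
      Fintype.card_congr (Additive.toMul (α := D))]
  omega

omit hp [IsAlgClosed k] [CharP k p] [Fintype G] [IsMulCommutative D] in
theorem card_stab_inf (b : D) : Nat.card (stabT D l ⊓ centralizer {(b : G)} : Subgroup G) =
    Nat.card {t : stabT D l // cjD t b = b} := by
  refine Nat.card_congr
    { toFun := fun t => ⟨⟨t.1, (Subgroup.mem_inf.1 t.2).1⟩, ?_⟩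
      invFun := fun t => ⟨t.1.1, Subgroup.mem_inf.2 ⟨t.1.2, ?_⟩⟩
      left_inv := fun _ => rfl
      right_inv := fun _ => rfl }
  · apply Subtype.ext
    rw [cjD_coe]
    have h := mem_centralizer_singleton_iff.1 (Subgroup.mem_inf.1 t.2).2
    change (t : G) * b * (t : G)⁻¹ = b
    rw [h, mul_inv_cancel_right]
  · rw [mem_centralizer_singleton_iff]
    have h := congrArg Subtype.val t.2
    rw [cjD_coe] at h
    exact mul_inv_eq_iff_eq_mul.1 h

include red in
/-- **`l(B) ≤ e`, relative form** -/
theorem numSimple_le_rel {B : MonoidAlgebra k G} (hB : IsBlock B) (hl : BP p D l)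
    (hlz : ∀ z : G → k, IsCF z → l z = centralChar B (mkF z)) (hD : IsPGroup p D)
    (hp2 : p ≠ 2) (hT : ¬ p ∣ (centralizer (D : Set G)).relIndex (stabT D l)) (P : Prj D l)
    (hreg : ∀ b : D, P.π b ≠ b → RegT D l (b : G)) (hne : ∃ b : D, P.π b ≠ b)
    {z : G} (hzT : z ∈ stabT D l)
    (hz : ∀ s ∈ stabT D l, ∃ i : ℤ, z ^ i * s ∈ centralizer (D : Set G))
    (hL : ∀ u : D, P.π u = u → u ≠ 1 → ∀ b : MonoidAlgebra k (centralizer {(u : G)} : Subgroup G),
      IsBlock b → Low (centralizer {(u : G)}) l b →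
      (centralizer (D : Set G)).relIndex (stabT D l ⊓ centralizer {(u : G)}) ≤ numSimpleIn b) :
    numSimpleIn B ≤ (centralizer (D : Set G)).relIndex (stabT D l) := by
  have hcomm : ∀ a ∈ D, ∀ b ∈ D, a * b = b * a := fun a ha b hb =>
    congrArg Subtype.val (mul_comm (⟨a, ha⟩ : D) ⟨b, hb⟩)
  have hab : D ≤ centralizer (D : Set G) := by
    intro x hx
    rw [mem_centralizer_iff]
    intro y hy
    exact hcomm y hy x hx
  set C := centralizer (D : Set G) with hC
  set T := stabT D l with hTdef
  have hCT : C ≤ T := cent_le_stabT D l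
  have hup : Nat.card C * Nat.card T * (X1 red l 1).card ≤
      Nat.card C ^ 2 * Nat.card (YE P) + ∑ b : ZE P, Nat.card (MulAction.stabilizer T b) ^ 2 := by
    have h1 := card_X_le red hl hD hab hp2 hT P hreg hne
    rw [card_YC, sum_sq_ZC P hzT hz] at h1
    exact h1
  -- the weights
  let L : G → ℕ := fun u => if u = 1 then numSimpleIn B else
    if ∃ h : u ∈ D, P.π ⟨u, h⟩ = ⟨u, h⟩ then C.relIndex (T ⊓ centralizer {u}) else 1
  have hsub := sub_count red hB hD hcomm hl hlz hT (m := 1) (Nat.coprime_one_left _)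
    (Nat.ModEq.refl 1) (Nat.ModEq.refl 1) (univ.filter fun u : G => u ∈ D)
    (fun u hu => ⟨(mem_filter.1 hu).2, pow_one u⟩) L (by
      intro u hu b hb hlb
      simp only [L]
      split_ifs with h2 h3
      · rw [numSimpleIn_top hB hlz (fun g => by
          rw [h2, mem_centralizer_singleton_iff, mul_one, one_mul]) hb hlb]
      · obtain ⟨huD, hu2⟩ := h3
        exact hL ⟨u, huD⟩ hu2 (fun h => h2 (congrArg Subtype.val h)) b hb hlb
      · exact numSimpleIn_pos b hb)
  have hsum : ∑ u ∈ univ.filter (fun u : G => u ∈ D),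
      Nat.card (T ⊓ centralizer {u} : Subgroup G) * L u =
      ∑ b : D, Nat.card {t : T // cjD t b = b} * L b := by
    rw [Finset.sum_subtype (univ.filter fun u : G => u ∈ D) (p := fun u => u ∈ D)
      (fun u => by simp)]
    exact Finset.sum_congr rfl fun b _ => by rw [card_stab_inf]
  rw [hsum] at hsub
  have hsplit : ∑ b : D, Nat.card {t : T // cjD t b = b} * L b =
      ∑ b : ZE P, Nat.card {t : T // cjD t b.1 = b.1} * L b.1 +
        ∑ b : YE P, Nat.card {t : T // cjD t b.1 = b.1} * L b.1 :=
    (Fintype.sum_subtype_add_sum_subtype (fun b : D => P.π b = b) _).symm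
  have hYE : ∑ b : YE P, Nat.card {t : T // cjD t b.1 = b.1} * L b.1 =
      Nat.card C * Nat.card (YE P) := by
    have h1 : ∀ b : YE P, Nat.card {t : T // cjD t b.1 = b.1} * L b.1 = Nat.card C := by
      intro b
      have hb1 : ((b.1 : D) : G) ≠ 1 := by
        intro h
        apply b.2
        have h2 : b.1 = 1 := Subtype.ext h
        rw [h2, map_one]
      have h2 : L b.1 = 1 := by
        simp only [L]
        rw [if_neg hb1, if_neg]
        rintro ⟨h3, h4⟩
        exact b.2 h4
      rw [h2, mul_one, ← card_stab_inf]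
      have h3 : T ⊓ centralizer {((b.1 : D) : G)} = C := by
        apply le_antisymm
        · intro s hs
          refine (hreg b.1 b.2).2 s (Subgroup.mem_inf.1 hs).1 ?_
          have := mem_centralizer_singleton_iff.1 (Subgroup.mem_inf.1 hs).2
          rw [this]; group
        · refine le_inf hCT fun s hs => ?_
          rw [mem_centralizer_singleton_iff]
          exact (mem_centralizer_iff.1 hs _ b.1.2).symm
      rw [h3]
    rw [Finset.sum_congr rfl fun b _ => h1 b, Finset.sum_const, Finset.card_univ, smul_eq_mul,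
      Nat.card_eq_fintype_card (α := YE P), mul_comm]
  have hstab : ∀ b : ZE P, Nat.card (MulAction.stabilizer T b) =
      Nat.card {t : T // cjD t b.1 = b.1} := by
    intro b
    refine Nat.card_congr (Equiv.subtypeEquivRight fun t => ?_)
    rw [MulAction.mem_stabilizer_iff, Subtype.ext_iff, smul_ZE]
  let o : ZE P := ⟨1, map_one _⟩
  have hZE : Nat.card C * ∑ b : ZE P, Nat.card {t : T // cjD t b.1 = b.1} * L b.1 +
      Nat.card T ^ 2 = ∑ b : ZE P, Nat.card (MulAction.stabilizer T b) ^ 2 +
        Nat.card C * (Nat.card T * numSimpleIn B) := by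
    rw [← Finset.add_sum_erase _ _ (mem_univ o), ← Finset.add_sum_erase _ _ (mem_univ o)]
    have h1 : L o.1 = numSimpleIn B := if_pos rfl
    have h2 : Nat.card {t : T // cjD t o.1 = o.1} = Nat.card T := by
      refine Nat.card_congr (Equiv.subtypeUnivEquiv fun t => ?_)
      exact map_one _
    have h3 : ∀ b ∈ univ.erase o, Nat.card (MulAction.stabilizer T b) ^ 2 =
        Nat.card C * (Nat.card {t : T // cjD t b.1 = b.1} * L b.1) := by
      intro b hb
      have hb1 : ((b.1 : D) : G) ≠ 1 := fun h =>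
        (Finset.mem_erase.1 hb).1 (Subtype.ext (Subtype.ext h))
      have h4 : L b.1 = C.relIndex (T ⊓ centralizer {((b.1 : D) : G)}) := by
        simp only [L]
        rw [if_neg hb1, if_pos ⟨b.1.2, b.2⟩]
      have h5 : C ≤ T ⊓ centralizer {((b.1 : D) : G)} := by
        refine le_inf hCT fun s hs => ?_
        rw [mem_centralizer_singleton_iff]
        exact (mem_centralizer_iff.1 hs _ b.1.2).symm
      have h6 : Nat.card C * C.relIndex (T ⊓ centralizer {((b.1 : D) : G)}) =
          Nat.card (T ⊓ centralizer {((b.1 : D) : G)} : Subgroup G) := by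
        have h7 := Subgroup.card_mul_index (C.subgroupOf (T ⊓ centralizer {((b.1 : D) : G)}))
        rw [Nat.card_congr (Subgroup.subgroupOfEquivOfLe h5).toEquiv] at h7
        exact h7
      rw [hstab, h4, ← card_stab_inf, sq]
      conv_lhs => rw [← h6]
      ring_nf
      rw [← h6]
      ring
    rw [mul_add, Finset.mul_sum, ← Finset.sum_congr rfl h3, h1, h2, hstab, h2]
    ring
  -- conclusion
  have hTC : Nat.card T = Nat.card C * C.relIndex T := by
    have h2 := Subgroup.card_mul_index (C.subgroupOf T)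
    rw [Nat.card_congr (Subgroup.subgroupOfEquivOfLe hCT).toEquiv] at h2
    exact h2.symm
  have hfin : Nat.card C * (Nat.card T * numSimpleIn B) ≤ Nat.card T ^ 2 := by
    have h1 := Nat.mul_le_mul_left (Nat.card C) hsub
    rw [hsplit, hYE, mul_add] at h1
    have h2 : Nat.card C * (Nat.card T * (X1 red l 1).card) =
      Nat.card C * Nat.card T * (X1 red l 1).card := by ring
    rw [h2] at h1
    have h3 := h1.trans hup
    have h4 : Nat.card C * (Nat.card C * Nat.card (YE P)) = Nat.card C ^ 2 * Nat.card (YE P) := by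
      ring
    rw [h4] at h3
    omega
  have hTpos : 0 < Nat.card T := Nat.card_pos
  have hCpos : 0 < Nat.card C := Nat.card_pos
  refine Nat.le_of_mul_le_mul_left (?_ : (Nat.card C * Nat.card T) * numSimpleIn B ≤
    (Nat.card C * Nat.card T) * C.relIndex T) (Nat.mul_pos hCpos hTpos)
  calc Nat.card C * Nat.card T * numSimpleIn B = Nat.card C * (Nat.card T * numSimpleIn B) := by
        ring
    _ ≤ Nat.card T ^ 2 := hfin
    _ = Nat.card T * Nat.card T := sq _
    _ = Nat.card C * Nat.card T * C.relIndex T := by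
        conv_lhs => rw [hTC]
        rw [← hTC]
        conv_rhs => rw [mul_assoc, mul_comm (Nat.card T), ← mul_assoc, ← hTC]
        
end

end Vale.P179.H190
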