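import Vale.Agent.P179.H190.U4

/-!
# REL, upper bound 5: the projection of a direct product
-/

namespace Vale.P179.H190

open Finset P179P P179C P179Y Subgroup P179H524 P179I P179A P179H12

open scoped Classical IsMulCommutative

universe v

section Dec

variable {G : Type*} [Group G] {D D1 D2 : Subgroup G}

theorem dec_unique (dis : D1 ⊓ D2 = ⊥) {a b c d : G} (ha : a ∈ D1) (hb : b ∈ D2) (hc : c ∈ D1)
    (hd : d ∈ D2) (h : a * b = c * d) : a = c ∧ b = d := by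
  have h1 : c⁻¹ * a = d * b⁻¹ := by
    rw [inv_mul_eq_iff_eq_mul, ← mul_assoc, ← h, mul_inv_cancel_right]
  have h2 : c⁻¹ * a ∈ D1 ⊓ D2 := Subgroup.mem_inf.2
    ⟨D1.mul_mem (D1.inv_mem hc) ha, by rw [h1]; exact D2.mul_mem hd (D2.inv_mem hb)⟩
  rw [dis, mem_bot] at h2
  have h3 : a = c := (inv_mul_eq_one.1 h2).symm
  refine ⟨h3, ?_⟩
  rw [h2] at h1
  exact (mul_inv_eq_one.1 h1.symm).symm

theorem dec_exists (hab : ∀ x ∈ D, ∀ y ∈ D, x * y = y * x) (sup : D1 ⊔ D2 = D) {x : G}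
    (hx : x ∈ D) : ∃ a ∈ D1, ∃ b ∈ D2, x = a * b := by
  have h1 : D1 ≤ D := sup ▸ le_sup_left
  have h2 : D2 ≤ D := sup ▸ le_sup_right
  rw [← sup, Subgroup.sup_eq_closure] at hx
  refine Subgroup.closure_induction (p := fun x _ => ∃ a ∈ D1, ∃ b ∈ D2, x = a * b) ?_ ?_ ?_ ?_ hx
  · rintro x (hx | hx)
    · exact ⟨x, hx, 1, one_mem _, (mul_one x).symm⟩
    · exact ⟨1, one_mem _, x, hx, (one_mul x).symm⟩
  · exact ⟨1, one_mem _, 1, one_mem _, (mul_one 1).symm⟩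
  · rintro x y _ _ ⟨a, ha, b, hb, rfl⟩ ⟨c, hc, d, hd, rfl⟩
    refine ⟨a * c, mul_mem ha hc, b * d, mul_mem hb hd, ?_⟩
    calc a * b * (c * d) = a * (b * c) * d := by group
      _ = a * (c * b) * d := by rw [hab b (h2 hb) c (h1 hc)]
      _ = a * c * (b * d) := by group
  · rintro x _ ⟨a, ha, b, hb, rfl⟩
    refine ⟨a⁻¹, inv_mem ha, b⁻¹, inv_mem hb, ?_⟩
    rw [mul_inv_rev, hab _ (h2 (inv_mem hb)) _ (h1 (inv_mem ha))]

end Dec

section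

variable {k : Type v} [Field k] {G : Type} [Group G] {D D1 D2 : Subgroup G} {l : (G → k) → k}
  [IsMulCommutative D]

/-- the projection on the second factor -/
theorem exists_prj (dis : D1 ⊓ D2 = ⊥) (sup : D1 ⊔ D2 = D)
    (s1 : ∀ n ∈ stabT D l, ∀ x ∈ D1, n * x * n⁻¹ ∈ D1)
    (s2 : ∀ n ∈ stabT D l, ∀ x ∈ D2, n * x * n⁻¹ ∈ D2) :
    ∃ P : Prj D l, ∀ b : D, ∃ a ∈ D1, ((P.π b : D) : G) ∈ D2 ∧ (b : G) = a * (P.π b : D) := by
  have hab : ∀ x ∈ D, ∀ y ∈ D, x * y = y * x := fun a ha b hb =>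
    congrArg Subtype.val (mul_comm (⟨a, ha⟩ : D) ⟨b, hb⟩)
  have h1 : D1 ≤ D := sup ▸ le_sup_left
  have h2 : D2 ≤ D := sup ▸ le_sup_right
  have hdec : ∀ b : D, ∃ c : D, (c : G) ∈ D2 ∧ ∃ a ∈ D1, (b : G) = a * c := by
    intro b
    obtain ⟨a, ha, c, hc, h⟩ := dec_exists hab sup b.2
    exact ⟨⟨c, h2 hc⟩, hc, a, ha, h⟩
  choose f hf hf2 using hdec
  have huniq : ∀ (b c : D) (a : G), a ∈ D1 → (c : G) ∈ D2 → (b : G) = a * c → f b = c := by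
    intro b c a ha hc h
    obtain ⟨a', ha', h'⟩ := hf2 b
    exact Subtype.ext (dec_unique dis ha' (hf b) ha hc (h'.symm.trans h)).2
  refine ⟨{ π := { toFun := f, map_one' := ?_, map_mul' := ?_ }, idem := ?_, eqv := ?_ }, ?_⟩
  · exact huniq 1 1 1 (one_mem _) (one_mem _) (mul_one 1).symm
  · intro b c
    obtain ⟨a, ha, h⟩ := hf2 b
    obtain ⟨a', ha', h'⟩ := hf2 c
    refine huniq _ _ (a * a') (mul_mem ha ha') (mul_mem (hf b) (hf c)) ?_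
    calc ((b * c : D) : G) = (a * f b) * (a' * f c) := by
          rw [Subgroup.coe_mul]
          conv_lhs => rw [h, h']
      _ = a * ((f b : G) * a') * f c := by group
      _ = a * (a' * (f b : G)) * f c := by rw [hab _ (f b).2 _ (h1 ha')]
      _ = a * a' * ((f b * f c : D) : G) := by push_cast; group
  · intro b
    exact huniq _ _ 1 (one_mem _) (hf b) (one_mul _).symm
  · intro t b
    obtain ⟨a, ha, h⟩ := hf2 b
    refine huniq _ _ (t * a * (t : G)⁻¹) (s1 t t.2 a ha) ?_ ?_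
    · rw [cjD_coe]
      exact s2 t t.2 _ (hf b)
    · rw [cjD_coe]
      calc (t : G) * b * (t : G)⁻¹ = t * (a * f b) * (t : G)⁻¹ := by rw [← h]
        _ = t * a * (t : G)⁻¹ * (t * (f b : G) * (t : G)⁻¹) := by group
        _ = _ := rfl
  · intro b
    obtain ⟨a, ha, h⟩ := hf2 b
    exact ⟨a, ha, hf b, h⟩

theorem prj_reg (P : Prj D l) (dis : D1 ⊓ D2 = ⊥)
    (s1 : ∀ n ∈ stabT D l, ∀ x ∈ D1, n * x * n⁻¹ ∈ D1)
    (s2 : ∀ n ∈ stabT D l, ∀ x ∈ D2, n * x * n⁻¹ ∈ D2)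
    (hP : ∀ b : D, ∃ a ∈ D1, ((P.π b : D) : G) ∈ D2 ∧ (b : G) = a * (P.π b : D))
    (hfree : ∀ u ∈ D1, u ≠ 1 → RegT D l u) {b : D} (hb : P.π b ≠ b) : RegT D l (b : G) := by
  obtain ⟨a, ha, h1, h2⟩ := hP b
  have ha1 : a ≠ 1 := by
    rintro rfl
    rw [one_mul] at h2
    exact hb (Subtype.ext h2.symm)
  refine ⟨b.2, fun n hn hnb => ?_⟩
  refine (hfree a ha ha1).2 n hn ?_
  have h3 : n * a * n⁻¹ * (n * ((P.π b : D) : G) * n⁻¹) = a * (P.π b : D) := by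
    rw [← h2]
    conv_rhs => rw [← hnb]
    conv_rhs => rw [h2]
    group
  exact (dec_unique dis (s1 n hn a ha) (s2 n hn _ h1) ha h1 h3).1

theorem prj_ne (P : Prj D l) (sup : D1 ⊔ D2 = D) (dis : D1 ⊓ D2 = ⊥)
    (hP : ∀ b : D, ∃ a ∈ D1, ((P.π b : D) : G) ∈ D2 ∧ (b : G) = a * (P.π b : D))
    (ne : D1 ≠ ⊥) : ∃ b : D, P.π b ≠ b := by
  have h1 : D1 ≤ D := sup ▸ le_sup_left
  obtain ⟨x, hx, hx1⟩ := (Subgroup.ne_bot_iff_exists_ne_one.1 ne) |>.elim fun x h =>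
    (⟨x.1, x.2, fun h' => h (Subtype.ext h')⟩ : ∃ x, x ∈ D1 ∧ x ≠ 1)
  refine ⟨⟨x, h1 hx⟩, fun h => hx1 ?_⟩
  obtain ⟨a, ha, h2, h3⟩ := hP ⟨x, h1 hx⟩
  rw [h] at h2
  have h4 : x ∈ D1 ⊓ D2 := ⟨hx, h2⟩
  rwa [dis, mem_bot] at h4

end

end Vale.P179.H190
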