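import Vale.Agent.P179.H190.U5
import Vale.Agent.P179.Rel.Defs
import Vale.Agent.P179.H999.Ind

/-!
# REL, upper bound 6: the upper bound for blocks
-/

namespace Vale.P179.H190

open Finset P179P P179C P179Y Subgroup P179H524 P179I P179A P179H12 Vale.P179.Rel Vale.P179.H999

open P179B (inertialGroup inertialIndex regularElements)

open scoped Classical

section

/-- **the upper bound**, from the lower bounds in the centralisers -/
theorem upper_of (p : ℕ) [hp : Fact p.Prime] (k : Type) [Field k] [IsAlgClosed k] [CharP k p]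
    (red : integralClosure ℤ ℂ →+* k) (G : Type) [Group G] [Fintype G] (B : MonoidAlgebra k G)
    (hB : IsBlock B) (D : Subgroup G) (hD : IsDefectGroup B D)
    (b : MonoidAlgebra k (centralizer (D : Set G))) (hb : IsBlock b) (hbB : InducesTo b B)
    (D1 D2 : Subgroup G) (h : BHyp D D1 D2 b) (hp2 : p ≠ 2)
    (hL : ∀ (l : (G → k) → k), BP p D l → stabT D l = inertialGroup D b →
      ¬ p ∣ (centralizer (D : Set G)).relIndex (stabT D l) →
      ∀ u ∈ D2, u ≠ 1 → ∀ b' : MonoidAlgebra k (centralizer {u} : Subgroup G), IsBlock b' →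
        Low (centralizer {u}) l b' →
        (centralizer (D : Set G)).relIndex (stabT D l ⊓ centralizer {u}) ≤ numSimpleIn b') :
    numSimpleIn B ≤ inertialIndex D b := by
  have : IsMulCommutative D := ⟨⟨fun x y => Subtype.ext (h.comm x x.2 y y.2)⟩⟩
  obtain ⟨l, hl, hlz, hlb⟩ := exists_BP_of_subblock (p := p) hB hD h.comm hb hbB
  have hTe : stabT D l = inertialGroup D b := stabT_eq_inertialGroup hb hlb
  have hDp : IsPGroup p D := (exists_BP_of_block (p := p) B hB D hD).1
  have hT := hT_of_block hB hD hDp h.comm hl hlz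
  have s1 : ∀ n ∈ stabT D l, ∀ x ∈ D1, n * x * n⁻¹ ∈ D1 := by rw [hTe]; exact h.s1
  have s2 : ∀ n ∈ stabT D l, ∀ x ∈ D2, n * x * n⁻¹ ∈ D2 := by rw [hTe]; exact h.s2
  have hfree : ∀ u ∈ D1, u ≠ 1 → RegT D l u := by
    intro u hu hu1
    have h1 := h.free1 u hu hu1
    unfold RegT
    rw [hTe]
    exact h1
  obtain ⟨P, hP⟩ := exists_prj (l := l) h.dis h.sup s1 s2
  have hidx : inertialIndex D b = (centralizer (D : Set G)).relIndex (stabT D l) := by
    rw [hTe]
    rfl
  obtain ⟨t, ht, hcyc⟩ := h.cyc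
  rw [← hTe] at ht hcyc
  rw [hidx]
  refine numSimple_le_rel red hB hl hlz hDp hp2 hT P
    (fun b hb => prj_reg P h.dis s1 s2 hP hfree hb) (prj_ne P h.sup h.dis hP h.ne) ht
    (fun s hs => ?_) (fun u hu hu1 b' hb' hlb' => ?_)
  · obtain ⟨i, hi⟩ := hcyc s hs
    exact ⟨i, by rwa [zpow_natCast]⟩
  · obtain ⟨a, ha, h1, h2⟩ := hP u
    rw [hu] at h1
    exact hL l hl hTe hT u h1 (fun h' => hu1 (Subtype.ext h')) b' hb' hlb'

end

end Vale.P179.H190
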