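import Vale.Agent.P179.H190.U6
import Vale.Agent.P179.H904.Res3

/-!
# REL, upper bound 7: `UPPERR` from the lower bound
-/

namespace Vale.P179.H190

open Finset P179P P179C P179Y Subgroup P179H524 P179I P179A P179H12 Vale.P179.Rel Vale.P179.H999

open P179B (inertialGroup inertialIndex regularElements)

/-- **module UPPERR** -/
theorem upperr (hlow : Rel.BLKR) : Rel.UPPERR := by
  classical
  intro p _ k _ _ _ red G _ _ B hB D hD b hb hbB D1 D2 h hp2
  refine upper_of p k red G B hB D hD b hb hbB D1 D2 h hp2 ?_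
  intro l hl hTe hT u hu hu1 b' hb' hlb'
  have hDp : IsPGroup p D := (exists_BP_of_block (p := p) B hB D hD).1
  have huD : u ∈ D := h.sup ▸ (le_sup_right : D2 ≤ D1 ⊔ D2) hu
  have key : ∀ H : Subgroup G, D ≤ H → centralizer (D : Set G) ≤ H →
      ∀ b' : MonoidAlgebra k H, IsBlock b' → Low H l b' →
      (centralizer (D : Set G)).relIndex (stabT D l ⊓ H) ≤ numSimpleIn b' := by
    intro H hDH hCH b' hb' hlb'
    obtain ⟨hdf, β', hβ', hind, h1, h2, h3⟩ := ind_low hl hDp h.comm hT hDH hCH hb' hlb'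
    have hcyc := cyc_low hCH (by rw [hTe]; exact h.cyc) h1 h2
    have h4 := H904.bhyp_subgroupOf h hDH (fun n hn => by rw [← hTe]; exact (h1 n).1 hn) hcyc
    have h5 := hlow p k H b' hb' (D.subgroupOf H) hdf β' hβ' hind _ _ h4
    rwa [h3] at h5
  exact key _ (fun x hx => mem_centralizer_singleton_iff.2 (h.comm x hx u huD))
    (fun x hx => mem_centralizer_singleton_iff.2 (mem_centralizer_iff.1 hx u huD).symm) b' hb' hlb'

end Vale.P179.H190
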